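/-
R335/KA/Abs: the abstract slice algebra of block KA (definitions).  Architect: helper59.
For a fixed `x`, the slices `(F1 A (x, ·), F3 A (x, ·))` live in a real vector space `H` with three
symmetric bilinear forms (`ip` = L² product, `q` = two-electron form, `W` = form of `Wx x`), a
parity involution `P`, an even unit vector `ψ` and three odd orthonormal vectors `a i`.
-/
import Crest.Agent.R335.Blocks

set_option autoImplicit false
set_option linter.unusedSectionVars false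
set_option linter.unusedVariables false
set_option linter.unusedSimpArgs false

noncomputable section

namespace Crest.Agent.R335.KA

open MeasureTheory Set Filter Topology Metric

abbrev Bil (H : Type) [AddCommGroup H] [Module ℝ H] := H →ₗ[ℝ] H →ₗ[ℝ] ℝ

variable {H : Type} [AddCommGroup H] [Module ℝ H]

/-- The seminorm of a form. -/
def nr (ip : Bil H) (f : H) : ℝ := √(ip f f)

/-- The slice operator. -/
def Qa {ι : Type} [Fintype ι] (ip : Bil H) (P : H →ₗ[ℝ] H) (τ τ' : ℝ) (Φ : ι → H) (G : H) : H :=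
  τ • G + τ' • P G - ∑ i, ip (Φ i) G • Φ i

/-- A semi-inner product with an isometric involution. -/
structure Pre (ip : Bil H) (P : H →ₗ[ℝ] H) : Prop where
  comm : ∀ f g, ip f g = ip g f
  nn : ∀ f, 0 ≤ ip f f
  PP : ∀ f, P (P f) = f
  ipP : ∀ f g, ip (P f) (P g) = ip f g

/-- The conditions under which `Qa` is an orthogonal projection. -/
structure Prj {ι : Type} [Fintype ι] [DecidableEq ι] (ip : Bil H) (P : H →ₗ[ℝ] H) (τ τ' : ℝ)
    (Φ : ι → H) : Prop where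
  t1 : τ ^ 2 + τ' ^ 2 = τ
  t2 : 2 * τ * τ' = τ'
  inv : ∀ i, τ • Φ i + τ' • P (Φ i) = Φ i
  on : ∀ i j, ip (Φ i) (Φ j) = if i = j then 1 else 0

/-- The data of a slice. -/
structure Dat (H : Type) [AddCommGroup H] [Module ℝ H] where
  ip : Bil H
  q : Bil H
  W : Bil H
  P : H →ₗ[ℝ] H
  ψ : H
  a : Fin 3 → H

namespace Dat
variable (d : Dat H)
def n (f : H) : ℝ := nr d.ip f
def T (l : ℝ) (f g : H) : ℝ := d.q f g + l * d.W f g
def ve : H := (√6)⁻¹ • ((2 : ℝ) • d.a 0 + d.a 1 + d.a 2)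
/-- identity -/
def Gi (G : H) : H := Qa d.ip d.P 1 0 (![] : Fin 0 → H) G
/-- odd part -/
def Gm (G : H) : H := Qa d.ip d.P (1 / 2) (-1 / 2) (![] : Fin 0 → H) G
/-- even part -/
def Gp (G : H) : H := Qa d.ip d.P (1 / 2) (1 / 2) (![] : Fin 0 → H) G
/-- even part orthogonal to `ψ` -/
def Go (G : H) : H := Qa d.ip d.P (1 / 2) (1 / 2) ![d.ψ] G
/-- odd part orthogonal to the `a i` -/
def Ge (G : H) : H := Qa d.ip d.P (1 / 2) (-1 / 2) d.a G
/-- part orthogonal to `ψ` and `ve` -/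
def Gn (G : H) : H := Qa d.ip d.P 1 0 ![d.ψ, d.ve] G
end Dat

/-- The geometric facts. -/
structure Geo (d : Dat H) : Prop extends Pre d.ip d.P where
  Pψ : d.P d.ψ = d.ψ
  Pa : ∀ i, d.P (d.a i) = -d.a i
  nψ : d.ip d.ψ d.ψ = 1
  na : ∀ i j, d.ip (d.a i) (d.a j) = if i = j then 1 else 0

/-- The facts that hold for every `x` (`e = eg + eu`, `δ = eu - eg`). -/
structure Ctx (d : Dat H) (E2 e δ c l K : ℝ) : Prop extends Geo d where
  q_comm : ∀ f g, d.q f g = d.q g f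
  W_comm : ∀ f g, d.W f g = d.W g f
  W_nn : ∀ f, 0 ≤ d.W f f
  qP : ∀ f g, d.q (d.P f) (d.P g) = d.q f g
  l_nn : 0 ≤ l
  δ_nn : 0 ≤ δ
  K_ge : 1 ≤ K
  eqψ : ∀ f, d.q d.ψ f = E2 * d.ip d.ψ f
  eqa : ∀ i f, |d.q (d.a i) f - e * d.ip (d.a i) f| ≤ l * K * d.n f
  gapψ : ∀ f, E2 * d.ip f f + δ / 2 * (d.ip f f - d.ip d.ψ f ^ 2) ≤ d.q f f
  gapa : ∀ f, d.P f = -f → e * d.ip f f ≤ d.q f f
  gapb : ∀ f, d.P f = -f → (∀ i, d.ip (d.a i) f = 0) → (e + c) * d.ip f f ≤ d.q f f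
  Wψ : ∀ f, |d.W d.ψ f| ≤ K * d.n f
  Wa : ∀ i f, |d.W (d.a i) f| ≤ K * d.n f
  k1 : d.W d.ψ (d.a 1) = d.W d.ψ (d.a 0)
  k2 : d.W d.ψ (d.a 2) = 0

/-- The facts that hold in the exterior region. -/
structure CtxX (d : Dat H) (δ l K C1 D : ℝ) (x : X) : Prop where
  r_pos : 0 < ‖x‖
  small : 4 * l / ‖x‖ ≤ δ
  CD_nn : 0 ≤ C1 * D
  CD_le : C1 * D ≤ K
  WB : ∀ f, |d.W d.ψ f - 2 / ‖x‖ * d.ip d.ψ f| ≤ K / ‖x‖ ^ 2 * d.n f
  WA : ∀ f, d.P f = -f → |d.W d.ψ f| ≤ (C1 * D * |x 2| / ‖x‖ ^ 3 + K * ex (2 / 5) x) * d.n f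
  WA' : ∀ i f, d.P f = f → |d.W (d.a i) f| ≤ K * (|x 2| / ‖x‖ ^ 3 + ex (2 / 5) x) * d.n f

/-- The cross terms of the slice `G` at `x`. -/
structure Cross (d : Dat H) (K : ℝ) (x : X) (G : H) : Prop where
  m : ∀ f, d.P f = f →
    |d.W (d.Gm G) f| ≤ (8 * |x 2| / ‖x‖ ^ 2 * d.n (d.Gm G) + K * ex (13 / 10) x) * d.n f
  p : ∀ f, d.P f = -f →
    |d.W (d.Gp G) f| ≤ (8 * |x 2| / ‖x‖ ^ 2 * d.n (d.Gp G) + K * ex (13 / 10) x) * d.n f
  o : ∀ f, d.P f = -f →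
    |d.W (d.Go G) f| ≤ (8 * |x 2| / ‖x‖ ^ 2 * d.n (d.Go G) + K * ex (13 / 10) x) * d.n f

/-- The values of the channel functions at `x`. -/
structure Val (d : Dat H) (f : Fns) (x : X) (G : H) : Prop where
  R : f.R x = d.n G
  Ev : f.Ev x = d.n (d.Gm G)
  O : f.O x = d.n (d.Gp G)
  No : f.No x = d.n (d.Go G)
  Ne : f.Ne x = d.n (d.Ge G)
  N : f.N x = d.n (d.Gn G)
  dd : f.d x = -d.ip d.ψ G
  e1 : f.e1 x = d.ip (d.a 0) G
  e2 : f.e2 x = d.ip (d.a 1) G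
  e3 : f.e3 x = d.ip (d.a 2) G
  k : f.k x = d.W d.ψ (d.a 0)

end Crest.Agent.R335.KA
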