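/-
R335/KA/Alg0: projections in a semi-inner product space (pure algebra)
Skeleton by helper59 (block KA of row 335, see R335/Notes, section KA); keep the statements
unchanged, add any helper lemmas you like.
-/
import Crest.Agent.R335.KA.Abs

set_option autoImplicit false
set_option linter.unusedSectionVars false
set_option linter.unusedVariables false
set_option linter.unusedSimpArgs false

noncomputable section

namespace Crest.Agent.R335.KA

open MeasureTheory Set Filter Topology Metric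

variable {H : Type} [AddCommGroup H] [Module ℝ H]

section pre
variable {ip : Bil H} {P : H →ₗ[ℝ] H}

theorem Pre.nr_nn (h : Pre ip P) (f : H) : 0 ≤ nr ip f := by
  exact Real.sqrt_nonneg _

theorem Pre.nr_sq (h : Pre ip P) (f : H) : nr ip f ^ 2 = ip f f := by
  exact Real.sq_sqrt (h.nn f)

/-- Cauchy-Schwarz (`discrim_le_zero` for `t ↦ ip (t • f + g) (t • f + g)`). -/
theorem Pre.cs (h : Pre ip P) (f g : H) : |ip f g| ≤ nr ip f * nr ip g := by
  have h1 : ∀ t : ℝ, 0 ≤ ip f f * (t * t) + 2 * ip f g * t + ip g g := fun t => by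
    have := h.nn (t • f + g)
    simp only [map_add, map_smul, LinearMap.add_apply, LinearMap.smul_apply, smul_eq_mul,
      h.comm g f] at this
    linarith
  have h2 := discrim_le_zero h1
  rw [discrim] at h2
  rw [nr, nr, ← Real.sqrt_mul (h.nn f)]
  exact Real.abs_le_sqrt (by nlinarith)

theorem Pre.nr_add (h : Pre ip P) (f g : H) : nr ip (f + g) ≤ nr ip f + nr ip g := by
  have h1 := (abs_le.1 (h.cs f g)).2
  refine abs_le_of_sq_le_sq' ?_ (add_nonneg (h.nr_nn f) (h.nr_nn g)) |>.2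
  rw [h.nr_sq, add_sq, h.nr_sq, h.nr_sq]
  simp only [map_add, LinearMap.add_apply, h.comm g f]
  linarith

theorem Pre.nr_smul (h : Pre ip P) (c : ℝ) (f : H) : nr ip (c • f) = |c| * nr ip f := by
  simp only [nr, map_smul, LinearMap.smul_apply, smul_eq_mul]
  rw [← mul_assoc, Real.sqrt_mul (mul_self_nonneg c), Real.sqrt_mul_self_eq_abs]

theorem Pre.nr_P (h : Pre ip P) (f : H) : nr ip (P f) = nr ip f := by
  rw [nr, nr, h.ipP]

theorem Pre.ip_P (h : Pre ip P) (f g : H) : ip (P f) g = ip f (P g) := by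
  rw [← h.ipP (P f) g, h.PP]

/-- Even and odd vectors are orthogonal for every `P`-invariant form. -/
theorem par_zero {B : Bil H} (hB : ∀ f g, B (P f) (P g) = B f g) {f g : H} (hf : P f = f)
    (hg : P g = -g) : B f g = 0 ∧ B g f = 0 := by
  have h1 := hB f g
  have h2 := hB g f
  rw [hf, hg] at h1 h2
  simp only [map_neg, LinearMap.neg_apply] at h1 h2
  constructor <;> linarith

variable {ι : Type} [Fintype ι] [DecidableEq ι] {τ τ' : ℝ} {Φ : ι → H}

theorem Qa_add (f g : H) : Qa ip P τ τ' Φ (f + g) = Qa ip P τ τ' Φ f + Qa ip P τ τ' Φ g := by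
  simp only [Qa, map_add, smul_add, add_smul, Finset.sum_add_distrib]
  abel

theorem Qa_smul (c : ℝ) (f : H) : Qa ip P τ τ' Φ (c • f) = c • Qa ip P τ τ' Φ f := by
  simp only [Qa, map_smul, smul_eq_mul, smul_sub, smul_add, Finset.smul_sum, smul_smul, mul_comm c]

theorem Prj.orth (h : Pre ip P) (hp : Prj ip P τ τ' Φ) (i : ι) (f : H) :
    ip (Φ i) (Qa ip P τ τ' Φ f) = 0 := by
  have h1 := congrArg (fun t => ip t f) (hp.inv i)
  simp only [map_add, map_smul, LinearMap.add_apply, LinearMap.smul_apply, smul_eq_mul,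
    h.ip_P] at h1
  simp only [Qa, map_sub, map_add, map_smul, map_sum, smul_eq_mul, hp.on, mul_ite, mul_one,
    mul_zero, Finset.sum_ite_eq, Finset.mem_univ, if_true]
  linarith

theorem Prj.proj (h : Pre ip P) (hp : Prj ip P τ τ' Φ) (f g : H) :
    ip f (Qa ip P τ τ' Φ g) = ip (Qa ip P τ τ' Φ f) (Qa ip P τ τ' Φ g) := by
  have h1 : τ • Qa ip P τ τ' Φ g + τ' • P (Qa ip P τ τ' Φ g) = Qa ip P τ τ' Φ g := by
    have e : τ • ∑ i, ip (Φ i) g • Φ i + τ' • P (∑ i, ip (Φ i) g • Φ i) = ∑ i, ip (Φ i) g • Φ i := by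
      rw [map_sum, Finset.smul_sum, Finset.smul_sum, ← Finset.sum_add_distrib]
      refine Finset.sum_congr rfl fun i _ => ?_
      rw [map_smul, smul_comm τ, smul_comm τ', ← smul_add, hp.inv]
    have e1 : τ • (τ • g + τ' • P g) + τ' • P (τ • g + τ' • P g) = τ • g + τ' • P g := by
      rw [map_add, map_smul, map_smul, h.PP]
      calc _ = (τ ^ 2 + τ' ^ 2) • g + (2 * τ * τ') • P g := by module
        _ = _ := by rw [hp.t1, hp.t2]
    unfold Qa
    rw [map_sub, smul_sub, smul_sub, sub_add_sub_comm, e, e1]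
  have h2 : ip (Qa ip P τ τ' Φ f) (Qa ip P τ τ' Φ g) =
      ip f (τ • Qa ip P τ τ' Φ g + τ' • P (Qa ip P τ τ' Φ g)) := by
    generalize hq : Qa ip P τ τ' Φ g = q
    have ho : ∀ i, ip (Φ i) q = 0 := fun i => hq ▸ hp.orth h i g
    simp only [Qa, map_sub, map_add, map_smul, map_sum, LinearMap.sub_apply, LinearMap.add_apply,
      LinearMap.smul_apply, LinearMap.sum_apply, smul_eq_mul, ho, mul_zero, Finset.sum_const_zero,
      sub_zero, h.ip_P]
  rw [h2, h1]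

theorem Prj.sq (h : Pre ip P) (hp : Prj ip P τ τ' Φ) (f : H) :
    ip (Qa ip P τ τ' Φ f) (Qa ip P τ τ' Φ f) = τ * ip f f + τ' * ip f (P f) - ∑ i, ip (Φ i) f ^ 2 := by
  rw [← hp.proj h]
  simp only [Qa, map_sub, map_add, map_smul, map_sum, smul_eq_mul, h.comm f (Φ _), pow_two]

theorem Prj.nr_le (h : Pre ip P) (hp : Prj ip P τ τ' Φ) (f : H) :
    nr ip (Qa ip P τ τ' Φ f) ≤ nr ip f := by
  have h1 := (abs_le.1 (h.cs f (Qa ip P τ τ' Φ f))).2
  rw [hp.proj h, ← h.nr_sq] at h1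
  have h2 := h.nr_nn f
  have h3 := h.nr_nn (Qa ip P τ τ' Φ f)
  nlinarith

end pre

variable {d : Dat H}

theorem Dat.Gi_eq (d : Dat H) (G : H) : d.Gi G = G := by
  simp [Dat.Gi, Qa]

theorem Dat.Gp_add_Gm (d : Dat H) (G : H) : d.Gp G + d.Gm G = G := by
  simp only [Dat.Gp, Dat.Gm, Qa, Finset.univ_eq_empty, Finset.sum_empty]
  module

theorem Dat.Gp_eq (d : Dat H) (G : H) : d.Gp G = d.ip d.ψ G • d.ψ + d.Go G := by
  simp only [Dat.Gp, Dat.Go, Qa, Finset.univ_eq_empty, Finset.sum_empty, Fin.sum_univ_one,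
    Matrix.cons_val_zero]
  module

theorem Dat.Gm_eq (d : Dat H) (G : H) : d.Gm G =
    d.ip (d.a 0) G • d.a 0 + d.ip (d.a 1) G • d.a 1 + d.ip (d.a 2) G • d.a 2 + d.Ge G := by
  simp only [Dat.Gm, Dat.Ge, Qa, Finset.univ_eq_empty, Finset.sum_empty, Fin.sum_univ_three]
  module

theorem Dat.Gn_eq (d : Dat H) (G : H) : G = d.ip d.ψ G • d.ψ + d.ip d.ve G • d.ve + d.Gn G := by
  simp only [Dat.Gn, Qa, Fin.sum_univ_two, Matrix.cons_val_zero, Matrix.cons_val_one]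
  module

theorem Geo.P_Gm (h : Geo d) (G : H) : d.P (d.Gm G) = -d.Gm G := by
  simp only [Dat.Gm, Qa, Finset.univ_eq_empty, Finset.sum_empty, map_sub, map_add, map_smul, h.PP,
    map_zero]
  module

theorem Geo.P_Gp (h : Geo d) (G : H) : d.P (d.Gp G) = d.Gp G := by
  simp only [Dat.Gp, Qa, Finset.univ_eq_empty, Finset.sum_empty, map_sub, map_add, map_smul, h.PP,
    map_zero]
  module

theorem Geo.P_Go (h : Geo d) (G : H) : d.P (d.Go G) = d.Go G := by
  simp only [Dat.Go, Qa, Fin.sum_univ_one, Matrix.cons_val_zero, map_sub, map_add, map_smul, h.PP,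
    h.Pψ]
  module

theorem Geo.P_Ge (h : Geo d) (G : H) : d.P (d.Ge G) = -d.Ge G := by
  simp only [Dat.Ge, Qa, Fin.sum_univ_three, map_sub, map_add, map_smul, h.PP, h.Pa]
  module

theorem Geo.P_ve (h : Geo d) : d.P d.ve = -d.ve := by
  simp only [Dat.ve, map_add, map_smul, h.Pa]
  module

theorem Geo.n_ve (h : Geo d) : d.ip d.ve d.ve = 1 := by
  have h6 : (√6)⁻¹ * (√6)⁻¹ = 1 / 6 := by
    rw [← mul_inv, Real.mul_self_sqrt (by norm_num)]; norm_num
  simp only [Dat.ve, map_add, map_smul, LinearMap.add_apply, LinearMap.smul_apply, smul_eq_mul, h.na]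
  simp
  linear_combination 6 * h6

theorem Geo.prj_i (h : Geo d) : Prj d.ip d.P 1 0 (![] : Fin 0 → H) := by
  exact ⟨by norm_num, by norm_num, fun i => i.elim0, fun i => i.elim0⟩

theorem Geo.prj_m (h : Geo d) : Prj d.ip d.P (1 / 2) (-1 / 2) (![] : Fin 0 → H) := by
  exact ⟨by norm_num, by norm_num, fun i => i.elim0, fun i => i.elim0⟩

theorem Geo.prj_p (h : Geo d) : Prj d.ip d.P (1 / 2) (1 / 2) (![] : Fin 0 → H) := by
  exact ⟨by norm_num, by norm_num, fun i => i.elim0, fun i => i.elim0⟩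

theorem Geo.prj_o (h : Geo d) : Prj d.ip d.P (1 / 2) (1 / 2) ![d.ψ] := by
  refine ⟨by norm_num, by norm_num, Fin.forall_fin_one.2 ?_, Fin.forall_fin_one.2
    (Fin.forall_fin_one.2 ?_)⟩
  · simp only [Matrix.cons_val_zero, h.Pψ]; module
  · simpa using h.nψ

theorem Geo.prj_e (h : Geo d) : Prj d.ip d.P (1 / 2) (-1 / 2) d.a := by
  refine ⟨by norm_num, by norm_num, fun i => ?_, h.na⟩
  rw [h.Pa]; module

theorem Geo.prj_n (h : Geo d) : Prj d.ip d.P 1 0 ![d.ψ, d.ve] := by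
  have h0 := par_zero h.ipP h.Pψ h.P_ve
  refine ⟨by norm_num, by norm_num, fun i => by simp, Fin.forall_fin_two.2
    ⟨Fin.forall_fin_two.2 ⟨?_, ?_⟩, Fin.forall_fin_two.2 ⟨?_, ?_⟩⟩⟩
  · simpa using h.nψ
  · simpa using h0.1
  · simpa using h0.2
  · simpa using h.n_ve

variable {f : Fns} {x : X} {G : H}

theorem Val.e_eq (v : Val d f x G) : f.e x = d.ip d.ve G := by
  simp only [Fns.e, v.e1, v.e2, v.e3, Dat.ve, map_add, map_smul, LinearMap.add_apply,
    LinearMap.smul_apply, smul_eq_mul]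
  ring

theorem Val.pyth (h : Geo d) (v : Val d f x G) :
    f.R x ^ 2 = f.Ev x ^ 2 + f.O x ^ 2 ∧ f.O x ^ 2 = f.d x ^ 2 + f.No x ^ 2 ∧
    f.Ev x ^ 2 = f.e1 x ^ 2 + f.e2 x ^ 2 + f.e3 x ^ 2 + f.Ne x ^ 2 ∧
    f.R x ^ 2 = f.e x ^ 2 + f.d x ^ 2 + f.N x ^ 2 := by
  have hp := h.toPre
  have h1 := h.prj_m.sq hp G
  have h2 := h.prj_p.sq hp G
  have h3 := h.prj_o.sq hp G
  have h4 := h.prj_e.sq hp G
  have h5 := h.prj_n.sq hp G
  simp only [Finset.univ_eq_empty, Finset.sum_empty, Fin.sum_univ_one, Fin.sum_univ_two,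
    Fin.sum_univ_three, Matrix.cons_val_zero, Matrix.cons_val_one] at h1 h2 h3 h4 h5
  rw [v.e_eq, v.R, v.Ev, v.O, v.No, v.Ne, v.N, v.dd, v.e1, v.e2, v.e3]
  simp only [Dat.n, hp.nr_sq, Dat.Gm, Dat.Gp, Dat.Go, Dat.Ge, Dat.Gn, h1, h2, h3, h4, h5]
  refine ⟨?_, ?_, ?_, ?_⟩ <;> ring

/-- Closeness to the slice `s (a 0 + a 2) - t γ` of the determinant; `γ` = `g ⊗ g`.
`Go (G0) = -t Go γ = -t Go (γ - ψ)`, `Ge G0 = 0`, `Prj.nr_le`, `Pre.cs`. -/
theorem Val.close (h : Geo d) (v : Val d f x G) {γ : H} (hγ : d.P γ = γ) {s t ε η : ℝ}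
    (h1 : d.n (G - (s • (d.a 0 + d.a 2) - t • γ)) ≤ ε) (h2 : d.n (d.ψ - γ) ≤ η) :
    |f.d x - t| ≤ ε + |t| * η ∧ |f.e1 x - s| ≤ ε ∧ |f.e2 x| ≤ ε ∧ |f.e3 x - s| ≤ ε ∧
      f.No x ≤ ε + |t| * η ∧ f.Ne x ≤ ε := by
  have hp := h.toPre
  obtain ⟨r, hr⟩ : ∃ r, G = (s • (d.a 0 + d.a 2) - t • γ) + r := ⟨_, (add_sub_cancel _ _).symm⟩
  have hr' : G - (s • (d.a 0 + d.a 2) - t • γ) = r := by rw [hr]; abel
  rw [hr'] at h1
  have nψ : nr d.ip d.ψ = 1 := by rw [nr, h.nψ, Real.sqrt_one]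
  have na : ∀ i, nr d.ip (d.a i) = 1 := fun i => by rw [nr, h.na]; simp
  have cψ : |d.ip d.ψ r| ≤ ε := by
    have := hp.cs d.ψ r
    rw [nψ, one_mul] at this
    exact this.trans h1
  have ca : ∀ i, |d.ip (d.a i) r| ≤ ε := fun i => by
    have := hp.cs (d.a i) r
    rw [na, one_mul] at this
    exact this.trans h1
  have cγ : |1 - d.ip d.ψ γ| ≤ η := by
    have := hp.cs d.ψ (d.ψ - γ)
    rw [nψ, one_mul, map_sub, h.nψ] at this
    exact this.trans h2
  have z1 : ∀ i, d.ip d.ψ (d.a i) = 0 := fun i => (par_zero h.ipP h.Pψ (h.Pa i)).1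
  have z2 : ∀ i, d.ip (d.a i) γ = 0 := fun i => (par_zero h.ipP hγ (h.Pa i)).2
  have eo : d.Go G = t • d.Go (d.ψ - γ) + d.Go r := by
    rw [hr]
    simp only [Dat.Go, Qa, Fin.sum_univ_one, Matrix.cons_val_zero, map_sub, map_add, map_smul,
      h.Pψ, h.Pa, hγ, z1, h.nψ, smul_eq_mul]
    module
  have ee : d.Ge G = d.Ge r := by
    rw [hr]
    simp only [Dat.Ge, Qa, Fin.sum_univ_three, map_sub, map_add, map_smul, h.Pa, hγ, z2, h.na,
      smul_eq_mul]
    simp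
    module
  refine ⟨?_, ?_, ?_, ?_, ?_, ?_⟩
  · have e : f.d x - t = -(d.ip d.ψ r + t * (1 - d.ip d.ψ γ)) := by
      rw [v.dd, hr]
      simp only [map_add, map_sub, map_smul, smul_eq_mul, z1]
      ring
    rw [e, abs_neg]
    refine (abs_add_le _ _).trans (add_le_add cψ ?_)
    rw [abs_mul]
    exact mul_le_mul_of_nonneg_left cγ (abs_nonneg _)
  · have e : f.e1 x - s = d.ip (d.a 0) r := by
      rw [v.e1, hr]; simp [z2, h.na]
    exact e ▸ ca 0
  · have e : f.e2 x = d.ip (d.a 1) r := by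
      rw [v.e2, hr]; simp [z2, h.na]
    exact e ▸ ca 1
  · have e : f.e3 x - s = d.ip (d.a 2) r := by
      rw [v.e3, hr]; simp [z2, h.na]
    exact e ▸ ca 2
  · rw [v.No, eo, Dat.n]
    refine (hp.nr_add _ _).trans ?_
    rw [hp.nr_smul, add_comm]
    exact add_le_add ((h.prj_o.nr_le hp r).trans h1)
      (mul_le_mul_of_nonneg_left ((h.prj_o.nr_le hp _).trans h2) (abs_nonneg _))
  · rw [v.Ne, ee]
    exact (h.prj_e.nr_le hp r).trans h1

end Crest.Agent.R335.KA
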