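/-
R335/KA/Alg1: the slice inequalities that hold for every x (pure algebra)
Skeleton by helper59 (block KA of row 335, see R335/Notes, section KA); keep the statements
unchanged, add any helper lemmas you like.
-/
import Crest.Agent.R335.KA.Alg0

set_option autoImplicit false
set_option linter.unusedSectionVars false
set_option linter.unusedVariables false
set_option linter.unusedSimpArgs false

noncomputable section

namespace Crest.Agent.R335.KA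

open MeasureTheory Set Filter Topology Metric

variable {H : Type} [AddCommGroup H] [Module ℝ H]
variable {d : Dat H} {E2 e δ c l K M C1 D : ℝ} {f : Fns} {x : X} {G : H}

theorem Geo.nψ' (h : Geo d) : d.n d.ψ = 1 := by rw [Dat.n, nr, h.nψ, Real.sqrt_one]

theorem Geo.na' (h : Geo d) (i : Fin 3) : d.n (d.a i) = 1 := by rw [Dat.n, nr, h.na]; simp

theorem Geo.nve' (h : Geo d) : d.n d.ve = 1 := by rw [Dat.n, nr, h.n_ve, Real.sqrt_one]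

theorem Geo.n_nn (h : Geo d) (g : H) : 0 ≤ d.n g := h.toPre.nr_nn g

theorem Geo.n_sq (h : Geo d) (g : H) : d.n g ^ 2 = d.ip g g := h.toPre.nr_sq g

theorem Geo.cψ (h : Geo d) (g : H) : |d.ip d.ψ g| ≤ d.n g := by
  have := h.toPre.cs d.ψ g
  rwa [show nr d.ip d.ψ = 1 from h.nψ', one_mul] at this

theorem Geo.cve (h : Geo d) (g : H) : |d.ip d.ve g| ≤ d.n g := by
  have := h.toPre.cs d.ve g
  rwa [show nr d.ip d.ve = 1 from h.nve', one_mul] at this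

theorem Ctx.q_ge (h : Ctx d E2 e δ c l K) (g : H) : E2 * d.n g ^ 2 ≤ d.q g g := by
  have h1 := h.gapψ g
  have h2 := sq_le_sq' (abs_le.1 (h.cψ g)).1 (abs_le.1 (h.cψ g)).2
  rw [← h.n_sq] at h1
  nlinarith [h.δ_nn]

theorem inv_sqrt6 : |(√6)⁻¹| ≤ 1 := by
  rw [abs_of_nonneg (by positivity)]
  exact inv_le_one_of_one_le₀ (Real.one_le_sqrt.2 (by norm_num))

theorem Ctx.eqve (h : Ctx d E2 e δ c l K) (g : H) :
    |d.q d.ve g - e * d.ip d.ve g| ≤ 4 * (l * K * d.n g) := by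
  have e1 : d.q d.ve g - e * d.ip d.ve g = (√6)⁻¹ * (2 * (d.q (d.a 0) g - e * d.ip (d.a 0) g) +
      (d.q (d.a 1) g - e * d.ip (d.a 1) g) + (d.q (d.a 2) g - e * d.ip (d.a 2) g)) := by
    simp only [Dat.ve, map_add, map_smul, LinearMap.add_apply, LinearMap.smul_apply, smul_eq_mul]
    ring
  rw [e1, abs_mul]
  refine (mul_le_of_le_one_left (abs_nonneg _) inv_sqrt6).trans (abs_le.2 ⟨?_, ?_⟩) <;>
    linarith [abs_le.1 (h.eqa 0 g), abs_le.1 (h.eqa 1 g), abs_le.1 (h.eqa 2 g)]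

theorem Ctx.Wve (h : Ctx d E2 e δ c l K) (g : H) : |d.W d.ve g| ≤ 4 * (K * d.n g) := by
  have e1 : d.W d.ve g = (√6)⁻¹ * (2 * d.W (d.a 0) g + d.W (d.a 1) g + d.W (d.a 2) g) := by
    simp only [Dat.ve, map_add, map_smul, LinearMap.add_apply, LinearMap.smul_apply, smul_eq_mul]
  rw [e1, abs_mul]
  refine (mul_le_of_le_one_left (abs_nonneg _) inv_sqrt6).trans (abs_le.2 ⟨?_, ?_⟩) <;>
    linarith [abs_le.1 (h.Wa 0 g), abs_le.1 (h.Wa 1 g), abs_le.1 (h.Wa 2 g)]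

/-- `-(a b) ≤ s t` from `|s| ≤ a`, `|t| ≤ b`. -/
theorem mul_ge_of_abs {s t a b : ℝ} (h1 : |s| ≤ a) (h2 : |t| ≤ b) : -(a * b) ≤ s * t := by
  have : |s * t| ≤ a * b := by
    rw [abs_mul]; exact mul_le_mul h1 h2 (abs_nonneg _) ((abs_nonneg _).trans h1)
  exact (abs_le.1 this).1

/-- `gapψ`, `Pre.cs`, `W_nn`. -/
theorem low_R (h : Ctx d E2 e δ c l K) (v : Val d f x G) :
    2 * E2 * f.R x ^ 2 ≤ 2 * d.T l G (d.Gi G) := by
  rw [d.Gi_eq, v.R, Dat.T]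
  nlinarith [h.q_ge G, mul_nonneg h.l_nn (h.W_nn G)]

/-- Expand the left `G` by `Gn_eq`; `Gn G ⊥ ψ, ve` (`Prj.orth`); `eqψ`, `eqa`, `gapψ`, `Wψ`, `Wa`,
`W_nn`; the coefficients are at most `n G`. -/
theorem low_N (h : Ctx d E2 e δ c l K) (v : Val d f x G) (hM : 100 * K ≤ M) :
    2 * E2 * f.N x ^ 2 - l * M * f.R x * f.N x ≤ 2 * d.T l G (d.Gn G) := by
  have o1 : d.ip d.ψ (d.Gn G) = 0 := h.prj_n.orth h.toPre 0 G
  have o2 : d.ip d.ve (d.Gn G) = 0 := h.prj_n.orth h.toPre 1 G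
  have hG := d.Gn_eq G
  have c1 := h.cψ G
  have c2 := h.cve G
  rw [v.N, v.R]
  generalize d.Gn G = Q at *
  generalize d.ip d.ψ G = s at *
  generalize d.ip d.ve G = t at *
  have e1 : d.T l G Q = t * d.q d.ve Q + d.q Q Q + l * (s * d.W d.ψ Q + t * d.W d.ve Q + d.W Q Q) := by
    conv_lhs => rw [hG]
    simp only [Dat.T, map_add, map_smul, LinearMap.add_apply, LinearMap.smul_apply, smul_eq_mul,
      h.eqψ, o1]
    ring
  have b1 := h.eqve Q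
  rw [o2, mul_zero, sub_zero] at b1
  have b2 := mul_ge_of_abs c2 b1
  have b3 := mul_le_mul_of_nonneg_left (mul_ge_of_abs c1 (h.Wψ Q)) h.l_nn
  have b4 := mul_le_mul_of_nonneg_left (mul_ge_of_abs c2 (h.Wve Q)) h.l_nn
  have b5 := mul_nonneg h.l_nn (h.W_nn Q)
  have b6 := mul_le_mul_of_nonneg_right hM (mul_nonneg h.l_nn (mul_nonneg (h.n_nn G) (h.n_nn Q)))
  have b7 := mul_nonneg (zero_le_one.trans h.K_ge) (mul_nonneg h.l_nn (mul_nonneg (h.n_nn G) (h.n_nn Q)))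
  rw [e1]
  nlinarith [h.q_ge Q]

theorem low_d (h : Ctx d E2 e δ c l K) (v : Val d f x G) (hM : 100 * K ≤ M) {σ : ℝ} (hσ : |σ| ≤ 1) :
    2 * E2 * (σ * f.d x) - l * M * f.R x ≤ 2 * d.T l G ((-σ) • d.ψ) := by
  have e1 : d.T l G ((-σ) • d.ψ) = -σ * (E2 * d.ip d.ψ G) + l * (-σ * d.W d.ψ G) := by
    simp only [Dat.T, map_smul, LinearMap.smul_apply, smul_eq_mul, h.q_comm G, h.W_comm G, h.eqψ]
  have b1 := mul_le_mul_of_nonneg_left (mul_ge_of_abs ((abs_neg σ).trans_le hσ) (h.Wψ G)) h.l_nn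
  have b6 := mul_le_mul_of_nonneg_right hM (mul_nonneg h.l_nn (h.n_nn G))
  have b7 := mul_nonneg (zero_le_one.trans h.K_ge) (mul_nonneg h.l_nn (h.n_nn G))
  rw [e1, v.dd, v.R]
  nlinarith

theorem low_e (h : Ctx d E2 e δ c l K) (v : Val d f x G) (hM : 100 * K ≤ M) {σ : ℝ} (hσ : |σ| ≤ 1) :
    2 * e * (σ * f.e x) - l * M * f.R x ≤ 2 * d.T l G (σ • d.ve) := by
  have e1 : d.T l G (σ • d.ve) = σ * (d.q d.ve G - e * d.ip d.ve G) + σ * (e * d.ip d.ve G) +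
      l * (σ * d.W d.ve G) := by
    simp only [Dat.T, map_smul, LinearMap.smul_apply, smul_eq_mul, h.q_comm G, h.W_comm G]
    ring
  have b1 := mul_le_mul_of_nonneg_left (mul_ge_of_abs hσ (h.Wve G)) h.l_nn
  have b2 := mul_ge_of_abs hσ (h.eqve G)
  have b6 := mul_le_mul_of_nonneg_right hM (mul_nonneg h.l_nn (h.n_nn G))
  have b7 := mul_nonneg (zero_le_one.trans h.K_ge) (mul_nonneg h.l_nn (h.n_nn G))
  rw [e1, v.e_eq, v.R]
  nlinarith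

/-- (Op): `g = c ψ + g'`, `g' = Qa ip P 1 0 ![ψ] g ⊥ ψ`; `W g g ≥ c² W ψ ψ + 2 c W ψ g'`, `WB`
twice, `gapψ`, `small`. -/
theorem low_op (h : Ctx d E2 e δ c l K) (hx : CtxX d δ l K C1 D x) (g : H) :
    (E2 + 2 * l / ‖x‖ - 2 * l * K / ‖x‖ ^ 2) * d.ip g g ≤ d.T l g g := by
  have hp : Prj d.ip d.P 1 0 ![d.ψ] := ⟨by norm_num, by norm_num, fun i => by simp,
    Fin.forall_fin_one.2 (Fin.forall_fin_one.2 (by simpa using h.nψ))⟩
  have o1 : d.ip d.ψ (Qa d.ip d.P 1 0 ![d.ψ] g) = 0 := hp.orth h.toPre 0 g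
  have hg : g = d.ip d.ψ g • d.ψ + Qa d.ip d.P 1 0 ![d.ψ] g := by simp [Qa]
  have hs : d.ip g g = d.ip d.ψ g ^ 2 + d.n (Qa d.ip d.P 1 0 ![d.ψ] g) ^ 2 := by
    rw [h.n_sq, hp.sq h.toPre]; simp
  have gap := h.gapψ g
  generalize Qa d.ip d.P 1 0 ![d.ψ] g = Q at *
  generalize d.ip d.ψ g = s at *
  have e1 : d.W g g = s ^ 2 * d.W d.ψ d.ψ + 2 * (s * d.W d.ψ Q) + d.W Q Q := by
    conv_lhs => rw [hg]
    simp only [map_add, map_smul, LinearMap.add_apply, LinearMap.smul_apply, smul_eq_mul,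
      h.W_comm Q d.ψ]
    ring
  have b1 := (abs_le.1 (hx.WB d.ψ)).1
  rw [h.nψ, h.nψ', mul_one, mul_one] at b1
  have b2 := hx.WB Q
  rw [o1, mul_zero, sub_zero] at b2
  have b3 := mul_ge_of_abs (le_refl |s|) b2
  have hk : 0 ≤ K / ‖x‖ ^ 2 := div_nonneg (zero_le_one.trans h.K_ge) (sq_nonneg _)
  have b4 : s ^ 2 * (2 / ‖x‖) - 2 * (K / ‖x‖ ^ 2) * (s ^ 2 + d.n Q ^ 2) ≤ d.W g g := by
    have := mul_le_mul_of_nonneg_left b1 (sq_nonneg s)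
    have h3 := mul_nonneg hk (sq_nonneg (|s| - d.n Q))
    have h4 := mul_nonneg hk (sq_nonneg (d.n Q))
    have h5 := sq_abs s
    rw [e1]
    nlinarith [h.W_nn Q]
  have b5 := mul_le_mul_of_nonneg_left b4 h.l_nn
  have b6 := mul_le_mul_of_nonneg_right hx.small (sq_nonneg (d.n Q))
  rw [Dat.T, hs]
  rw [hs] at gap
  have e2 : 2 * l / ‖x‖ = l * (2 / ‖x‖) := by ring
  have e3 : 4 * l / ‖x‖ = 2 * (l * (2 / ‖x‖)) := by ring
  have e4 : 2 * l * K / ‖x‖ ^ 2 = 2 * l * (K / ‖x‖ ^ 2) := by ring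
  rw [e2, e4]
  rw [e3] at b6
  nlinarith

theorem low_op' (h : Ctx d E2 e δ c l K) (hx : CtxX d δ l K C1 D x) (hM : 100 * K ≤ M) (g : H) :
    (2 * E2 + 4 * l / ‖x‖ - l * M / ‖x‖ ^ 2) * d.n g ^ 2 ≤ 2 * d.T l g g := by
  have h1 := low_op h hx g
  rw [← h.n_sq] at h1
  have h2 : 4 * l * K / ‖x‖ ^ 2 ≤ l * M / ‖x‖ ^ 2 :=
    div_le_div_of_nonneg_right (by nlinarith [h.l_nn, h.K_ge]) (sq_nonneg _)
  have h3 := mul_le_mul_of_nonneg_right h2 (sq_nonneg (d.n g))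
  have e2 : 4 * l / ‖x‖ = 2 * (2 * l / ‖x‖) := by ring
  have e3 : 4 * l * K / ‖x‖ ^ 2 = 2 * (2 * l * K / ‖x‖ ^ 2) := by ring
  rw [e3] at h3
  rw [e2]
  nlinarith

theorem low_xR (h : Ctx d E2 e δ c l K) (hx : CtxX d δ l K C1 D x) (v : Val d f x G)
    (hM : 100 * K ≤ M) :
    (2 * E2 + 4 * l / ‖x‖ - l * M / ‖x‖ ^ 2) * f.R x ^ 2 ≤ 2 * d.T l G (d.Gi G) := by
  rw [d.Gi_eq, v.R]
  exact low_op' h hx hM G

/-- `G = Gp G + Gm G`, `q (Gm G) (Gp G) = 0` (`par_zero`), `low_op` for `Gp G`, `Cross.m`. -/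
theorem low_xO (h : Ctx d E2 e δ c l K) (hx : CtxX d δ l K C1 D x) (v : Val d f x G)
    (cr : Cross d K x G) (hM : 100 * K ≤ M) :
    (2 * E2 + 4 * l / ‖x‖ - l * M / ‖x‖ ^ 2) * f.O x ^ 2 -
      2 * l * (8 * |x 2| / ‖x‖ ^ 2 * f.Ev x + M * ex (13 / 10) x) * f.O x ≤
      2 * d.T l G (d.Gp G) := by
  have h1 := low_op' h hx hM (d.Gp G)
  have h2 := (abs_le.1 (cr.m _ (h.P_Gp G))).1
  have z := (par_zero h.qP (h.P_Gp G) (h.P_Gm G)).2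
  have e1 : d.T l G (d.Gp G) = d.T l (d.Gp G) (d.Gp G) + l * d.W (d.Gm G) (d.Gp G) := by
    have := d.Gp_add_Gm G
    generalize d.Gp G = p at *
    generalize d.Gm G = m at *
    subst this
    simp only [Dat.T, map_add, LinearMap.add_apply, z]
    ring
  have h3 := mul_le_mul_of_nonneg_left h2 h.l_nn
  have h4 : K * (l * ex (13 / 10) x * d.n (d.Gp G)) ≤ M * (l * ex (13 / 10) x * d.n (d.Gp G)) :=
    mul_le_mul_of_nonneg_right (by linarith [h.K_ge])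
      (mul_nonneg (mul_nonneg h.l_nn (Real.exp_pos _).le) (h.n_nn _))
  rw [e1, v.O, v.Ev]
  nlinarith

/-- `W G ψ = W ψ (Gp G) + W ψ (Gm G)`, `WB` for `Gp G` (`ip ψ (Gp G) = ip ψ G`), `WA`. -/
theorem low_xd (h : Ctx d E2 e δ c l K) (hx : CtxX d δ l K C1 D x) (v : Val d f x G)
    (hM : 100 * K ≤ M) :
    (2 * E2 + 4 * l / ‖x‖) * -f.d x -
      l * M * (f.O x / ‖x‖ ^ 2 + (|x 2| / ‖x‖ ^ 3 + ex (2 / 5) x) * f.Ev x) ≤ 2 * d.T l G d.ψ := by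
  have z := (par_zero h.ipP h.Pψ (h.P_Gm G)).1
  have h1 := (abs_le.1 (hx.WB (d.Gp G))).1
  have h2 := (abs_le.1 (hx.WA _ (h.P_Gm G))).1
  have e0 : d.ip d.ψ (d.Gp G) = d.ip d.ψ G := by
    conv_rhs => rw [← d.Gp_add_Gm G, map_add, z, add_zero]
  have e1 : d.T l G d.ψ = E2 * d.ip d.ψ G + l * (d.W d.ψ (d.Gp G) + d.W d.ψ (d.Gm G)) := by
    rw [Dat.T, h.q_comm G, h.W_comm G, h.eqψ, ← map_add, d.Gp_add_Gm]
  rw [e0] at h1
  have hK := h.K_ge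
  have hz : 0 ≤ |x 2| / ‖x‖ ^ 3 := by positivity
  have he : 0 ≤ ex (2 / 5) x := (Real.exp_pos _).le
  have h3 : 2 * (K / ‖x‖ ^ 2 * d.n (d.Gp G)) ≤ M * (d.n (d.Gp G) / ‖x‖ ^ 2) := by
    have : 0 ≤ d.n (d.Gp G) / ‖x‖ ^ 2 := div_nonneg (h.n_nn _) (sq_nonneg _)
    calc _ = 2 * K * (d.n (d.Gp G) / ‖x‖ ^ 2) := by ring
      _ ≤ _ := mul_le_mul_of_nonneg_right (by linarith) this
  have h4 : 2 * ((C1 * D * |x 2| / ‖x‖ ^ 3 + K * ex (2 / 5) x) * d.n (d.Gm G)) ≤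
      M * ((|x 2| / ‖x‖ ^ 3 + ex (2 / 5) x) * d.n (d.Gm G)) := by
    rw [← mul_assoc, ← mul_assoc, mul_div_assoc]
    refine mul_le_mul_of_nonneg_right ?_ (h.n_nn _)
    nlinarith [hx.CD_le, mul_le_mul_of_nonneg_right hx.CD_le hz]
  have h5 : 2 * (2 / ‖x‖ * d.ip d.ψ G) - M * (d.n (d.Gp G) / ‖x‖ ^ 2 +
      (|x 2| / ‖x‖ ^ 3 + ex (2 / 5) x) * d.n (d.Gm G)) ≤
      2 * (d.W d.ψ (d.Gp G) + d.W d.ψ (d.Gm G)) := by linarith
  have h6 := mul_le_mul_of_nonneg_left h5 h.l_nn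
  rw [e1, v.dd, v.O, v.Ev, neg_neg]
  have e2 : 4 * l / ‖x‖ = 2 * l * (2 / ‖x‖) := by ring
  rw [e2]
  nlinarith

end Crest.Agent.R335.KA
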