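/-
R335/KA/Alg2: the slice inequalities in the exterior region (pure algebra)
Skeleton by helper59 (block KA of row 335, see R335/Notes, section KA); keep the statements
unchanged, add any helper lemmas you like.
-/
import Crest.Agent.R335.KA.Alg1

set_option autoImplicit false
set_option linter.unusedSectionVars false
set_option linter.unusedVariables false
set_option linter.unusedSimpArgs false

noncomputable section

namespace Crest.Agent.R335.KA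

open MeasureTheory Set Filter Topology Metric

variable {H : Type} [AddCommGroup H] [Module ℝ H]
variable {d : Dat H} {E2 e δ c l K M C1 D : ℝ} {f : Fns} {x : X} {G : H}

theorem T_m (h : Ctx d E2 e δ c l K) (G : H) {Q : H} (hQ : d.P Q = -Q) :
    d.T l G Q = d.T l (d.Gm G) Q + l * d.W (d.Gp G) Q := by
  have z := (par_zero h.qP (h.P_Gp G) hQ).1
  have := d.Gp_add_Gm G
  generalize d.Gp G = p at *
  generalize d.Gm G = m at *
  subst this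
  simp only [Dat.T, map_add, LinearMap.add_apply, z]
  ring

theorem T_odd (h : Ctx d E2 e δ c l K) {Q : H} (hQ : d.P Q = -Q) : e * d.n Q ^ 2 ≤ d.T l Q Q := by
  rw [h.n_sq, Dat.T]
  linarith [h.gapa Q hQ, mul_nonneg h.l_nn (h.W_nn Q)]

/-- `G = Gp G + Gm G`, `par_zero` for `q`, `gapa`, `W_nn`, `Cross.p`. -/
theorem low_xEv (h : Ctx d E2 e δ c l K) (hx : CtxX d δ l K C1 D x) (v : Val d f x G)
    (cr : Cross d K x G) (hM : 100 * K ≤ M) :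
    2 * e * f.Ev x ^ 2 - 2 * l * (8 * |x 2| / ‖x‖ ^ 2 * f.O x + M * ex (13 / 10) x) * f.Ev x ≤
      2 * d.T l G (d.Gm G) := by
  have h1 := T_odd h (h.P_Gm G)
  have h2 := mul_le_mul_of_nonneg_left (abs_le.1 (cr.p _ (h.P_Gm G))).1 h.l_nn
  have h4 : K * (l * ex (13 / 10) x * d.n (d.Gm G)) ≤ M * (l * ex (13 / 10) x * d.n (d.Gm G)) :=
    mul_le_mul_of_nonneg_right (by linarith [h.K_ge])
      (mul_nonneg (mul_nonneg h.l_nn (Real.exp_pos _).le) (h.n_nn _))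
  rw [T_m h G (h.P_Gm G), v.O, v.Ev]
  nlinarith

/-- The refined cross term: `Gp_eq`, `WA`, `Cross.o`. -/
theorem cross_src (h : Ctx d E2 e δ c l K) (hx : CtxX d δ l K C1 D x) (v : Val d f x G)
    (cr : Cross d K x G) (hM : 100 * K ≤ M) {g : H} (hg : d.P g = -g) :
    2 * l * |d.W (d.Gp G) g| ≤ srcE C1 D l M f x * d.n g := by
  have hK : K ≤ M := by linarith [h.K_ge]
  have e1 : d.W (d.Gp G) g = d.ip d.ψ G * d.W d.ψ g + d.W (d.Go G) g := by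
    rw [d.Gp_eq]
    simp only [map_add, map_smul, LinearMap.add_apply, LinearMap.smul_apply, smul_eq_mul]
  have h1 := hx.WA g hg
  have h2 := cr.o g hg
  have hn := h.n_nn g
  have he : 0 ≤ ex (2 / 5) x := (Real.exp_pos _).le
  have he' : 0 ≤ ex (13 / 10) x := (Real.exp_pos _).le
  have h3 : |d.W (d.Gp G) g| ≤ ((C1 * D * |x 2| / ‖x‖ ^ 3 + M * ex (2 / 5) x) * |f.d x| +
      8 * |x 2| / ‖x‖ ^ 2 * f.No x + M * ex (13 / 10) x) * d.n g := by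
    rw [e1, v.dd, v.No, abs_neg]
    refine (abs_add_le _ _).trans ?_
    rw [abs_mul]
    have h4 : |d.W d.ψ g| ≤ (C1 * D * |x 2| / ‖x‖ ^ 3 + M * ex (2 / 5) x) * d.n g :=
      h1.trans (by gcongr)
    have h5 := mul_le_mul_of_nonneg_left h4 (abs_nonneg (d.ip d.ψ G))
    have h6 : K * ex (13 / 10) x * d.n g ≤ M * ex (13 / 10) x * d.n g := by gcongr
    nlinarith
  rw [srcE, mul_assoc (2 * l)]
  exact mul_le_mul_of_nonneg_left h3 (by linarith [h.l_nn])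

theorem low_xEv' (h : Ctx d E2 e δ c l K) (hx : CtxX d δ l K C1 D x) (v : Val d f x G)
    (cr : Cross d K x G) (hM : 100 * K ≤ M) :
    2 * e * f.Ev x ^ 2 - srcE C1 D l M f x * f.Ev x ≤ 2 * d.T l G (d.Gm G) := by
  have h1 := T_odd h (h.P_Gm G)
  have h2 := cross_src h hx v cr hM (h.P_Gm G)
  have h3 := mul_le_mul_of_nonneg_left (neg_abs_le (d.W (d.Gp G) (d.Gm G))) h.l_nn
  rw [T_m h G (h.P_Gm G), v.Ev]
  nlinarith

/-- `G = c ψ + Go G + Gm G`; `eqψ`, `gapψ`, `WB` (`ip ψ (Go G) = 0`), `Cross.m`. -/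
theorem low_xNo (h : Ctx d E2 e δ c l K) (hx : CtxX d δ l K C1 D x) (v : Val d f x G)
    (cr : Cross d K x G) (hM : 100 * K ≤ M) :
    (2 * E2 + δ) * f.No x ^ 2 -
      l * M * (|f.d x| / ‖x‖ ^ 2 + |x 2| / ‖x‖ ^ 2 * f.Ev x + ex (13 / 10) x) * f.No x ≤
      2 * d.T l G (d.Go G) := by
  have o1 : d.ip d.ψ (d.Go G) = 0 := h.prj_o.orth h.toPre 0 G
  have z := (par_zero h.qP (h.P_Go G) (h.P_Gm G)).2
  have e1 : d.T l G (d.Go G) = d.q (d.Go G) (d.Go G) + l * (d.ip d.ψ G * d.W d.ψ (d.Go G) +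
      d.W (d.Go G) (d.Go G) + d.W (d.Gm G) (d.Go G)) := by
    have h1 := d.Gp_add_Gm G
    rw [d.Gp_eq] at h1
    generalize d.Go G = o at *
    generalize d.Gm G = m at *
    generalize d.ip d.ψ G = s at *
    subst h1
    simp only [Dat.T, map_add, map_smul, LinearMap.add_apply, LinearMap.smul_apply, smul_eq_mul, z,
      h.eqψ, o1]
    ring
  have b0 := h.gapψ (d.Go G)
  rw [o1, ← h.n_sq] at b0
  have b2 := hx.WB (d.Go G)
  rw [o1, mul_zero, sub_zero] at b2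
  have b3 := mul_ge_of_abs (le_refl |d.ip d.ψ G|) b2
  have b4 := (abs_le.1 (cr.m _ (h.P_Go G))).1
  have hn := h.n_nn (d.Go G)
  have hm := h.n_nn (d.Gm G)
  have he' : 0 ≤ ex (13 / 10) x := (Real.exp_pos _).le
  have hK := h.K_ge
  have b5 : 2 * (|d.ip d.ψ G| * (K / ‖x‖ ^ 2 * d.n (d.Go G))) ≤
      M * (|d.ip d.ψ G| / ‖x‖ ^ 2 * d.n (d.Go G)) :=
    calc _ = 2 * K * (|d.ip d.ψ G| / ‖x‖ ^ 2 * d.n (d.Go G)) := by ring
      _ ≤ _ := mul_le_mul_of_nonneg_right (by linarith) (by positivity)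
  have b6 : 2 * (8 * |x 2| / ‖x‖ ^ 2 * d.n (d.Gm G) * d.n (d.Go G)) ≤
      M * (|x 2| / ‖x‖ ^ 2 * d.n (d.Gm G) * d.n (d.Go G)) :=
    calc _ = 16 * (|x 2| / ‖x‖ ^ 2 * d.n (d.Gm G) * d.n (d.Go G)) := by ring
      _ ≤ _ := mul_le_mul_of_nonneg_right (by linarith) (by positivity)
  have b7 : 2 * K * (ex (13 / 10) x * d.n (d.Go G)) ≤ M * (ex (13 / 10) x * d.n (d.Go G)) :=
    mul_le_mul_of_nonneg_right (by linarith) (by positivity)
  have b8 : -(M * (|d.ip d.ψ G| / ‖x‖ ^ 2 + |x 2| / ‖x‖ ^ 2 * d.n (d.Gm G) + ex (13 / 10) x) *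
      d.n (d.Go G)) ≤ 2 * (d.ip d.ψ G * d.W d.ψ (d.Go G) +
      d.W (d.Go G) (d.Go G) + d.W (d.Gm G) (d.Go G)) := by
    nlinarith [h.W_nn (d.Go G)]
  have b9 := mul_le_mul_of_nonneg_left b8 h.l_nn
  rw [e1, v.No, v.dd, v.Ev, abs_neg]
  nlinarith

theorem Geo.ip_a_Gm (h : Geo d) (i : Fin 3) (G : H) : d.ip (d.a i) (d.Gm G) = d.ip (d.a i) G := by
  conv_rhs => rw [← d.Gp_add_Gm G, map_add, (par_zero h.ipP (h.P_Gp G) (h.Pa i)).2, zero_add]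

theorem Geo.ca (h : Geo d) (i : Fin 3) (G : H) : |d.ip (d.a i) G| ≤ d.n (d.Gm G) := by
  have := h.toPre.cs (d.a i) (d.Gm G)
  rwa [show nr d.ip (d.a i) = 1 from h.na' i, one_mul, h.ip_a_Gm] at this

/-- `G = Gp G + ∑ e_i a_i + Ge G`; `eqa`, `gapb`, `Wa`, `cross_src`; `|e_i| ≤ Ev`. -/
theorem low_xNe (h : Ctx d E2 e δ c l K) (hx : CtxX d δ l K C1 D x) (v : Val d f x G)
    (cr : Cross d K x G) (hM : 100 * K ≤ M) :
    (2 * e + 2 * c) * f.Ne x ^ 2 - (l * M * f.Ev x + srcE C1 D l M f x) * f.Ne x ≤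
      2 * d.T l G (d.Ge G) := by
  have o : ∀ i, d.ip (d.a i) (d.Ge G) = 0 := fun i => h.prj_e.orth h.toPre i G
  have b0 := h.gapb _ (h.P_Ge G) o
  rw [← h.n_sq] at b0
  have b1 : ∀ i, -(d.n (d.Gm G) * (l * K * d.n (d.Ge G))) ≤ d.ip (d.a i) G * d.q (d.a i) (d.Ge G) :=
    fun i => mul_ge_of_abs (h.ca i G) (by simpa only [o, mul_zero, sub_zero] using h.eqa i (d.Ge G))
  have b2 : ∀ i, l * -(d.n (d.Gm G) * (K * d.n (d.Ge G))) ≤
      l * (d.ip (d.a i) G * d.W (d.a i) (d.Ge G)) :=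
    fun i => mul_le_mul_of_nonneg_left (mul_ge_of_abs (h.ca i G) (h.Wa i _)) h.l_nn
  have h2 := cross_src h hx v cr hM (h.P_Ge G)
  have h3 := mul_le_mul_of_nonneg_left (neg_abs_le (d.W (d.Gp G) (d.Ge G))) h.l_nn
  have h4 := mul_nonneg h.l_nn (h.W_nn (d.Ge G))
  have h5 := mul_nonneg h.l_nn (mul_nonneg (h.n_nn (d.Gm G)) (h.n_nn (d.Ge G)))
  have h6 := mul_le_mul_of_nonneg_right hM h5
  have h7 := mul_nonneg (zero_le_one.trans h.K_ge) h5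
  rw [T_m h G (h.P_Ge G), v.Ne, v.Ev]
  conv_rhs => rw [d.Gm_eq G]
  simp only [Dat.T, map_add, map_smul, LinearMap.add_apply, LinearMap.smul_apply, smul_eq_mul]
  nlinarith [b1 0, b1 1, b1 2, b2 0, b2 1, b2 2]

/-- `q (a i) G = q (a i) (Gm G)`, `ip (a i) G = ip (a i) (Gm G)`, `eqa` for `Gm G`;
`W (a i) G = W (a i) (Gm G) + c W (a i) ψ + W (a i) (Go G)`, `c = -d`; `Wa`, `k1`, `k2`, `WA'`. -/
theorem low_xe (h : Ctx d E2 e δ c l K) (hx : CtxX d δ l K C1 D x) (v : Val d f x G)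
    (hM : 100 * K ≤ M) {α1 α2 α3 : ℝ} (h1 : |α1| ≤ 1) (h2 : |α2| ≤ 1) (h3 : |α3| ≤ 1) :
    2 * e * (α1 * f.e1 x + α2 * f.e2 x + α3 * f.e3 x) - (2 * l * (α1 + α2) * f.k x * f.d x +
      l * M * (f.Ev x + (|x 2| / ‖x‖ ^ 3 + ex (2 / 5) x) * f.No x)) ≤
      2 * d.T l G (α1 • d.a 0 + α2 • d.a 1 + α3 • d.a 2) := by
  have eq : ∀ i, d.q G (d.a i) = d.q (d.a i) (d.Gm G) := fun i => by
    conv_lhs => rw [h.q_comm, ← d.Gp_add_Gm G, map_add, (par_zero h.qP (h.P_Gp G) (h.Pa i)).2,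
      zero_add]
  have eW : ∀ i, d.W G (d.a i) = d.ip d.ψ G * d.W d.ψ (d.a i) + d.W (d.a i) (d.Go G) +
      d.W (d.a i) (d.Gm G) := fun i => by
    conv_lhs => rw [h.W_comm, ← d.Gp_add_Gm G, d.Gp_eq, map_add, map_add, map_smul, smul_eq_mul,
      h.W_comm]
  have b1 : ∀ i, ∀ {α : ℝ}, |α| ≤ 1 → -(1 * (l * K * d.n (d.Gm G))) ≤
      α * (d.q (d.a i) (d.Gm G) - e * d.ip (d.a i) G) :=
    fun i α hα => mul_ge_of_abs hα (by simpa only [h.ip_a_Gm] using h.eqa i (d.Gm G))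
  have b2 : ∀ i, ∀ {α : ℝ}, |α| ≤ 1 → l * -(1 * (K * d.n (d.Gm G))) ≤
      l * (α * d.W (d.a i) (d.Gm G)) :=
    fun i α hα => mul_le_mul_of_nonneg_left (mul_ge_of_abs hα (h.Wa i _)) h.l_nn
  have b3 : ∀ i, ∀ {α : ℝ}, |α| ≤ 1 →
      l * -(1 * (K * (|x 2| / ‖x‖ ^ 3 + ex (2 / 5) x) * d.n (d.Go G))) ≤
      l * (α * d.W (d.a i) (d.Go G)) :=
    fun i α hα => mul_le_mul_of_nonneg_left (mul_ge_of_abs hα (hx.WA' i _ (h.P_Go G))) h.l_nn
  have he : 0 ≤ ex (2 / 5) x := (Real.exp_pos _).le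
  have h5 := mul_nonneg h.l_nn (h.n_nn (d.Gm G))
  have h6 := mul_le_mul_of_nonneg_right hM h5
  have h7 := mul_nonneg (zero_le_one.trans h.K_ge) h5
  have h5' : 0 ≤ l * ((|x 2| / ‖x‖ ^ 3 + ex (2 / 5) x) * d.n (d.Go G)) :=
    mul_nonneg h.l_nn (mul_nonneg (by positivity) (h.n_nn _))
  have h6' := mul_le_mul_of_nonneg_right hM h5'
  have h7' := mul_nonneg (zero_le_one.trans h.K_ge) h5'
  rw [v.e1, v.e2, v.e3, v.k, v.dd, v.Ev, v.No]
  simp only [Dat.T, map_add, map_smul, smul_eq_mul, eq, eW, h.k1, h.k2]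
  nlinarith [b1 0 h1, b1 1 h2, b1 2 h3, b2 0 h1, b2 1 h2, b2 2 h3, b3 0 h1, b3 1 h2, b3 2 h3]

end Crest.Agent.R335.KA
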