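/-
R335/KA/Defs: the concrete slice space and the channel functions (FROZEN; ask helper59)
Skeleton by helper59 (block KA of row 335, see R335/Notes, section KA); keep the statements
unchanged, add any helper lemmas you like.
-/
import Crest.Agent.R335.KA.Abs
import Crest.Agent.R335.T.SNorm
import Crest.Agent.R335.T.Pot
import Crest.Agent.R335.T.Cmp
import Crest.Agent.R335.T.Strip

set_option autoImplicit false
set_option linter.unusedSectionVars false
set_option linter.unusedVariables false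
set_option linter.unusedSimpArgs false

noncomputable section

namespace Crest.Agent.R335.KA

open MeasureTheory Set Filter Topology Metric

/-- Pairs of functions of two electrons. -/
abbrev V2 := Fin 2 → Y → ℝ

/-- The slice at `x`. -/
def sl (F : Fin 2 → Z → ℝ) (x : X) : V2 := fun j y => F j (x, y)
def FF (A : Z → ℝ) : Fin 2 → Z → ℝ := ![F1 A, F3 A]
def ip2 (G G' : V2) : ℝ := ∑ j, ip (G j) (G' j)
def qf2 (U : Y → ℝ) (G G' : V2) : ℝ := ∑ j, qf eY U (G j) (G' j)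
def w2 (x : X) (G G' : V2) : ℝ := ∑ j, ∫ y, Wx x y * G j y * G' j y
def par (G : V2) : V2 := fun j y => G j (rfY y)
/-- `Qa` for functions. -/
def Qf {ι : Type} [Fintype ι] (τ τ' : ℝ) (Φ : ι → V2) (G : V2) : V2 :=
  τ • G + τ' • par G - ∑ i, ip2 (Φ i) G • Φ i
/-- A slice operator applied slice by slice. -/
def lift (Q : V2 → V2) (F : Fin 2 → Z → ℝ) : Fin 2 → Z → ℝ := fun j p => Q (sl F p.1) j p.2

def tn (f g : X → ℝ) (y : Y) : ℝ := f y.1 * g y.2
def vψ (Ψ : Y → ℝ) : V2 := ![Ψ, 0]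
def va (g u : X → ℝ) : Fin 3 → V2 :=
  ![![tn u g, 0], ![tn g u, 0], ![0, fun y => (tn g u y - tn u g y) / √2]]
def vE (g u : X → ℝ) : V2 := (√6)⁻¹ • ((2 : ℝ) • va g u 0 + va g u 1 + va g u 2)

/-- The channel functions. -/
def fns (g u : X → ℝ) (Ψ : Y → ℝ) (A : Z → ℝ) : Fns where
  R := snm (lift (Qf 1 0 (![] : Fin 0 → V2)) (FF A))
  Ev := snm (lift (Qf (1 / 2) (-1 / 2) (![] : Fin 0 → V2)) (FF A))
  O := snm (lift (Qf (1 / 2) (1 / 2) (![] : Fin 0 → V2)) (FF A))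
  No := snm (lift (Qf (1 / 2) (1 / 2) ![vψ Ψ]) (FF A))
  Ne := snm (lift (Qf (1 / 2) (-1 / 2) (va g u)) (FF A))
  N := snm (lift (Qf 1 0 ![vψ Ψ, vE g u]) (FF A))
  d := fun x => -ip2 (vψ Ψ) (sl (FF A) x)
  e1 := fun x => ip2 (va g u 0) (sl (FF A) x)
  e2 := fun x => ip2 (va g u 1) (sl (FF A) x)
  e3 := fun x => ip2 (va g u 2) (sl (FF A) x)
  k := fun x => w2 x (vψ Ψ) (va g u 0)

/-- The decay weight. -/
def dk (y : Y) : ℝ := Real.exp (-(9 / 10) * (‖y.1‖ + ‖y.2‖))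
/-- Exponential decay with constant `B`. -/
def Dec (B : ℝ) (G : Y → ℝ) : Prop := ∀ᵐ y : Y, |G y| ≤ B * dk y

theorem h1_zero : H1 eY (0 : Y → ℝ) :=
  H1.of_wd (G := fun _ _ => 0) MemLp.zero fun i => ⟨WD.zero _, MemLp.zero⟩

theorem rfY_rfY (y : Y) : rfY (rfY y) = y := by
  simp [rfY, rf_rf]

/-- Square integrable pairs. -/
def LL : Submodule ℝ V2 where
  carrier := {G | ∀ j, MemLp (G j) 2 volume}
  add_mem' := fun h h' j => (h j).add (h' j)
  zero_mem' := fun j => MemLp.zero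
  smul_mem' := fun c G h j => (h j).const_smul c

/-- `H¹` pairs whose second component is antisymmetric. -/
def HH : Submodule ℝ V2 where
  carrier := {G | (∀ j, H1 eY (G j)) ∧ ∀ y : Y, G 1 y.swap = -G 1 y}
  add_mem' := fun {G G'} h h' => ⟨fun j => (h.1 j).add (h'.1 j), fun y => by
    show G 1 y.swap + G' 1 y.swap = -(G 1 y + G' 1 y)
    rw [h.2, h'.2]; ring⟩
  zero_mem' := ⟨fun j => h1_zero, fun y => by simp⟩
  smul_mem' := fun c G h => ⟨fun j => (h.1 j).const_mul c, fun y => by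
    show c * G 1 y.swap = -(c * G 1 y)
    rw [h.2]; ring⟩

theorem HH_le : HH ≤ LL := fun G h j => (h.1 j).1

theorem par_LL (G : V2) (h : G ∈ LL) : par G ∈ LL := fun j =>
  (h j).comp_measurePreserving sym_rfY.mp

theorem par_HH (G : V2) (h : G ∈ HH) : par G ∈ HH :=
  ⟨fun j => sym_rfY.h1 (h.1 j), fun y => h.2 (rfY y)⟩

/-- A symmetric form that is linear in the first variable on `S`. -/
def mkBil (S : Submodule ℝ V2) (β : V2 → V2 → ℝ) (hc : ∀ f g, β f g = β g f)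
    (ha : ∀ f ∈ S, ∀ f' ∈ S, ∀ g ∈ S, β (f + f') g = β f g + β f' g)
    (hs : ∀ (c : ℝ), ∀ f ∈ S, ∀ g ∈ S, β (c • f) g = c * β f g) : Bil S :=
  LinearMap.mk₂ ℝ (fun f g : S => β f g) (fun f f' g => ha _ f.2 _ f'.2 _ g.2)
    (fun c f g => hs c _ f.2 _ g.2)
    (fun f g g' => by
      show β f (g + g') = β f g + β f g'
      rw [hc, ha _ g.2 _ g'.2 _ f.2, hc g, hc g'])
    (fun c f g => by
      show β f (c • g) = c * β f g
      rw [hc, hs c _ g.2 _ f.2, hc g])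

theorem ip2_comm (f g : V2) : ip2 f g = ip2 g f := by
  simp only [ip2, ip, mul_comm]

theorem qf2_comm (U : Y → ℝ) (f g : V2) : qf2 U f g = qf2 U g f :=
  Finset.sum_congr rfl fun j _ => qf_comm _ _ _

theorem w2_comm (x : X) (f g : V2) : w2 x f g = w2 x g f := by
  simp only [w2, mul_right_comm]

theorem ip2_smul (c : ℝ) (f g : V2) : ip2 (c • f) g = c * ip2 f g := by
  simp only [ip2, ip, Finset.mul_sum, Pi.smul_apply, smul_eq_mul, mul_assoc, integral_const_mul]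

/-- The `L²` product on a space of square integrable pairs. -/
def ipS (S : Submodule ℝ V2) (hS : S ≤ LL) : Bil S :=
  mkBil S ip2 ip2_comm (fun f hf f' hf' g hg => by
      simp only [ip2, ← Finset.sum_add_distrib]
      refine Finset.sum_congr rfl fun j _ => ?_
      simp only [ip, Pi.add_apply, add_mul]
      exact integral_add ((hS hf j).integrable_mul (hS hg j)) ((hS hf' j).integrable_mul (hS hg j)))
    fun c f _ g _ => ip2_smul c f g

/-- The parity operator. -/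
def PS (S : Submodule ℝ V2) (hS : ∀ G ∈ S, par G ∈ S) : S →ₗ[ℝ] S where
  toFun G := ⟨par G, hS _ G.2⟩
  map_add' _ _ := rfl
  map_smul' _ _ := rfl

def ipL : Bil LL := ipS LL le_rfl
def PL : LL →ₗ[ℝ] LL := PS LL par_LL
def ipH : Bil HH := ipS HH HH_le
def PH : HH →ₗ[ℝ] HH := PS HH par_HH

def qH (D l : ℝ) : Bil HH :=
  mkBil HH (qf2 (U2 D l)) (qf2_comm _) (fun f hf f' hf' g hg => by
      simp only [qf2, ← Finset.sum_add_distrib]
      exact Finset.sum_congr rfl fun j _ => (pot_U2 D l).qf_add_left (hf.1 j) (hf'.1 j) (hg.1 j))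
    fun c f hf g _ => by
      simp only [qf2, Finset.mul_sum]
      exact Finset.sum_congr rfl fun j _ => qf_const_mul_left (hf.1 j) c _ _

def WH (x : X) : Bil HH :=
  mkBil HH (w2 x) (w2_comm x) (fun f hf f' hf' g hg => by
      simp only [w2, ← Finset.sum_add_distrib]
      refine Finset.sum_congr rfl fun j _ => ?_
      simp only [Pi.add_apply, add_mul, mul_add]
      exact integral_add ((pot_Wx x).integrable (hf.1 j) (hg.1 j).1)
        ((pot_Wx x).integrable (hf'.1 j) (hg.1 j).1))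
    fun c f _ g _ => by
      simp only [w2, Finset.mul_sum, ← integral_const_mul]
      refine Finset.sum_congr rfl fun j _ => integral_congr_ae (ae_of_all _ fun y => ?_)
      simp only [Pi.smul_apply, smul_eq_mul]; ring

@[simp] theorem ipL_apply (f g : LL) : ipL f g = ip2 f g := rfl
@[simp] theorem ipH_apply (f g : HH) : ipH f g = ip2 f g := rfl
@[simp] theorem qH_apply (D l : ℝ) (f g : HH) : qH D l f g = qf2 (U2 D l) f g := rfl
@[simp] theorem WH_apply (x : X) (f g : HH) : WH x f g = w2 x f g := rfl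
@[simp] theorem PL_coe (f : LL) : (PL f : V2) = par f := rfl
@[simp] theorem PH_coe (f : HH) : (PH f : V2) = par f := rfl

theorem coe_Qa {ι : Type} [Fintype ι] (S : Submodule ℝ V2) (hS : S ≤ LL) (hP : ∀ G ∈ S, par G ∈ S)
    (τ τ' : ℝ) (Φ : ι → S) (G : S) :
    ((Qa (ipS S hS) (PS S hP) τ τ' Φ G : S) : V2) = Qf τ τ' (fun i => (Φ i : V2)) G := by
  simp only [Qa, Qf, Submodule.coe_sub, Submodule.coe_add, Submodule.coe_smul, Submodule.coe_sum]
  rfl

theorem coe_QaH {ι : Type} [Fintype ι] (τ τ' : ℝ) (Φ : ι → HH) (G : HH) :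
    ((Qa ipH PH τ τ' Φ G : HH) : V2) = Qf τ τ' (fun i => (Φ i : V2)) G := coe_Qa _ _ _ _ _ _ _

theorem coe_QaL {ι : Type} [Fintype ι] (τ τ' : ℝ) (Φ : ι → LL) (G : LL) :
    ((Qa ipL PL τ τ' Φ G : LL) : V2) = Qf τ τ' (fun i => (Φ i : V2)) G := coe_Qa _ _ _ _ _ _ _

theorem h1_tn {f g : X → ℝ} (hf : H1 eX f) (hg : H1 eX g) : H1 eY (tn f g) := (hf.tensor hg).1

theorem vψ_mem {Ψ : Y → ℝ} (h : H1 eY Ψ) : vψ Ψ ∈ HH :=
  ⟨Fin.forall_fin_two.2 ⟨h, h1_zero⟩, fun y => by simp [vψ]⟩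

theorem va_mem {g u : X → ℝ} (hg : H1 eX g) (hu : H1 eX u) (i : Fin 3) : va g u i ∈ HH := by
  fin_cases i
  · exact vψ_mem (h1_tn hu hg)
  · exact vψ_mem (h1_tn hg hu)
  · refine ⟨Fin.forall_fin_two.2 ⟨h1_zero, ?_⟩, fun y => ?_⟩
    · refine (((h1_tn hg hu).sub (h1_tn hu hg)).const_mul (√2)⁻¹).congr (ae_of_all _ fun y => ?_)
      show _ = (tn g u y - tn u g y) / √2
      ring
    · show (tn g u y.swap - tn u g y.swap) / √2 = -((tn g u y - tn u g y) / √2)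
      simp only [tn, Prod.fst_swap, Prod.snd_swap]; ring

/-- The slice data at `x`. -/
def dat (D l : ℝ) (x : X) {g u : X → ℝ} {Ψ : Y → ℝ} (hg : H1 eX g) (hu : H1 eX u) (hΨ : H1 eY Ψ) :
    Dat HH where
  ip := ipH
  q := qH D l
  W := WH x
  P := PH
  ψ := ⟨vψ Ψ, vψ_mem hΨ⟩
  a := fun i => ⟨va g u i, va_mem hg hu i⟩

theorem preS (S : Submodule ℝ V2) (hS : S ≤ LL) (hP : ∀ G ∈ S, par G ∈ S) :
    Pre (ipS S hS) (PS S hP) where
  comm f g := ip2_comm _ _
  nn f := by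
    show 0 ≤ ip2 f f
    exact Finset.sum_nonneg fun j _ => integral_nonneg fun y => mul_self_nonneg _
  PP f := Subtype.ext (by
    funext j y
    show (f : V2) j (rfY (rfY y)) = _
    rw [rfY_rfY])
  ipP f g := by
    show ip2 (par f) (par g) = ip2 f g
    exact Finset.sum_congr rfl fun j _ => sym_rfY.ip ((f : V2) j) ((g : V2) j)

theorem preH : Pre ipH PH := preS _ _ _
theorem preL : Pre ipL PL := preS _ _ _

theorem snm_lift (Q : V2 → V2) (F : Fin 2 → Z → ℝ) (x : X) :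
    snm (lift Q F) x = √(ip2 (Q (sl F x)) (Q (sl F x))) := by
  simp only [snm, lift, ip2, ip, sq]

theorem snm_Qa {ι : Type} [Fintype ι] {τ τ' : ℝ} (Φ : ι → HH) {Φ' : ι → V2}
    (hΦ : ∀ i, (Φ i : V2) = Φ' i) {F : Fin 2 → Z → ℝ} {x : X} {G : HH} (hG : (G : V2) = sl F x) :
    snm (lift (Qf τ τ' Φ') F) x = nr ipH (Qa ipH PH τ τ' Φ G) := by
  rw [snm_lift, nr, ipH_apply, coe_QaH, hG, funext hΦ]

theorem lift_id (F : Fin 2 → Z → ℝ) : lift (Qf 1 0 (![] : Fin 0 → V2)) F = F := by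
  funext j p
  simp [lift, Qf, sl]

theorem val_dat (D l : ℝ) (x : X) {g u : X → ℝ} {Ψ : Y → ℝ} (hg : H1 eX g) (hu : H1 eX u)
    (hΨ : H1 eY Ψ) {A : Z → ℝ} {G : HH} (hG : (G : V2) = sl (FF A) x) :
    Val (dat D l x hg hu hΨ) (fns g u Ψ A) x G := by
  have e0 : ∀ i, (((![] : Fin 0 → HH) i : HH) : V2) = (![] : Fin 0 → V2) i := fun i => i.elim0
  have eR : Qa ipH PH 1 0 (![] : Fin 0 → HH) G = G := by simp [Qa]
  have hR := snm_Qa (τ := 1) (τ' := 0) _ e0 hG
  rw [eR] at hR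
  have hm := snm_Qa (τ := 1 / 2) (τ' := -1 / 2) _ e0 hG
  have hp := snm_Qa (τ := 1 / 2) (τ' := 1 / 2) _ e0 hG
  have ho := snm_Qa (τ := 1 / 2) (τ' := 1 / 2) ![(dat D l x hg hu hΨ).ψ] (Φ' := ![vψ Ψ])
    (Fin.forall_fin_one.2 rfl) hG
  have he := snm_Qa (τ := 1 / 2) (τ' := -1 / 2) (dat D l x hg hu hΨ).a (Φ' := va g u)
    (fun i => rfl) hG
  have hv : (((dat D l x hg hu hΨ).ve : HH) : V2) = vE g u := by
    simp only [Dat.ve, vE, Submodule.coe_smul, Submodule.coe_add, dat]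
  have hn := snm_Qa (τ := 1) (τ' := 0) ![(dat D l x hg hu hΨ).ψ, (dat D l x hg hu hΨ).ve]
    (Φ' := ![vψ Ψ, vE g u]) (Fin.forall_fin_two.2 ⟨rfl, hv⟩) hG
  refine ⟨hR, hm, hp, ho, he, hn, ?_, ?_, ?_, ?_, ?_⟩ <;>
    simp only [fns, dat, ipH_apply, WH_apply, hG]

end Crest.Agent.R335.KA
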