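/-
R335/KA/Ker0: kernel estimates without parity
Skeleton by helper59 (block KA of row 335, see R335/Notes, section KA); keep the statements
unchanged, add any helper lemmas you like.
-/
import Crest.Agent.R335.KA.Defs
import Crest.Agent.R335.KA.Alg0

set_option autoImplicit false
set_option linter.unusedSectionVars false
set_option linter.unusedVariables false
set_option linter.unusedSimpArgs false

noncomputable section

namespace Crest.Agent.R335.KA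

open MeasureTheory Set Filter Topology Metric

/-- The majorant of all kernels. -/
def mj (a : ℝ) (p : X) (y : Y) : ℝ :=
  (1 + 1 / ‖p - y.1‖ + 1 / ‖p - y.2‖ + 1 / ‖y.1 - y.2‖) * Real.exp (-a * (‖y.1‖ + ‖y.2‖))

theorem mj_nn (a : ℝ) (p : X) (y : Y) : 0 ≤ mj a p y := by
  unfold mj; positivity

theorem measurable_mj (a : ℝ) (p : X) : Measurable (mj a p) := by
  unfold mj; fun_prop

theorem int_ex {a : ℝ} (ha : 0 < a) : Integrable fun x : X => Real.exp (-a * ‖x‖) := by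
  simpa using integrable_ex ha 0 0

theorem mj_sq {a : ℝ} (ha : 0 < a) : ∃ K : ℝ, 0 ≤ K ∧ ∀ p : X,
    (Integrable fun y => mj a p y ^ 2) ∧ ∫ y, mj a p y ^ 2 ≤ K := by
  have h2 : 0 < 2 * a := by positivity
  obtain ⟨C, hC, h⟩ := int_exp_inv_sq h2
  have i0 := int_ex h2
  set e : X → ℝ := fun x => Real.exp (-(2 * a) * ‖x‖) with he
  have e0 : ∀ x, 0 ≤ e x := fun x => (Real.exp_pos _).le
  set I := ∫ x, e x with hI
  have I0 : 0 ≤ I := integral_nonneg e0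
  have m4 : Measurable fun y : Y => e y.1 * (e y.2 * (1 / ‖y.1 - y.2‖) ^ 2) := by
    simp only [he]; fun_prop
  have b4 : ∀ x : X, ∫ y : X, e x * (e y * (1 / ‖x - y‖) ^ 2) ≤ C * e x := fun x => by
    rw [integral_const_mul, mul_comm]
    exact mul_le_mul_of_nonneg_right (h x).2 (e0 x)
  have n4 : ∀ x y : X, 0 ≤ e x * (e y * (1 / ‖x - y‖) ^ 2) := fun x y =>
    mul_nonneg (e0 x) (mul_nonneg (e0 y) (sq_nonneg _))
  have i4 : Integrable fun y : Y => e y.1 * (e y.2 * (1 / ‖y.1 - y.2‖) ^ 2) := by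
    refine (integrable_prod_iff m4.aestronglyMeasurable).2 ⟨ae_of_all _ fun x => (h x).1.const_mul (e x), ?_⟩
    refine (i0.const_mul C).mono' m4.norm.stronglyMeasurable.integral_prod_right'.aestronglyMeasurable
      (ae_of_all _ fun x => ?_)
    simp only [Real.norm_of_nonneg (n4 _ _)]
    rw [Real.norm_of_nonneg (integral_nonneg (n4 x))]
    exact b4 x
  have j4 : ∫ y : Y, e y.1 * (e y.2 * (1 / ‖y.1 - y.2‖) ^ 2) ≤ C * I := by
    rw [show (volume : Measure Y) = (volume : Measure X).prod volume from rfl, integral_prod _ i4,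
      ← integral_const_mul]
    exact integral_mono i4.integral_prod_left (i0.const_mul C) b4
  refine ⟨4 * (I * I + C * I + I * C + C * I), by positivity, fun p => ?_⟩
  have i1 : Integrable fun y : Y => e y.1 * e y.2 := i0.mul_prod i0
  have i2 : Integrable fun y : Y => e y.1 * (1 / ‖p - y.1‖) ^ 2 * e y.2 := (h p).1.mul_prod i0
  have i3 : Integrable fun y : Y => e y.1 * (e y.2 * (1 / ‖p - y.2‖) ^ 2) := i0.mul_prod (h p).1
  have j1 : ∫ y : Y, e y.1 * e y.2 = I * I := integral_prod_mul e e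
  have j2 : ∫ y : Y, e y.1 * (1 / ‖p - y.1‖) ^ 2 * e y.2 ≤ C * I :=
    (integral_prod_mul (fun x => e x * (1 / ‖p - x‖) ^ 2) e).trans_le
      (mul_le_mul_of_nonneg_right (h p).2 I0)
  have j3 : ∫ y : Y, e y.1 * (e y.2 * (1 / ‖p - y.2‖) ^ 2) ≤ I * C :=
    (integral_prod_mul e fun x => e x * (1 / ‖p - x‖) ^ 2).trans_le
      (mul_le_mul_of_nonneg_left (h p).2 I0)
  have i5 := (((i1.add i2).add i3).add i4).const_mul 4
  have hle : ∀ y : Y, mj a p y ^ 2 ≤ 4 * (e y.1 * e y.2 + e y.1 * (1 / ‖p - y.1‖) ^ 2 * e y.2 +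
      e y.1 * (e y.2 * (1 / ‖p - y.2‖) ^ 2) + e y.1 * (e y.2 * (1 / ‖y.1 - y.2‖) ^ 2)) := fun y => by
    have e1 : Real.exp (-a * (‖y.1‖ + ‖y.2‖)) ^ 2 = e y.1 * e y.2 := by
      simp only [he]
      rw [← Real.exp_add, sq, ← Real.exp_add]; congr 1; ring
    rw [mj, mul_pow, e1]
    generalize 1 / ‖p - y.1‖ = s
    generalize 1 / ‖p - y.2‖ = t
    generalize 1 / ‖y.1 - y.2‖ = w
    have : (1 + s + t + w) ^ 2 ≤ 4 * (1 + s ^ 2 + t ^ 2 + w ^ 2) := by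
      nlinarith [sq_nonneg (1 - s), sq_nonneg (1 - t), sq_nonneg (1 - w), sq_nonneg (s - t),
        sq_nonneg (s - w), sq_nonneg (t - w)]
    nlinarith [mul_le_mul_of_nonneg_right this (mul_nonneg (e0 y.1) (e0 y.2))]
  have i6 : Integrable fun y => mj a p y ^ 2 :=
    i5.mono' ((measurable_mj a p).pow_const 2).aestronglyMeasurable
      (ae_of_all _ fun y => by rw [Real.norm_of_nonneg (sq_nonneg _)]; exact hle y)
  refine ⟨i6, (integral_mono i6 i5 hle).trans ?_⟩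
  rw [integral_const_mul, integral_add' ((i1.add i2).add i3) i4, integral_add' (i1.add i2) i3,
    integral_add' i1 i2]
  linarith

/-- `mj² ≤ 4 (1 + 1/|p-y1|² + 1/|p-y2|² + 1/|y1-y2|²) e^{-2a|y1|} e^{-2a|y2|}`; each term is
integrable with a bound independent of `p` (`int_exp_inv_sq`, `integrable_ex` with `k = 0`,
`Integrable.mul_prod`, `integral_prod_mul`; the last term with `integrable_prod_iff` and
`integral_prod`); then Cauchy-Schwarz (`ip_sq_le`). -/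
theorem maj {a : ℝ} (ha : 0 < a) : ∃ K : ℝ, 1 ≤ K ∧ ∀ (p : X) (f : Y → ℝ), MemLp f 2 volume →
    (Integrable fun y => mj a p y * |f y|) ∧ ∫ y, mj a p y * |f y| ≤ K * √(ip f f) := by
  obtain ⟨K, hK, h⟩ := mj_sq ha
  refine ⟨1 + √K, le_add_of_nonneg_right (Real.sqrt_nonneg _), fun p f hf => ?_⟩
  have h1 : MemLp (mj a p) 2 volume :=
    (memLp_two_iff_integrable_sq (measurable_mj a p).aestronglyMeasurable).2 (h p).1
  have h2 : MemLp (fun y => |f y|) 2 volume := hf.abs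
  refine ⟨h1.integrable_mul h2, ?_⟩
  have h3 := ip_sq_le h1 h2
  have h4 : ip (fun y => |f y|) (fun y => |f y|) = ip f f := by simp only [ip, abs_mul_abs_self]
  have h5 : ip (mj a p) (mj a p) ≤ K := by simpa only [ip, sq] using (h p).2
  have h6 : 0 ≤ ip f f := integral_nonneg fun y => mul_self_nonneg _
  rw [h4] at h3
  calc _ ≤ √(K * ip f f) :=
        Real.le_sqrt_of_sq_le (h3.trans (mul_le_mul_of_nonneg_right h5 h6))
    _ = √K * √(ip f f) := Real.sqrt_mul hK _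
    _ ≤ _ := mul_le_mul_of_nonneg_right (by linarith) (Real.sqrt_nonneg _)

theorem ip_nn (f : Y → ℝ) : 0 ≤ ip f f := integral_nonneg fun y => mul_self_nonneg _

theorem sqrt_ip_le (f : V2) (j : Fin 2) : √(ip (f j) (f j)) ≤ √(ip2 f f) :=
  Real.sqrt_le_sqrt (Finset.single_le_sum (f := fun j => ip (f j) (f j)) (fun j _ => ip_nn _)
    (Finset.mem_univ j))

/-- How `maj` is used (`norm_integral_le_of_norm_le`; no measurability of `h`);
`√(ip (f j) (f j)) ≤ nr ipH f`. -/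
theorem maj_use {a : ℝ} (ha : 0 < a) : ∃ K : ℝ, 1 ≤ K ∧ ∀ (p : X) (t : ℝ) (f : HH) (h : V2), 0 ≤ t →
    (∀ j, ∀ᵐ y : Y, |h j y| ≤ t * mj a p y * |(f : V2) j y|) →
    |∑ j, ∫ y, h j y| ≤ K * t * nr ipH f := by
  obtain ⟨K, hK, h⟩ := maj ha
  refine ⟨2 * K, by linarith, fun p t f k ht hk => ?_⟩
  have h1 : ∀ j, |∫ y, k j y| ≤ K * t * nr ipH f := fun j => by
    obtain ⟨i1, i2⟩ := h p _ (f.2.1 j).1
    have := norm_integral_le_of_norm_le (i1.const_mul t)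
      ((hk j).mono fun y hy => by rw [Real.norm_eq_abs, ← mul_assoc]; exact hy)
    rw [Real.norm_eq_abs, integral_const_mul] at this
    calc _ ≤ t * (K * √(ip ((f : V2) j) ((f : V2) j))) :=
          this.trans (mul_le_mul_of_nonneg_left i2 ht)
      _ ≤ t * (K * nr ipH f) := by gcongr; exact sqrt_ip_le _ j
      _ = _ := by ring
  rw [Fin.sum_univ_two]
  exact (abs_add_le _ _).trans (by linarith [h1 0, h1 1])

theorem dk_pos (y : Y) : 0 < dk y := Real.exp_pos _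

theorem dk_le_one (y : Y) : dk y ≤ 1 :=
  Real.exp_le_one_iff.2 (by nlinarith [norm_nonneg y.1, norm_nonneg y.2])

theorem int_dk : Integrable dk := by
  have := (int_ex (a := 9 / 10) (by norm_num)).mul_prod (int_ex (a := 9 / 10) (by norm_num))
  refine this.congr (ae_of_all _ fun y => ?_)
  simp only [dk]
  rw [← Real.exp_add]; congr 1; ring

theorem dec_sq : ∃ K : ℝ, 1 ≤ K ∧ ∀ (B : ℝ) (G : V2), 0 ≤ B → (∀ j, Dec B (G j)) →
    √(ip2 G G) ≤ K * B := by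
  have I0 : 0 ≤ ∫ y, dk y := integral_nonneg fun y => (dk_pos y).le
  refine ⟨1 + 2 * ∫ y, dk y, by linarith, fun B G hB hG => ?_⟩
  have h1 : ∀ j, ip (G j) (G j) ≤ B ^ 2 * ∫ y, dk y := fun j => by
    rw [← integral_const_mul]
    refine integral_mono_of_nonneg (ae_of_all _ fun y => mul_self_nonneg _) (int_dk.const_mul _)
      ((hG j).mono fun y hy => ?_)
    have h2 := mul_self_le_mul_self (abs_nonneg _) hy
    rw [abs_mul_abs_self] at h2
    have h3 := mul_le_of_le_one_right (mul_nonneg (sq_nonneg B) (dk_pos y).le) (dk_le_one y)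
    show G j y * G j y ≤ B ^ 2 * dk y
    nlinarith
  refine Real.sqrt_le_iff.2 ⟨by positivity, ?_⟩
  rw [ip2, Fin.sum_univ_two]
  nlinarith [h1 0, h1 1, mul_nonneg (sq_nonneg B) (mul_self_nonneg (∫ y, dk y)),
    mul_nonneg (sq_nonneg B) I0]

/-- (K0) -/
theorem ker0 : ∃ K : ℝ, 1 ≤ K ∧ ∀ (x : X) (B : ℝ) (G f : HH), 0 ≤ B → (∀ j, Dec B ((G : V2) j)) →
    |WH x G f| ≤ K * B * nr ipH f ∧
    |∑ j, ∫ y : Y, 1 / ‖y.1 - y.2‖ * (G : V2) j y * (f : V2) j y| ≤ K * B * nr ipH f := by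
  obtain ⟨K, hK, h⟩ := maj_use (a := 9 / 10) (by norm_num)
  have key : ∀ (x : X) (B : ℝ) (G f : HH) (w : Y → ℝ), 0 ≤ B → (∀ j, Dec B ((G : V2) j)) →
      (∀ y, 0 ≤ w y ∧ w y ≤ 1 + 1 / ‖x - y.1‖ + 1 / ‖x - y.2‖ + 1 / ‖y.1 - y.2‖) →
      |∑ j, ∫ y : Y, w y * (G : V2) j y * (f : V2) j y| ≤ K * B * nr ipH f :=
    fun x B G f w hB hG hw => h x B f _ hB fun j => (hG j).mono fun y hy => by
      rw [abs_mul, abs_mul, abs_of_nonneg (hw y).1]
      refine mul_le_mul_of_nonneg_right ?_ (abs_nonneg _)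
      calc _ ≤ (1 + 1 / ‖x - y.1‖ + 1 / ‖x - y.2‖ + 1 / ‖y.1 - y.2‖) * (B * dk y) :=
            mul_le_mul (hw y).2 hy (abs_nonneg _) (by positivity)
        _ = _ := by simp only [mj, dk]; ring
  refine ⟨K, hK, fun x B G f hB hG => ⟨key x B G f (Wx x) hB hG fun y => ?_,
    key x B G f _ hB hG fun y => ⟨by positivity, le_add_of_nonneg_left (by positivity)⟩⟩⟩
  unfold Wx
  exact ⟨by positivity, by linarith [show 0 ≤ 1 / ‖y.1 - y.2‖ by positivity]⟩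

theorem ae_ne_pt (x : X) : ∀ᵐ y : Y, y.1 ≠ x ∧ y.2 ≠ x := by
  have h : ∀ᵐ y : X, y ≠ x := (measure_eq_zero_iff_ae_notMem.1 (measure_singleton x)).mono
    fun y hy => hy
  exact (Measure.quasiMeasurePreserving_fst.ae h).and (Measure.quasiMeasurePreserving_snd.ae h)

theorem inv_sub_le {x y : X} (hx : 0 < ‖x‖) (hy : y ≠ x) :
    |1 / ‖x - y‖ - 1 / ‖x‖| ≤ (2 * ‖y‖ + 2 * ‖y‖ ^ 2 * (1 / ‖x - y‖)) / ‖x‖ ^ 2 := by
  have ha : 0 < ‖x - y‖ := norm_pos_iff.2 (sub_ne_zero.2 hy.symm)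
  have h1 : |‖x‖ - ‖x - y‖| ≤ ‖y‖ := by simpa using abs_norm_sub_norm_le x (x - y)
  have hs := norm_nonneg y
  generalize ‖x - y‖ = a at *
  generalize ‖x‖ = r at *
  generalize ‖y‖ = s at *
  have e : 1 / a - 1 / r = (r - a) / (a * r) := by field_simp
  have e2 : (2 * s + 2 * s ^ 2 * (1 / a)) / r ^ 2 = (2 * s * a + 2 * s ^ 2) / r / (a * r) := by
    field_simp
  rw [e, e2, abs_div, abs_of_pos (mul_pos ha hx)]
  refine div_le_div_of_nonneg_right (h1.trans ?_) (mul_pos ha hx).le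
  rw [le_div_iff₀ hx]
  nlinarith [(abs_le.1 h1).2, mul_nonneg hs ha.le, sq_nonneg s]

theorem pow_exp_le (k : ℕ) {a s : ℝ} (ha : 0 < a) (hs : 0 ≤ s) :
    s ^ k * Real.exp (-a * s) ≤ k.factorial / a ^ k := by
  have h := Real.pow_div_factorial_le_exp (a * s) (mul_nonneg ha.le hs) k
  rw [div_le_iff₀ (by positivity)] at h
  rw [le_div_iff₀ (by positivity), neg_mul, Real.exp_neg]
  have h2 := Real.exp_pos (a * s)
  calc s ^ k * (Real.exp (a * s))⁻¹ * a ^ k = (a * s) ^ k / Real.exp (a * s) := by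
        rw [mul_pow]; field_simp
    _ ≤ _ := by rw [div_le_iff₀ h2]; linarith

theorem pow_dk_le (k : ℕ) (y : Y) : (‖y.1‖ + ‖y.2‖) ^ k * dk y ≤
    k.factorial / (2 / 5) ^ k * Real.exp (-(1 / 2) * (‖y.1‖ + ‖y.2‖)) := by
  have h := pow_exp_le k (a := 2 / 5) (s := ‖y.1‖ + ‖y.2‖) (by norm_num) (by positivity)
  have e : dk y = Real.exp (-(2 / 5) * (‖y.1‖ + ‖y.2‖)) * Real.exp (-(1 / 2) * (‖y.1‖ + ‖y.2‖)) := by
    rw [dk, ← Real.exp_add]; congr 1; ring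
  rw [e, ← mul_assoc]
  exact mul_le_mul_of_nonneg_right h (Real.exp_pos _).le

/-- (KB)  `|1/|x-y| - 1/|x|| ≤ |y|/(|x| |x-y|) ≤ (2|y| + 2|y|²/|x-y|)/|x|²` for `y ≠ x`
(cases `|y| ≤ |x|/2`, `|y| > |x|/2`; `y.1 ≠ x`, `y.2 ≠ x` a.e.); `s^k e^{-.9 s} ≤ C e^{-s/2}`;
`maj_use` with `a = 1/2`; `(pot_Wx x).integrable`. -/
theorem kerB : ∃ K : ℝ, 1 ≤ K ∧ ∀ (x : X) (B : ℝ) (G f : HH), 0 ≤ B → (∀ j, Dec B ((G : V2) j)) →
    0 < ‖x‖ → |WH x G f - 2 / ‖x‖ * ipH G f| ≤ K * B / ‖x‖ ^ 2 * nr ipH f := by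
  obtain ⟨K, hK, h⟩ := maj_use (a := 1 / 2) (by norm_num)
  refine ⟨25 * K, by linarith, fun x B G f hB hG hx => ?_⟩
  have e : WH x G f - 2 / ‖x‖ * ipH G f =
      ∑ j, ∫ y, (Wx x y - 2 / ‖x‖) * (G : V2) j y * (f : V2) j y := by
    simp only [WH_apply, ipH_apply, w2, ip2, ip, Finset.mul_sum, ← Finset.sum_sub_distrib]
    refine Finset.sum_congr rfl fun j _ => ?_
    have i1 : Integrable fun y => (G : V2) j y * (f : V2) j y :=
      (G.2.1 j).1.integrable_mul (f.2.1 j).1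
    rw [← integral_const_mul, ← integral_sub ((pot_Wx x).integrable (G.2.1 j) (f.2.1 j).1)
      (i1.const_mul _)]
    exact integral_congr_ae (ae_of_all _ fun y => by ring)
  rw [e]
  refine (h x (25 * B / ‖x‖ ^ 2) f _ (by positivity) fun j => ?_).trans_eq (by ring)
  filter_upwards [hG j, ae_ne_pt x] with y hy ⟨n1, n2⟩
  rw [abs_mul, abs_mul]
  refine mul_le_mul_of_nonneg_right ?_ (abs_nonneg _)
  have h1 := inv_sub_le hx n1
  have h2 := inv_sub_le hx n2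
  have p1 := pow_dk_le 1 y
  have p2 := pow_dk_le 2 y
  have q1 : 0 ≤ 1 / ‖x - y.1‖ := by positivity
  have q2 : 0 ≤ 1 / ‖x - y.2‖ := by positivity
  have q3 : 0 ≤ 1 / ‖y.1 - y.2‖ := by positivity
  have s1 := norm_nonneg y.1
  have s2 := norm_nonneg y.2
  have h3 : |Wx x y - 2 / ‖x‖| ≤ (2 * (‖y.1‖ + ‖y.2‖) +
      2 * (‖y.1‖ + ‖y.2‖) ^ 2 * (1 / ‖x - y.1‖ + 1 / ‖x - y.2‖)) / ‖x‖ ^ 2 := by
    have e1 : Wx x y - 2 / ‖x‖ = (1 / ‖x - y.1‖ - 1 / ‖x‖) + (1 / ‖x - y.2‖ - 1 / ‖x‖) := by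
      rw [Wx]; ring
    rw [e1]
    refine (abs_add_le _ _).trans ((add_le_add h1 h2).trans ?_)
    rw [← add_div]
    refine div_le_div_of_nonneg_right ?_ (sq_nonneg _)
    nlinarith [mul_nonneg (mul_nonneg s1 s2) q1, mul_nonneg (mul_nonneg s1 s2) q2,
      mul_nonneg (sq_nonneg ‖y.1‖) q2, mul_nonneg (sq_nonneg ‖y.2‖) q1]
  refine (mul_le_mul h3 hy (abs_nonneg _) (by positivity)).trans ?_
  have h4 : (2 * (‖y.1‖ + ‖y.2‖) + 2 * (‖y.1‖ + ‖y.2‖) ^ 2 * (1 / ‖x - y.1‖ + 1 / ‖x - y.2‖)) * dk y ≤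
      25 * mj (1 / 2) x y := by
    have e0 := Real.exp_pos (-(1 / 2) * (‖y.1‖ + ‖y.2‖))
    norm_num [Nat.factorial] at p1 p2
    rw [mj]
    simp only [neg_mul] at e0 ⊢
    nlinarith [mul_le_mul_of_nonneg_right p2 (add_nonneg q1 q2), mul_nonneg q3 e0.le]
  calc _ = B / ‖x‖ ^ 2 * ((2 * (‖y.1‖ + ‖y.2‖) +
        2 * (‖y.1‖ + ‖y.2‖) ^ 2 * (1 / ‖x - y.1‖ + 1 / ‖x - y.2‖)) * dk y) := by ring
    _ ≤ B / ‖x‖ ^ 2 * (25 * mj (1 / 2) x y) := mul_le_mul_of_nonneg_left h4 (by positivity)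
    _ = _ := by ring

theorem mom_k (k : ℕ) : ∃ K : ℝ, 1 ≤ K ∧ ∀ (B : ℝ) (G : Y → ℝ), 0 ≤ B → Dec B G →
    AEStronglyMeasurable G volume →
    MemLp (fun y : Y => (‖y.1‖ + ‖y.2‖) ^ k * G y) 2 volume ∧
    ∫ y : Y, ((‖y.1‖ + ‖y.2‖) ^ k * G y) ^ 2 ≤ (K * B) ^ 2 := by
  obtain ⟨K, hK, h⟩ := mj_sq (a := 1 / 2) (by norm_num)
  set t : ℝ := k.factorial / (2 / 5) ^ k with ht
  have t0 : 0 ≤ t := by positivity
  refine ⟨1 + t ^ 2 * K, le_add_of_nonneg_right (by positivity), fun B G hB hG hm => ?_⟩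
  have hm' : AEStronglyMeasurable (fun y : Y => (‖y.1‖ + ‖y.2‖) ^ k * G y) volume :=
    (by fun_prop : Continuous fun y : Y => (‖y.1‖ + ‖y.2‖) ^ k).aestronglyMeasurable.mul hm
  have hle : ∀ᵐ y : Y, ((‖y.1‖ + ‖y.2‖) ^ k * G y) ^ 2 ≤ (t * B) ^ 2 * mj (1 / 2) 0 y ^ 2 := by
    filter_upwards [hG] with y hy
    rw [← mul_pow, ← sq_abs]
    refine pow_le_pow_left₀ (abs_nonneg _) ?_ 2
    rw [abs_mul, abs_of_nonneg (by positivity)]
    have h1 : Real.exp (-(1 / 2) * (‖y.1‖ + ‖y.2‖)) ≤ mj (1 / 2) 0 y :=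
      le_mul_of_one_le_left (Real.exp_pos _).le (by
        rw [add_assoc, add_assoc]; exact le_add_of_nonneg_right (by positivity))
    calc _ ≤ (‖y.1‖ + ‖y.2‖) ^ k * (B * dk y) := mul_le_mul_of_nonneg_left hy (by positivity)
      _ = B * ((‖y.1‖ + ‖y.2‖) ^ k * dk y) := by ring
      _ ≤ B * (t * mj (1 / 2) 0 y) := mul_le_mul_of_nonneg_left
          ((pow_dk_le k y).trans (mul_le_mul_of_nonneg_left h1 t0)) hB
      _ = _ := by ring
  have i1 := (h 0).1.const_mul ((t * B) ^ 2)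
  have i2 : Integrable fun y : Y => ((‖y.1‖ + ‖y.2‖) ^ k * G y) ^ 2 :=
    i1.mono' (hm'.pow 2) (hle.mono fun y hy => by rwa [Real.norm_of_nonneg (sq_nonneg _)])
  refine ⟨(memLp_two_iff_integrable_sq hm').2 i2, (integral_mono_ae i2 i1 hle).trans ?_⟩
  rw [integral_const_mul]
  have h2 := mul_le_mul_of_nonneg_left (h 0).2 (sq_nonneg (t * B))
  have h3 : 0 ≤ t ^ 2 * K := by positivity
  nlinarith [mul_nonneg (sq_nonneg B) h3, mul_nonneg (sq_nonneg B) (sq_nonneg (t ^ 2 * K)),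
    sq_nonneg B]

/-- Moments. -/
theorem mom : ∃ K : ℝ, 1 ≤ K ∧ ∀ (B : ℝ) (G : Y → ℝ), 0 ≤ B → Dec B G →
    AEStronglyMeasurable G volume →
    MemLp (fun y : Y => (‖y.1‖ + ‖y.2‖) * G y) 2 volume ∧
    ∫ y : Y, ((‖y.1‖ + ‖y.2‖) * G y) ^ 2 ≤ (K * B) ^ 2 ∧
    MemLp (fun y : Y => (‖y.1‖ + ‖y.2‖) ^ 2 * G y) 2 volume ∧
    ∫ y : Y, ((‖y.1‖ + ‖y.2‖) ^ 2 * G y) ^ 2 ≤ (K * B) ^ 2 := by
  obtain ⟨K1, h1, H1⟩ := mom_k 1
  obtain ⟨K2, h2, H2⟩ := mom_k 2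
  refine ⟨K1 + K2, by linarith, fun B G hB hG hm => ?_⟩
  have a := H1 B G hB hG hm
  have b := H2 B G hB hG hm
  simp only [pow_one] at a
  exact ⟨a.1, a.2.trans (by gcongr; linarith), b.1, b.2.trans (by gcongr; linarith)⟩

theorem Dec.mono {B B' : ℝ} {G : Y → ℝ} (h : Dec B G) (hB : B ≤ B') : Dec B' G := by
  exact Eventually.mono h fun y hy => hy.trans (mul_le_mul_of_nonneg_right hB (dk_pos y).le)

theorem Dec.add {B B' : ℝ} {G G' : Y → ℝ} (h : Dec B G) (h' : Dec B' G') :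
    Dec (B + B') fun y => G y + G' y := by
  filter_upwards [h, h'] with y h1 h2 using (abs_add_le _ _).trans (by linarith)

theorem Dec.const_mul {B : ℝ} {G : Y → ℝ} (h : Dec B G) (c : ℝ) :
    Dec (|c| * B) fun y => c * G y := by
  filter_upwards [h] with y h1
  rw [abs_mul, mul_assoc]
  exact mul_le_mul_of_nonneg_left h1 (abs_nonneg _)

theorem Dec.rf {B : ℝ} {G : Y → ℝ} (h : Dec B G) : Dec B fun y => G (rfY y) := by
  filter_upwards [sym_rfY.ae h] with y h1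
  simpa only [dk, rfY, norm_rf] using h1

theorem dec_zero {B : ℝ} (hB : 0 ≤ B) : Dec B 0 := by
  exact ae_of_all _ fun y => by simpa using mul_nonneg hB (dk_pos y).le

theorem dec_tn {M : ℝ} {f g : X → ℝ} (hf : ∀ᵐ x : X, |f x| ≤ M * Real.exp (-(9 / 10) * ‖x‖))
    (hg : ∀ᵐ x : X, |g x| ≤ M * Real.exp (-(9 / 10) * ‖x‖)) : Dec (M ^ 2) (tn f g) := by
  filter_upwards [Measure.quasiMeasurePreserving_fst.ae hf,
    Measure.quasiMeasurePreserving_snd.ae hg] with y h1 h2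
  rw [tn, abs_mul]
  refine (mul_le_mul h1 h2 (abs_nonneg _) ((abs_nonneg _).trans h1)).trans_eq ?_
  rw [dk, mul_add, Real.exp_add]; ring

end Crest.Agent.R335.KA
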