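/-
R335/KA/Basic: the pair of slices
Skeleton by helper59 (block KA of row 335, see R335/Notes, section KA); keep the statements
unchanged, add any helper lemmas you like.
-/
import Crest.Agent.R335.KA.Ker0

set_option autoImplicit false
set_option linter.unusedSectionVars false
set_option linter.unusedVariables false
set_option linter.unusedSimpArgs false

noncomputable section

namespace Crest.Agent.R335.KA

open MeasureTheory Set Filter Topology Metric

variable {c C D l eg eu M η E2 E : ℝ} {g u : X → ℝ} {Ψ : Y → ℝ} {A : Z → ℝ}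

theorem FF_h1 (mb : MB c D l g u eg eu M η Ψ E2 A E) (j : Fin 2) : H1 eZ (FF A j) := by
  revert j
  exact Fin.forall_fin_two.2 ⟨mb.hA.const_mul _, sym_cyc.h1 mb.hA⟩

/-- For `F3 = A ∘ cyc` write `φ = (φ ∘ cyc ∘ cyc) ∘ cyc`; `Sym.qf`, `Sym.ip`, `U3_swap12/23`. -/
theorem FF_eq (mb : MB c D l g u eg eu M η Ψ E2 A E) (j : Fin 2) (φ : Z → ℝ) (hφ : H1 eZ φ) :
    qf eZ (U3 D l) (FF A j) φ = E * ip (FF A j) φ := by
  revert j
  refine Fin.forall_fin_two.2 ⟨?_, ?_⟩
  · show qf eZ (U3 D l) (fun p => √2 * A p) φ = E * ip (fun p => √2 * A p) φ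
    rw [qf_const_mul_left mb.hA, mb.eqA φ hφ]
    simp only [ip, mul_assoc, integral_const_mul]
    ring
  · have h2 : H1 eZ fun p : Z => φ (p.2.2, (p.1, p.2.1)) := sym_cyc.h1 (sym_cyc.h1 hφ)
    have h3 := sym_cyc.qf (U3 D l) mb.hA.hl h2.hl
    have h4 := sym_cyc.ip A fun p : Z => φ (p.2.2, (p.1, p.2.1))
    have h5 : (fun p : Z => U3 D l (p.2.1, (p.2.2, p.1))) = U3 D l := by
      funext p
      rw [U3_swap23, U3_swap12]
    rw [h5, mb.eqA _ h2, ← h4] at h3
    exact h3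

theorem FF_meas (mb : MB c D l g u eg eu M η Ψ E2 A E) (j : Fin 2) : Measurable (FF A j) := by
  revert j
  exact Fin.forall_fin_two.2 ⟨mb.mA.const_mul _, mb.mA.comp (by fun_prop)⟩

theorem sl_rf (mb : MB c D l g u eg eu M η Ψ E2 A E) (x : X) : sl (FF A) (rf x) = -par (sl (FF A) x) := by
  funext j y
  revert j
  refine Fin.forall_fin_two.2 ⟨?_, ?_⟩
  · show √2 * A (rf x, y) = -(√2 * A (x, rfY y))
    have := mb.odd (x, rfY y)
    simp only [rfZ, rfY_rfY] at this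
    rw [this]; ring
  · show A (y.1, (y.2, rf x)) = -A (rf y.1, (rf y.2, x))
    have := mb.odd (rf y.1, (rf y.2, x))
    simpa only [rfZ, rfY, rf_rf] using this

/-- `H1.slice_right`, `Anti12`. -/
theorem FF_slice (mb : MB c D l g u eg eu M η Ψ E2 A E) : ∀ᵐ x : X, sl (FF A) x ∈ HH := by
  filter_upwards [(FF_h1 mb 0).slice_right (b := eX) (b' := eY),
    (FF_h1 mb 1).slice_right (b := eX) (b' := eY)] with x h0 h1
  exact ⟨Fin.forall_fin_two.2 ⟨h0.1, h1.1⟩, fun y => mb.anti y.1 y.2 x⟩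

/-- `A_bd`, `sym_cyc.ae`, `Measure.ae_ae_of_ae_prod`. -/
theorem FF_dec (mb : MB c D l g u eg eu M η Ψ E2 A E) :
    ∀ᵐ x : X, ∀ j, Dec (2 * M * ex (9 / 10) x) (sl (FF A) x j) := by
  have hM : 0 ≤ M := zero_le_one.trans mb.M_ge
  filter_upwards [Measure.ae_ae_of_ae_prod mb.A_bd,
    Measure.ae_ae_of_ae_prod (sym_cyc.ae mb.A_bd)] with x h0 h1
  refine Fin.forall_fin_two.2 ⟨h0.mono fun y hy => ?_, h1.mono fun y hy => ?_⟩
  · have e : Real.exp (-(9 / 10) * (‖x‖ + ‖y.1‖ + ‖y.2‖)) = ex (9 / 10) x * dk y := by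
      rw [ex, dk, ← Real.exp_add]; congr 1; ring
    show |√2 * A (x, y)| ≤ _
    rw [abs_mul, abs_of_nonneg (Real.sqrt_nonneg 2)]
    have h2 : √2 ≤ 2 := Real.sqrt_le_iff.2 ⟨by norm_num, by norm_num⟩
    simp only [e] at hy
    exact (mul_le_mul h2 hy (abs_nonneg _) (by norm_num)).trans_eq (by ring)
  · have e : Real.exp (-(9 / 10) * (‖y.1‖ + ‖y.2‖ + ‖x‖)) = ex (9 / 10) x * dk y := by
      rw [ex, dk, ← Real.exp_add]; congr 1; ring
    show |A (y.1, (y.2, x))| ≤ _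
    simp only [e] at hy
    have := mul_nonneg hM (mul_nonneg (Real.exp_pos (-(9 / 10) * ‖x‖)).le (dk_pos y).le)
    simp only [ex] at hy ⊢
    linarith

theorem R_eq (g u : X → ℝ) (Ψ : Y → ℝ) (A : Z → ℝ) : (fns g u Ψ A).R = snm (FF A) := by
  exact congrArg snm (lift_id _)

theorem R_sq (g u : X → ℝ) (Ψ : Y → ℝ) (A : Z → ℝ) (x : X) :
    (fns g u Ψ A).R x ^ 2 = rho A x := by
  rw [R_eq, snm, Real.sq_sqrt (Finset.sum_nonneg fun j _ => integral_nonneg fun y => sq_nonneg _),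
    Fin.sum_univ_two]
  rfl

theorem R_bd (M : ℝ) : ∃ K0 : ℝ, 1 ≤ K0 ∧ ∀ {c D l eg eu η E2 E : ℝ} {g u : X → ℝ} {Ψ : Y → ℝ}
    {A : Z → ℝ}, MB c D l g u eg eu M η Ψ E2 A E →
    ∀ᵐ x : X, (fns g u Ψ A).R x ≤ K0 * ex (9 / 10) x := by
  obtain ⟨K, hK, h⟩ := dec_sq
  refine ⟨1 + 2 * K * |M|, le_add_of_nonneg_right (by positivity), fun mb => ?_⟩
  have hM : 0 ≤ M := zero_le_one.trans mb.M_ge
  filter_upwards [FF_dec mb] with x hx
  have he : 0 < ex (9 / 10) x := Real.exp_pos _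
  have h1 := h _ _ (by positivity) hx
  rw [R_eq, abs_of_nonneg hM]
  simp only [ip2, ip, sl, ← sq] at h1
  exact h1.trans (by nlinarith)

theorem R_mass (mb : MB c D l g u eg eu M η Ψ E2 A E) : ip (fns g u Ψ A).R (fns g u Ψ A).R = 3 := by
  rw [R_eq, (ip_snm fun j => (FF_h1 mb j).1).2, Fin.sum_univ_two]
  have h1 : ip (FF A 0) (FF A 0) = 2 * ip A A := by
    rw [ip, ip, ← integral_const_mul]
    refine integral_congr_ae (ae_of_all _ fun p => ?_)
    show √2 * A p * (√2 * A p) = 2 * (A p * A p)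
    linear_combination A p * A p * Real.mul_self_sqrt (show (0 : ℝ) ≤ 2 by norm_num)
  have h2 : ip (FF A 1) (FF A 1) = ip A A := sym_cyc.ip A A
  rw [h1, h2, mb.nA]
  norm_num

/-- `Pot.qf_add_pot`-like splitting; `V D x` is a constant here. -/
theorem slice_qf (D l : ℝ) (x : X) (G G' : HH) :
    ∑ j, qf eY (fun y => U3 D l (x, y)) ((G : V2) j) ((G' : V2) j) =
      V D x * ipH G G' + (qH D l G G' + l * WH x G G') := by
  simp only [ipH_apply, qH_apply, WH_apply, ip2, qf2, w2, Finset.mul_sum, ← Finset.sum_add_distrib]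
  refine Finset.sum_congr rfl fun j _ => ?_
  have i0 : Integrable fun y => V D x * ((G : V2) j y * (G' : V2) j y) :=
    Integrable.const_mul ((G.2.1 j).1.integrable_mul (G'.2.1 j).1) _
  have i1 := (pot_U2 D l).integrable (G.2.1 j) (G'.2.1 j).1
  have i2 := ((pot_Wx x).integrable (G.2.1 j) (G'.2.1 j).1).const_mul l
  have e : ∫ y, U3 D l (x, y) * (G : V2) j y * (G' : V2) j y =
      ∫ y, (V D x * ((G : V2) j y * (G' : V2) j y) + U2 D l y * (G : V2) j y * (G' : V2) j y +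
        l * (Wx x y * (G : V2) j y * (G' : V2) j y)) :=
    integral_congr_ae (ae_of_all _ fun y => by simp only [U3]; ring)
  rw [qf, qf, e, integral_add (i0.fun_add i1) i2, integral_add i0 i1, integral_const_mul,
    integral_const_mul, ip]
  ring

theorem ip_gu (ob : OB c C D g u eg eu) : ip g u = 0 := by
  exact integral_odd (ae_of_all _ fun x => by rw [ob.g_even, ob.u_odd]; ring)

theorem ip_zero_left (f : Y → ℝ) : ip 0 f = 0 := by simp [ip]

theorem ip_zero_right (f : Y → ℝ) : ip f 0 = 0 := by simp [ip]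

theorem ip2_two (G G' : V2) : ip2 G G' = ip (G 0) (G' 0) + ip (G 1) (G' 1) := Fin.sum_univ_two _

theorem ip_tn (f g f' g' : X → ℝ) : ip (tn f g) (tn f' g') = ip f f' * ip g g' := ip_tensor _ _ _ _

theorem ip_ug (ob : OB c C D g u eg eu) : ip u g = 0 := by
  simpa only [ip, mul_comm] using ip_gu ob

theorem par_va (ob : OB c C D g u eg eu) (i : Fin 3) : par (va g u i) = -va g u i := by
  funext j y
  fin_cases i <;> fin_cases j <;> simp [par, va, tn, rfY, ob.g_even, ob.u_odd]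
  ring

theorem par_vψ {Ψ : Y → ℝ} (h : ∀ y, Ψ (rfY y) = Ψ y) : par (vψ Ψ) = vψ Ψ := by
  funext j y
  fin_cases j <;> simp [par, vψ, h]

theorem ip_wedge (ob : OB c C D g u eg eu) :
    ip (fun y => (tn g u y - tn u g y) / √2) (fun y => (tn g u y - tn u g y) / √2) = 1 := by
  have h := ip_lin (h1_tn ob.hg ob.hu).1 (h1_tn ob.hu ob.hg).1 (√2)⁻¹ (-(√2)⁻¹)
  have e : (fun y => (tn g u y - tn u g y) / √2) =
      fun y => (√2)⁻¹ * tn g u y + -(√2)⁻¹ * tn u g y := by funext y; ring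
  rw [e, h, ip_tn, ip_tn, ip_tn, ob.ng, ob.nu, ip_gu ob]
  have : (√2)⁻¹ ^ 2 = 1 / 2 := by rw [inv_pow, Real.sq_sqrt (by norm_num)]; norm_num
  linear_combination 2 * this

/-- `ip_tensor`, `ip_gu`; bilinearity through `vψ`-type elements of `HH` or directly. -/
theorem geo_dat (ob : OB c C D g u eg eu) (mb : MB c D l g u eg eu M η Ψ E2 A E) (x : X) :
    Geo (dat D l x ob.hg ob.hu mb.hΨ) := by
  refine ⟨preH, Subtype.ext (par_vψ mb.Ψ_even), fun i => Subtype.ext (par_va ob i), ?_, fun i j => ?_⟩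
  · show ip2 (vψ Ψ) (vψ Ψ) = 1
    simp [ip2_two, vψ, ip_zero_left, mb.nΨ]
  · show ip2 (va g u i) (va g u j) = _
    fin_cases i <;> fin_cases j <;>
      simp [ip2_two, va, ip_zero_left, ip_zero_right, ip_tn, ob.ng, ob.nu, ip_gu ob, ip_ug ob,
        ip_wedge ob]

theorem dec_ψ (mb : MB c D l g u eg eu M η Ψ E2 A E) (j : Fin 2) : Dec M (vψ Ψ j) := by
  revert j
  exact Fin.forall_fin_two.2 ⟨mb.Ψ_bd, dec_zero (zero_le_one.trans mb.M_ge)⟩

theorem dec_a (mb : MB c D l g u eg eu M η Ψ E2 A E) (i : Fin 3) (j : Fin 2) : Dec (2 * M ^ 2) (va g u i j) := by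
  have h0 : Dec (2 * M ^ 2) 0 := dec_zero (by positivity)
  have h1 := dec_tn mb.u_bd mb.g_bd
  have h2 := dec_tn mb.g_bd mb.u_bd
  have h3 : M ^ 2 ≤ 2 * M ^ 2 := by nlinarith [sq_nonneg M]
  fin_cases i <;> fin_cases j
  · exact h1.mono h3
  · exact h0
  · exact h2.mono h3
  · exact h0
  · exact h0
  · filter_upwards [h1, h2] with y a b
    show |(tn g u y - tn u g y) / √2| ≤ _
    rw [abs_div, abs_of_nonneg (Real.sqrt_nonneg 2)]
    refine (div_le_self (abs_nonneg _) (Real.one_le_sqrt.2 (by norm_num))).trans ?_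
    exact (abs_sub _ _).trans (by linarith)

end Crest.Agent.R335.KA
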