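/-
R335/KA/Lift: slice operators on H1 and the two wrappers of the Kato inequalities
Skeleton by helper59 (block KA of row 335, see R335/Notes, section KA); keep the statements
unchanged, add any helper lemmas you like.
-/
import Crest.Agent.R335.KA.Basic

set_option autoImplicit false
set_option linter.unusedSectionVars false
set_option linter.unusedVariables false
set_option linter.unusedSimpArgs false

noncomputable section

namespace Crest.Agent.R335.KA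

open MeasureTheory Set Filter Topology Metric

variable {c C D l eg eu M η E2 E : ℝ} {g u : X → ℝ} {Ψ : Y → ℝ} {A : Z → ℝ}

/-- The weak derivative in any direction under a symmetry (`Sym.ex`, `WD.comp_equiv`). -/
theorem sym_wd {T : Z → Z} (hT : Sym eZ eZ T) {v : Z} {f f' : Z → ℝ} (h : WD (T v) f f') :
    WD v (fun p => f (T p)) fun p => f' (T p) := by
  obtain ⟨L, σ, s, h1, h2, -⟩ := hT.ex
  have := WD.comp_equiv L h2 (v := v) (f := f) (g := f') (by rwa [h1])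
  simpa only [h1] using this

theorem chan_h1 {Φ : V2} (hΦ : Φ ∈ LL) {F : Fin 2 → Z → ℝ} (hF : ∀ j, H1 eZ (F j)) :
    H1 eX (fun x => ip2 Φ (sl F x)) ∧ ∀ i, wd (eX i) (fun x => ip2 Φ (sl F x)) =ᵐ[volume]
      fun x => ip2 Φ (sl (fun j => wd (eZ (.inl i)) (F j)) x) := by
  have h := fun j => H1.partial (b := eX) (b' := eY) (hΦ j) (hF j)
  refine ⟨H1.sum Finset.univ fun j _ => (h j).1, fun i => ?_⟩
  refine (HL.wd_sum Finset.univ (fun j _ => (h j).1.hl) i).trans ?_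
  filter_upwards [ae_all_iff.2 fun j => (h j).2 i] with x hx
  exact Finset.sum_congr rfl fun j _ => hx j

theorem lift_Qf {ι : Type} [Fintype ι] (τ τ' : ℝ) (Φ : ι → V2) (F : Fin 2 → Z → ℝ) (j : Fin 2) :
    lift (Qf τ τ' Φ) F j = fun p => τ * F j p + τ' * F j (p.1, rfY p.2) -
      ∑ i, ip2 (Φ i) (sl F p.1) * Φ i j p.2 := by
  funext p
  simp only [lift, Qf, Pi.sub_apply, Pi.add_apply, Pi.smul_apply, smul_eq_mul, Finset.sum_apply]
  rfl

theorem rf_zero : rf 0 = 0 := norm_eq_zero.1 (by rw [norm_rf, norm_zero])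

/-- `lift Q F j p = τ F j p + τ' F j (p.1, rfY p.2) - ∑ i, c i p.1 * Φ i j p.2`; `sym_rf23`,
`sym_wd` (`rfY 0 = 0`), `chan_h1`, `H1.tensor`, `Measure.quasiMeasurePreserving_fst`. -/
theorem lift_h1 {ι : Type} [Fintype ι] (τ τ' : ℝ) {Φ : ι → V2} (hΦ : ∀ i j, H1 eY (Φ i j))
    {F : Fin 2 → Z → ℝ} (hF : ∀ j, H1 eZ (F j)) (j : Fin 2) :
    H1 eZ (lift (Qf τ τ' Φ) F j) ∧ ∀ i, wd (eZ (.inl i)) (lift (Qf τ τ' Φ) F j) =ᵐ[volume]
      lift (Qf τ τ' Φ) (fun j => wd (eZ (.inl i)) (F j)) j := by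
  have hc := fun i => chan_h1 (Φ := Φ i) (fun j => (hΦ i j).1) hF
  have ht := fun i => (hc i).1.tensor (hΦ i j)
  have h1 := (hF j).const_mul τ
  have h2' := sym_rf23.h1 (hF j)
  have h2 := h2'.const_mul τ'
  have h3 : H1 eZ fun p => ∑ i, ip2 (Φ i) (sl F p.1) * Φ i j p.2 :=
    H1.sum Finset.univ fun i _ => (ht i).1
  simp only [lift_Qf]
  refine ⟨(h1.add h2).sub h3, fun i => ?_⟩
  have e : ((eZ (.inl i)).1, rfY (eZ (.inl i)).2) = eZ (.inl i) := by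
    show (eX i, (rf 0, rf 0)) = (eX i, (0, 0))
    rw [rf_zero]
  have w2 := (sym_wd sym_rf23 (v := eZ (.inl i)) (f := F j) (f' := wd (eZ (.inl i)) (F j))
    (by rw [e]; exact ((hF j).2 _).1)).wd_ae
  filter_upwards [(h1.add h2).hl.wd_sub h3.hl (.inl i), h1.hl.wd_add h2.hl (.inl i),
    (hF j).hl.wd_const_mul τ (.inl i), h2'.hl.wd_const_mul τ' (.inl i), w2,
    HL.wd_sum (b := eZ) Finset.univ (fun i _ => (ht i).1.hl) (.inl i),
    ae_all_iff.2 fun k => (ht k).2.1 i,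
    ae_all_iff.2 fun k => Measure.quasiMeasurePreserving_fst.ae ((hc k).2 i)]
    with p a1 a2 a3 a4 a5 a6 a7 a8
  rw [a1, a2, a3, a4, a5, a6]
  congr 1
  exact Finset.sum_congr rfl fun k _ => (a7 k).trans (by rw [a8 k])

/-- `Prj.proj` in `LL` (transfer `hp` along the inclusion: `Prj ipL PL τ τ' fun i => ⟨Φ i, _⟩`). -/
theorem proj_L {ι : Type} [Fintype ι] [DecidableEq ι] {τ τ' : ℝ} {Φ : ι → HH}
    (hp : Prj ipH PH τ τ' Φ) {G G' : V2} (hG : G ∈ LL) (hG' : G' ∈ LL) :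
    ip2 G (Qf τ τ' (fun i => (Φ i : V2)) G') =
      ip2 (Qf τ τ' (fun i => (Φ i : V2)) G) (Qf τ τ' (fun i => (Φ i : V2)) G') := by
  have hp' : Prj ipL PL τ τ' fun i => (⟨Φ i, HH_le (Φ i).2⟩ : LL) :=
    ⟨hp.t1, hp.t2, fun i => Subtype.ext (congrArg Subtype.val (hp.inv i) :), hp.on⟩
  have := hp'.proj preL ⟨G, hG⟩ ⟨G', hG'⟩
  simpa only [ipL_apply, coe_QaL] using this

theorem ip2_congr {G G' H H' : V2} (h : ∀ j, G j =ᵐ[volume] G' j) (h' : ∀ j, H j =ᵐ[volume] H' j) :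
    ip2 G H = ip2 G' H' :=
  Finset.sum_congr rfl fun j _ => integral_congr_ae ((h j).mul (h' j))

theorem R_le (mb : MB c D l g u eg eu M η Ψ E2 A E) : ∃ K : ℝ, ∀ᵐ x : X, ∀ G : HH,
    (G : V2) = sl (FF A) x → nr ipH G ≤ K := by
  obtain ⟨K, hK, h⟩ := R_bd M
  refine ⟨K, (h mb).mono fun x hx G hG => ?_⟩
  have e : nr ipH G = (fns g u Ψ A).R x := by
    rw [R_eq, nr, ipH_apply, hG]
    simp only [ip2, ip, sl, snm, sq]
  rw [e]
  refine hx.trans (mul_le_of_le_one_right (by linarith) ?_)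
  exact Real.exp_le_one_iff.2 (by nlinarith [norm_nonneg x])

/-- `kato_snm` with `lam = E`; `hM` from `Prj.nr_le`, `R_bd`; `h0`-`h2` from `proj_L`, `lift_h1`,
`memLp_slice`, `Measure.ae_ae_of_ae_prod`; `hlow` from `slice_qf`, `coe_QaH`, `Prj.proj`. -/
theorem sub_Q (mb : MB c D l g u eg eu M η Ψ E2 A E) {ι : Type} [Fintype ι] [DecidableEq ι] {τ τ' : ℝ}
    {Φ : ι → HH} (hp : Prj ipH PH τ τ' Φ) {Φ' : ι → V2} (hΦ : ∀ i, (Φ i : V2) = Φ' i)
    {S : Set X} {a s : X → ℝ} (hS : MeasurableSet S)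
    (ha : LI S a) (hs : LI S s) (hs0 : ∀ᵐ x : X, x ∈ S → 0 ≤ s x)
    (hlow : ∀ᵐ x : X, x ∈ S → ∀ G : HH, (G : V2) = sl (FF A) x →
      (a x + 2 * E - 2 * V D x) * snm (lift (Qf τ τ' Φ') (FF A)) x ^ 2 -
        s x * snm (lift (Qf τ τ' Φ') (FF A)) x ≤
      2 * (qH D l G (Qa ipH PH τ τ' Φ G) + l * WH x G (Qa ipH PH τ τ' Φ G))) :
    Sub eX S (snm (lift (Qf τ τ' Φ') (FF A))) a s := by
  obtain rfl : (fun i => (Φ i : V2)) = Φ' := funext hΦ
  obtain ⟨K, hK⟩ := R_le mb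
  have hl := lift_h1 τ τ' (Φ := fun i => (Φ i : V2)) (fun i j => (Φ i).2.1 j) (FF_h1 mb)
  have hd : ∀ i, ∀ᵐ x : X, sl (fun j => wd (eZ (.inl i)) (FF A j)) x ∈ LL ∧
      ∀ j, sl (fun j => wd (eZ (.inl i)) (lift (Qf τ τ' fun i => (Φ i : V2)) (FF A) j)) x j =ᵐ[volume]
        Qf τ τ' (fun i => (Φ i : V2)) (sl (fun j => wd (eZ (.inl i)) (FF A j)) x) j := fun i => by
    filter_upwards [ae_all_iff.2 fun j => memLp_slice ((FF_h1 mb j).2 (.inl i)).2,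
      ae_all_iff.2 fun j => Measure.ae_ae_of_ae_prod ((hl j).2 i)] with x h1 h2 using ⟨h1, h2⟩
  have h0 : ∀ᵐ x : X, ip2 (sl (FF A) x) (Qf τ τ' (fun i => (Φ i : V2)) (sl (FF A) x)) =
      snm (lift (Qf τ τ' fun i => (Φ i : V2)) (FF A)) x ^ 2 := by
    filter_upwards [FF_slice mb] with x hx
    rw [proj_L hp (HH_le hx) (HH_le hx), snm_lift, Real.sq_sqrt]
    exact Finset.sum_nonneg fun j _ => ip_nn _
  refine kato_snm (b := eX) (b' := eY) hS (FF_h1 mb) (fun j => (hl j).1) (pot_U3 D l) (FF_eq mb)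
    (M := K) ?_ h0 (fun i => ?_) (fun i => ?_) ha hs hs0 ?_
  · filter_upwards [FF_slice mb, hK] with x hx h1
    rw [snm_Qa Φ (fun i => rfl) (F := FF A) (x := x) (G := ⟨_, hx⟩) rfl]
    exact (hp.nr_le preH _).trans (h1 _ rfl)
  · filter_upwards [FF_slice mb, hd i] with x hx ⟨h1, h2⟩
    exact (proj_L hp h1 (HH_le hx)).trans ((ip2_comm _ _).trans
      (ip2_congr (fun j => EventuallyEq.rfl) h2).symm)
  · filter_upwards [hd i] with x ⟨h1, h2⟩
    simp only [sq]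
    exact (ip2_congr (fun j => EventuallyEq.rfl) h2).trans
      ((proj_L hp h1 h1).trans (ip2_congr h2 h2).symm)
  · filter_upwards [FF_slice mb, hlow, h0] with x hx h1 h2 hxS
    have h3 := h1 hxS ⟨_, hx⟩ rfl
    have h4 := slice_qf D l x ⟨_, hx⟩ (Qa ipH PH τ τ' Φ ⟨_, hx⟩)
    rw [ipH_apply, coe_QaH, h2] at h4
    have h5 : ∑ j, qf eY (fun y => U3 D l (x, y)) (fun y => FF A j (x, y))
        (fun y => lift (Qf τ τ' fun i => (Φ i : V2)) (FF A) j (x, y)) = _ := h4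
    rw [h5]
    linarith

/-- `chan_eq`, `Sub.congr`, `Pre.cs`, `R_bd`, `slice_qf`. -/
theorem sub_C (mb : MB c D l g u eg eu M η Ψ E2 A E) (Φ : HH) {S : Set X} {a s φ : X → ℝ}
    (hS : MeasurableSet S) (ha : LI S a) (hs : LI S s)
    (hφ : ∀ (x : X) (G : HH), (G : V2) = sl (FF A) x → φ x = ipH Φ G)
    (hlow : ∀ᵐ x : X, x ∈ S → ∀ G : HH, (G : V2) = sl (FF A) x →
      (a x + 2 * E - 2 * V D x) * φ x - s x ≤ 2 * (qH D l G Φ + l * WH x G Φ)) :
    Sub eX S φ a s := by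
  obtain ⟨K, hK⟩ := R_le mb
  have he : ∀ᵐ x : X, ∑ j, ∫ y, (Φ : V2) j y * FF A j (x, y) = φ x := by
    filter_upwards [FF_slice mb] with x hx using (hφ x ⟨_, hx⟩ rfl).symm
  refine Sub.congr (chan_eq (b := eX) (b' := eY) (FF_h1 mb) Φ.2.1 (pot_U3 D l) (FF_eq mb) hS ha hs
    (M := nr ipH Φ * K) ?_ ?_) he
  · filter_upwards [FF_slice mb, hK] with x hx h1
    exact (preH.cs Φ ⟨_, hx⟩).trans (mul_le_mul_of_nonneg_left (h1 _ rfl) (preH.nr_nn _))
  · filter_upwards [FF_slice mb, hlow, he] with x hx h1 h2 hxS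
    have h3 := h1 hxS ⟨_, hx⟩ rfl
    have h4 := slice_qf D l x ⟨_, hx⟩ Φ
    rw [preH.comm, ← hφ x _ rfl] at h4
    have h5 : ∑ j, qf eY (fun y => U3 D l (x, y)) (fun y => FF A j (x, y)) ((Φ : V2) j) = _ := h4
    rw [h5, h2]
    linarith

end Crest.Agent.R335.KA
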