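/-
R335/KA/Par: regularity, parity, trace and energy of the channel functions
Skeleton by helper59 (block KA of row 335, see R335/Notes, section KA); keep the statements
unchanged, add any helper lemmas you like.
-/
import Crest.Agent.R335.KA.Lift

set_option autoImplicit false
set_option linter.unusedSectionVars false
set_option linter.unusedVariables false
set_option linter.unusedSimpArgs false

noncomputable section

namespace Crest.Agent.R335.KA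

open MeasureTheory Set Filter Topology Metric

variable {c C D l eg eu M η E2 E : ℝ} {g u : X → ℝ} {Ψ : Y → ℝ} {A : Z → ℝ}

theorem snm_h1 (mb : MB c D l g u eg eu M η Ψ E2 A E) {ι : Type} [Fintype ι] (τ τ' : ℝ) {Φ : ι → V2}
    (hΦ : ∀ i, Φ i ∈ HH) : H1 eX (snm (lift (Qf τ τ' Φ) (FF A))) :=
  (H1.snm (b := eX) (b' := eY) fun j => (lift_h1 τ τ' (fun i => (hΦ i).1) (FF_h1 mb) j).1).1

theorem vE_mem (hg : H1 eX g) (hu : H1 eX u) : vE g u ∈ HH :=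
  HH.smul_mem _ (HH.add_mem (HH.add_mem (HH.smul_mem _ (va_mem hg hu 0)) (va_mem hg hu 1))
    (va_mem hg hu 2))

/-- `lift_h1`, `H1.snm`, `chan_h1`. -/
theorem fns_h1 (ob : OB c C D g u eg eu) (mb : MB c D l g u eg eu M η Ψ E2 A E) :
    H1 eX (fns g u Ψ A).R ∧ H1 eX (fns g u Ψ A).Ev ∧ H1 eX (fns g u Ψ A).O ∧
    H1 eX (fns g u Ψ A).No ∧ H1 eX (fns g u Ψ A).Ne ∧ H1 eX (fns g u Ψ A).N ∧
    H1 eX (fns g u Ψ A).d ∧ H1 eX (fns g u Ψ A).e1 ∧ H1 eX (fns g u Ψ A).e2 ∧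
    H1 eX (fns g u Ψ A).e3 := by
  have ha := fun i => (chan_h1 (HH_le (va_mem ob.hg ob.hu i)) (FF_h1 mb)).1
  exact ⟨snm_h1 mb _ _ fun i => i.elim0, snm_h1 mb _ _ fun i => i.elim0,
    snm_h1 mb _ _ fun i => i.elim0, snm_h1 mb _ _ (Fin.forall_fin_one.2 (vψ_mem mb.hΨ)),
    snm_h1 mb _ _ (va_mem ob.hg ob.hu),
    snm_h1 mb _ _ (Fin.forall_fin_two.2 ⟨vψ_mem mb.hΨ, vE_mem ob.hg ob.hu⟩),
    (chan_h1 (HH_le (vψ_mem mb.hΨ)) (FF_h1 mb)).1.neg, ha 0, ha 1, ha 2⟩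

theorem k_eq (g u : X → ℝ) (Ψ : Y → ℝ) (A : Z → ℝ) (x : X) :
    (fns g u Ψ A).k x = ∫ y, Wx x y * Ψ y * tn u g y := by
  simp [fns, w2, Fin.sum_univ_two, vψ, va]

/-- `StronglyMeasurable.integral_prod_right`. -/
theorem fns_mk (ob : OB c C D g u eg eu) (mb : MB c D l g u eg eu M η Ψ E2 A E) : Measurable (fns g u Ψ A).k := by
  rw [funext (k_eq g u Ψ A)]
  have h1 := ob.mg
  have h2 := ob.mu
  have h3 := mb.mΨ
  have : Measurable fun p : X × Y => Wx p.1 p.2 * Ψ p.2 * tn u g p.2 := by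
    unfold Wx tn; fun_prop
  exact this.stronglyMeasurable.integral_prod_right'.measurable

theorem ip2_par (G G' : V2) : ip2 (par G) (par G') = ip2 G G' :=
  Finset.sum_congr rfl fun j _ => sym_rfY.ip (G j) (G' j)

theorem ip2_neg_left (G G' : V2) : ip2 (-G) G' = -ip2 G G' := by
  rw [← neg_one_smul ℝ G, ip2_smul, neg_one_mul]

theorem ip2_neg_right (G G' : V2) : ip2 G (-G') = -ip2 G G' := by
  rw [ip2_comm, ip2_neg_left, ip2_comm]

theorem par_par (G : V2) : par (par G) = G := by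
  funext j y; simp only [par, rfY_rfY]

theorem ip2_np_even {Φ : V2} (h : par Φ = Φ) (G : V2) : ip2 Φ (-par G) = -ip2 Φ G := by
  rw [ip2_neg_right, ← ip2_par Φ G, h]

theorem ip2_np_odd {Φ : V2} (h : par Φ = -Φ) (G : V2) : ip2 Φ (-par G) = ip2 Φ G := by
  rw [ip2_neg_right, ← ip2_par Φ G, h, ip2_neg_left]

theorem Qf_np {ι : Type} [Fintype ι] (τ τ' : ℝ) {Φ : ι → V2}
    (h : ∀ i, par (Φ i) = Φ i ∨ par (Φ i) = -Φ i) (G : V2) :
    Qf τ τ' Φ (-par G) = -par (Qf τ τ' Φ G) := by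
  have h1 : ∀ i j y, ip2 (Φ i) (-par G) * Φ i j y = -(ip2 (Φ i) G * Φ i j (rfY y)) := fun i j y => by
    rcases h i with h | h
    · rw [ip2_np_even h, show Φ i j (rfY y) = Φ i j y from congrFun (congrFun h j) y]; ring
    · rw [ip2_np_odd h, show Φ i j (rfY y) = -Φ i j y from congrFun (congrFun h j) y]; ring
  funext j y
  simp only [Qf, Pi.sub_apply, Pi.add_apply, Pi.smul_apply, Pi.neg_apply, smul_eq_mul,
    Finset.sum_apply, h1, Finset.sum_neg_distrib, par]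
  ring

theorem snm_rf (mb : MB c D l g u eg eu M η Ψ E2 A E) {ι : Type} [Fintype ι] (τ τ' : ℝ) {Φ : ι → V2}
    (h : ∀ i, par (Φ i) = Φ i ∨ par (Φ i) = -Φ i) (x : X) :
    snm (lift (Qf τ τ' Φ) (FF A)) (rf x) = snm (lift (Qf τ τ' Φ) (FF A)) x := by
  rw [snm_lift, snm_lift, sl_rf mb, Qf_np τ τ' h, ip2_neg_left, ip2_neg_right, neg_neg, ip2_par]

theorem par_vE (ob : OB c C D g u eg eu) : par (vE g u) = -vE g u := by
  have e : par (vE g u) =
      (√6)⁻¹ • ((2 : ℝ) • par (va g u 0) + par (va g u 1) + par (va g u 2)) := rfl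
  rw [e, par_va ob, par_va ob, par_va ob, vE]
  module

/-- `ip2 (par G) (par G') = ip2 G G'` for all functions (`sym_rfY.ip`); if every `Φ i` is even or
odd then `Qf τ τ' Φ (-par G) = -par (Qf τ τ' Φ G)`; `sl_rf`, `snm_lift`;
`Wx (rf x) (rfY y) = Wx x y`. -/
theorem fns_par (ob : OB c C D g u eg eu) (mb : MB c D l g u eg eu M η Ψ E2 A E) (x : X) :
    (fns g u Ψ A).R (rf x) = (fns g u Ψ A).R x ∧ (fns g u Ψ A).Ev (rf x) = (fns g u Ψ A).Ev x ∧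
    (fns g u Ψ A).O (rf x) = (fns g u Ψ A).O x ∧ (fns g u Ψ A).No (rf x) = (fns g u Ψ A).No x ∧
    (fns g u Ψ A).Ne (rf x) = (fns g u Ψ A).Ne x ∧ (fns g u Ψ A).N (rf x) = (fns g u Ψ A).N x ∧
    (fns g u Ψ A).d (rf x) = -(fns g u Ψ A).d x ∧ (fns g u Ψ A).e1 (rf x) = (fns g u Ψ A).e1 x ∧
    (fns g u Ψ A).e2 (rf x) = (fns g u Ψ A).e2 x ∧ (fns g u Ψ A).e3 (rf x) = (fns g u Ψ A).e3 x ∧
    (fns g u Ψ A).k (rf x) = -(fns g u Ψ A).k x := by
  have hψ := par_vψ mb.Ψ_even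
  have ha : ∀ i, ip2 (va g u i) (sl (FF A) (rf x)) = ip2 (va g u i) (sl (FF A) x) := fun i => by
    rw [sl_rf mb, ip2_np_odd (par_va ob i)]
  refine ⟨snm_rf mb _ _ (fun i => i.elim0) x, snm_rf mb _ _ (fun i => i.elim0) x,
    snm_rf mb _ _ (fun i => i.elim0) x, snm_rf mb _ _ (Fin.forall_fin_one.2 (.inl hψ)) x,
    snm_rf mb _ _ (fun i => .inr (par_va ob i)) x,
    snm_rf mb _ _ (Fin.forall_fin_two.2 ⟨.inl hψ, .inr (par_vE ob)⟩) x, ?_, ha 0, ha 1, ha 2, ?_⟩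
  · show -ip2 (vψ Ψ) (sl (FF A) (rf x)) = - -ip2 (vψ Ψ) (sl (FF A) x)
    rw [sl_rf mb, ip2_np_even hψ]
  · rw [k_eq, k_eq, ← sym_rfY.integral, ← integral_neg]
    refine integral_congr_ae (ae_of_all _ fun y => ?_)
    simp only [mb.Ψ_even]
    simp only [Wx, tn, rfY, ← rf_sub, norm_rf, ob.g_even, ob.u_odd]
    ring

/-- `strip_snm`, `sl_rf`. -/
theorem fns_strip (ob : OB c C D g u eg eu) (mb : MB c D l g u eg eu M η Ψ E2 A E) : Strip (fns g u Ψ A).O := by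
  refine strip_snm (b' := eY) (fun j => (lift_h1 _ _ (fun i => i.elim0) (FF_h1 mb) j).1)
    fun j => ae_of_all _ fun p => ?_
  show Qf (1 / 2) (1 / 2) ![] (sl (FF A) (rf p.1)) j p.2 = -Qf (1 / 2) (1 / 2) ![] (sl (FF A) p.1) j p.2
  rw [sl_rf mb]
  simp only [Qf, Pi.sub_apply, Pi.add_apply, Pi.smul_apply, Pi.neg_apply, smul_eq_mul,
    Finset.univ_eq_empty, Finset.sum_empty, Pi.zero_apply, par, rfY_rfY]
  ring

end Crest.Agent.R335.KA
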