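/-
R335/KA/Close: closeness to the determinant
Skeleton by helper59 (block KA of row 335, see R335/Notes, section KA); keep the statements
unchanged, add any helper lemmas you like.
-/
import Crest.Agent.R335.KA.Par

set_option autoImplicit false
set_option linter.unusedSectionVars false
set_option linter.unusedVariables false
set_option linter.unusedSimpArgs false

noncomputable section

namespace Crest.Agent.R335.KA

open MeasureTheory Set Filter Topology Metric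

variable {c C D l eg eu M η E2 E : ℝ} {g u : X → ℝ} {Ψ : Y → ℝ} {A : Z → ℝ}

theorem A_diff (mb : MB c D l g u eg eu M η Ψ E2 A E) : ∀ᵐ p : Z, (A p - A0 g u p) ^ 2 ≤
    η * (M + 2 * M ^ 3) * Real.exp (-(9 / 10) * (‖p.1‖ + ‖p.2.1‖ + ‖p.2.2‖)) := by
  have q1 : Measure.QuasiMeasurePreserving (fun p : Z => p.1) := Measure.quasiMeasurePreserving_fst
  have q2 : Measure.QuasiMeasurePreserving (fun p : Z => p.2.1) :=
    Measure.quasiMeasurePreserving_fst.comp Measure.quasiMeasurePreserving_snd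
  have q3 : Measure.QuasiMeasurePreserving (fun p : Z => p.2.2) :=
    Measure.quasiMeasurePreserving_snd.comp Measure.quasiMeasurePreserving_snd
  filter_upwards [mb.A_bd, mb.A_close, q1.ae mb.g_bd, q1.ae mb.u_bd, q2.ae mb.g_bd, q2.ae mb.u_bd,
    q3.ae mb.g_bd] with p h1 h2 g1 u1 g2 u2 g3
  have e : Real.exp (-(9 / 10) * (‖p.1‖ + ‖p.2.1‖ + ‖p.2.2‖)) = Real.exp (-(9 / 10) * ‖p.1‖) *
      Real.exp (-(9 / 10) * ‖p.2.1‖) * Real.exp (-(9 / 10) * ‖p.2.2‖) := by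
    rw [← Real.exp_add, ← Real.exp_add]; congr 1; ring
  have a1 := mul_le_mul g1 u2 (abs_nonneg _) ((abs_nonneg _).trans g1)
  have a2 := mul_le_mul u1 g2 (abs_nonneg _) ((abs_nonneg _).trans u1)
  have a3 : |g p.1 * u p.2.1 - u p.1 * g p.2.1| ≤ _ :=
    (abs_sub _ _).trans (add_le_add ((abs_mul _ _).trans_le a1) ((abs_mul _ _).trans_le a2))
  have a4 := mul_le_mul a3 g3 (abs_nonneg _) ((abs_nonneg _).trans a3)
  have a5 : |A0 g u p| ≤ 2 * M ^ 3 * Real.exp (-(9 / 10) * (‖p.1‖ + ‖p.2.1‖ + ‖p.2.2‖)) := by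
    rw [A0, abs_div, abs_of_nonneg (Real.sqrt_nonneg 2), abs_mul, e]
    refine (div_le_self (by positivity) (Real.one_le_sqrt.2 (by norm_num))).trans (a4.trans_eq ?_)
    ring
  have a6 := (abs_sub _ _).trans (add_le_add h1 a5)
  rw [← sq_abs, sq]
  exact (mul_le_mul h2 a6 (abs_nonneg _) ((abs_nonneg _).trans h2)).trans_eq (by ring)

/-- `|A - A0|² ≤ η (|A| + |A0|) ≤ η (M + 2 M³) dk` on slices, so `|F - F0| ≤ √η K √dk`;
`sl (FF (A0 g u)) x = g x • (va 0 + va 2) - u x • vψ (tn g g)` pointwise. -/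
theorem slice_close (M : ℝ) : ∃ K : ℝ, 1 ≤ K ∧ ∀ {c D l eg eu η E2 E : ℝ} {g u : X → ℝ} {Ψ : Y → ℝ}
    {A : Z → ℝ}, MB c D l g u eg eu M η Ψ E2 A E → ∀ᵐ x : X,
      ip2 (sl (FF A) x - (g x • (va g u 0 + va g u 2) - u x • vψ (tn g g)))
        (sl (FF A) x - (g x • (va g u 0 + va g u 2) - u x • vψ (tn g g))) ≤ K * η := by
  have I0 : 0 ≤ ∫ y, dk y := integral_nonneg fun y => (dk_pos y).le
  refine ⟨1 + 3 * |M + 2 * M ^ 3| * ∫ y, dk y, le_add_of_nonneg_right (by positivity),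
    fun {c D l eg eu η E2 E g u Ψ A} mb => ?_⟩
  have hM := mb.M_ge
  have η0 : 0 < η := mb.l_pos.trans_le mb.l_le
  have t0 : 0 ≤ η * (M + 2 * M ^ 3) := by positivity
  filter_upwards [Measure.ae_ae_of_ae_prod (A_diff mb),
    Measure.ae_ae_of_ae_prod (sym_cyc.ae (A_diff mb))] with x h0 h1
  have key : ∀ (F : Y → ℝ) (t : ℝ), (∀ᵐ y : Y, F y * F y ≤ t * dk y) → ip F F ≤ t * ∫ y, dk y :=
    fun F t h => by
      rw [← integral_const_mul]
      exact integral_mono_of_nonneg (ae_of_all _ fun y => mul_self_nonneg _) (int_dk.const_mul _) h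
  have s2 := Real.mul_self_sqrt (show (0 : ℝ) ≤ 2 by norm_num)
  have s0 : (√2 : ℝ) ≠ 0 := by positivity
  rw [ip2_two, abs_of_nonneg (by positivity)]
  refine (add_le_add (key _ (2 * (η * (M + 2 * M ^ 3))) (h0.mono fun y hy => ?_))
    (key _ (η * (M + 2 * M ^ 3)) (h1.mono fun y hy => ?_))).trans (by nlinarith)
  · have e : (sl (FF A) x - (g x • (va g u 0 + va g u 2) - u x • vψ (tn g g))) 0 y =
        √2 * (A (x, y) - A0 g u (x, y)) := by
      simp [sl, FF, F1, va, vψ, tn, A0]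
      field_simp
    have e2 : Real.exp (-(9 / 10) * (‖x‖ + ‖y.1‖ + ‖y.2‖)) ≤ dk y :=
      Real.exp_le_exp.2 (by linarith [norm_nonneg x])
    have := hy.trans (mul_le_mul_of_nonneg_left e2 t0)
    rw [e]
    calc _ = (√2 * √2) * (A (x, y) - A0 g u (x, y)) ^ 2 := by ring
      _ ≤ _ := by rw [s2]; linarith
  · have e : (sl (FF A) x - (g x • (va g u 0 + va g u 2) - u x • vψ (tn g g))) 1 y =
        A (y.1, (y.2, x)) - A0 g u (y.1, (y.2, x)) := by
      simp [sl, FF, F3, va, vψ, tn, A0]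
      ring
    have e2 : Real.exp (-(9 / 10) * (‖y.1‖ + ‖y.2‖ + ‖x‖)) ≤ dk y :=
      Real.exp_le_exp.2 (by linarith [norm_nonneg x])
    rw [e, ← sq]
    exact hy.trans (mul_le_mul_of_nonneg_left e2 t0)

/-- `Val.close` with `val_dat`, `geo_dat`, `FF_slice`, `slice_close`, `Ψ_close`, `u_bd`. -/
theorem fns_close (M η' : ℝ) (hη' : 0 < η') : ∃ η0 : ℝ, 0 < η0 ∧
    ∀ {c C D l eg eu η E2 E : ℝ} {g u : X → ℝ} {Ψ : Y → ℝ} {A : Z → ℝ}, η ≤ η0 →
    OB c C D g u eg eu → MB c D l g u eg eu M η Ψ E2 A E → ∀ᵐ x : X,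
      |(fns g u Ψ A).d x - u x| ≤ η' ∧ |(fns g u Ψ A).e1 x - g x| ≤ η' ∧
      |(fns g u Ψ A).e2 x| ≤ η' ∧ |(fns g u Ψ A).e3 x - g x| ≤ η' ∧
      (fns g u Ψ A).No x ≤ η' ∧ (fns g u Ψ A).Ne x ≤ η' := by
  obtain ⟨K, hK, h⟩ := slice_close M
  refine ⟨min ((η' / 2) ^ 2 / K) (η' / 2 / (1 + |M|)), by positivity,
    fun {c C D l eg eu η E2 E g u Ψ A} hη ob mb => ?_⟩
  have hM := mb.M_ge
  have η0 : 0 < η := mb.l_pos.trans_le mb.l_le
  have b1 : K * η ≤ (η' / 2) ^ 2 := by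
    have := hη.trans (min_le_left _ _)
    rwa [le_div_iff₀ (by linarith), mul_comm] at this
  have b2 : M * η ≤ η' / 2 := by
    have := hη.trans (min_le_right _ _)
    rw [le_div_iff₀ (by positivity), abs_of_nonneg (by linarith)] at this
    nlinarith
  filter_upwards [FF_slice mb, h mb, mb.u_bd] with x hx h1 h2
  have pγ : PH ⟨vψ (tn g g), vψ_mem (h1_tn ob.hg ob.hg)⟩ =
      ⟨vψ (tn g g), vψ_mem (h1_tn ob.hg ob.hg)⟩ :=
    Subtype.ext (par_vψ fun y => by simp only [tn, rfY, ob.g_even])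
  have h3 := (val_dat D l x ob.hg ob.hu mb.hΨ (G := ⟨_, hx⟩) rfl).close (geo_dat ob mb x) pγ
    (s := g x) (t := u x) (ε := η' / 2) (η := η)
    (Real.sqrt_le_iff.2 ⟨by linarith, le_trans (le_of_eq (ipH_apply _ _)) (h1.trans b1)⟩)
    (Real.sqrt_le_iff.2 ⟨η0.le, le_trans (le_of_eq (by
      refine (ipH_apply _ _).trans ?_
      simp [dat, ip2_two, vψ, ip, tn, sq])) mb.Ψ_close⟩)
  have h4 : |u x| * η ≤ η' / 2 := by
    refine le_trans (mul_le_mul_of_nonneg_right (h2.trans (mul_le_of_le_one_right (by linarith) ?_))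
      η0.le) b2
    exact Real.exp_le_one_iff.2 (by nlinarith [norm_nonneg x])
  obtain ⟨a1, a2, a3, a4, a5, a6⟩ := h3
  exact ⟨by linarith, by linarith, by linarith, by linarith, by linarith, by linarith⟩

theorem fns_pyth (ob : OB c C D g u eg eu) (mb : MB c D l g u eg eu M η Ψ E2 A E) : ∀ᵐ x : X,
    (fns g u Ψ A).R x ^ 2 = (fns g u Ψ A).Ev x ^ 2 + (fns g u Ψ A).O x ^ 2 ∧
    (fns g u Ψ A).O x ^ 2 = (fns g u Ψ A).d x ^ 2 + (fns g u Ψ A).No x ^ 2 ∧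
    (fns g u Ψ A).Ev x ^ 2 = (fns g u Ψ A).e1 x ^ 2 + (fns g u Ψ A).e2 x ^ 2 +
      (fns g u Ψ A).e3 x ^ 2 + (fns g u Ψ A).Ne x ^ 2 ∧
    (fns g u Ψ A).R x ^ 2 = (fns g u Ψ A).e x ^ 2 + (fns g u Ψ A).d x ^ 2 +
      (fns g u Ψ A).N x ^ 2 := by
  filter_upwards [FF_slice mb] with x hx
  exact (val_dat D l x ob.hg ob.hu mb.hΨ (G := ⟨_, hx⟩) rfl).pyth (geo_dat ob mb x)

/-- With `fns_close` at level `t ≤ 1`: `|Ev² - 2 g²| ≤ 8 M t` and `≤ K² ex (9/10)²` (`fns_pyth`,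
`R_bd`, `g_bd`), hence `≤ √(8 M t) K ex (9/10)`; integrate (`integrable_ex`), `ng`. -/
theorem fns_massE (M η' : ℝ) (hη' : 0 < η') : ∃ η0 : ℝ, 0 < η0 ∧
    ∀ {c C D l eg eu η E2 E : ℝ} {g u : X → ℝ} {Ψ : Y → ℝ} {A : Z → ℝ}, η ≤ η0 →
    OB c C D g u eg eu → MB c D l g u eg eu M η Ψ E2 A E →
      |ip (fns g u Ψ A).Ev (fns g u Ψ A).Ev - 2| ≤ η' := by
  obtain ⟨K, hK, hR⟩ := R_bd M
  have i0 := int_ex (a := 9 / 10) (by norm_num)
  set I := ∫ x : X, Real.exp (-(9 / 10) * ‖x‖) with hI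
  have I0 : 0 ≤ I := integral_nonneg fun x => (Real.exp_pos _).le
  set s := η' / (1 + I) with hs
  have s0 : 0 < s := by positivity
  set t := min 1 (s ^ 2 / (8 * (1 + |M|) * (K ^ 2 + 2 * M ^ 2))) with ht
  have t0 : 0 < t := by positivity
  obtain ⟨η0, hη0, hc⟩ := fns_close M t t0
  refine ⟨η0, hη0, fun {c C D l eg eu η E2 E g u Ψ A} hη ob mb => ?_⟩
  have hM := mb.M_ge
  have t1 : t ≤ 1 := min_le_left _ _
  have t2 : 8 * M * t * (K ^ 2 + 2 * M ^ 2) ≤ s ^ 2 := by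
    have : t ≤ s ^ 2 / (8 * (1 + |M|) * (K ^ 2 + 2 * M ^ 2)) := min_le_right _ _
    rw [le_div_iff₀ (by positivity), abs_of_nonneg (by linarith)] at this
    nlinarith [mul_nonneg t0.le (show 0 ≤ K ^ 2 + 2 * M ^ 2 by positivity)]
  have hE := (fns_h1 ob mb).2.1.1
  have i1 : Integrable fun x => (fns g u Ψ A).Ev x * (fns g u Ψ A).Ev x := hE.integrable_mul hE
  have i2 : Integrable fun x => 2 * (g x * g x) :=
    Integrable.const_mul (ob.hg.1.integrable_mul ob.hg.1) 2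
  have e : ip (fns g u Ψ A).Ev (fns g u Ψ A).Ev - 2 =
      ∫ x, ((fns g u Ψ A).Ev x * (fns g u Ψ A).Ev x - 2 * (g x * g x)) := by
    have := ob.ng
    rw [ip] at this
    rw [integral_sub i1 i2, integral_const_mul, this, ip, mul_one]
  have h1 := norm_integral_le_of_norm_le
    (f := fun x => (fns g u Ψ A).Ev x * (fns g u Ψ A).Ev x - 2 * (g x * g x)) (i0.const_mul s) (by
      filter_upwards [hc hη ob mb, fns_pyth ob mb, hR mb, mb.g_bd] with x ⟨_, a2, a3, a4, _, a6⟩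
        ⟨p1, _, p3, _⟩ b1 b2
      have n1 : 0 ≤ (fns g u Ψ A).Ne x := Real.sqrt_nonneg _
      have n2 : 0 ≤ (fns g u Ψ A).R x := Real.sqrt_nonneg _
      have x0 := Real.exp_pos (-(9 / 10) * ‖x‖)
      have x1 : Real.exp (-(9 / 10) * ‖x‖) ≤ 1 :=
        Real.exp_le_one_iff.2 (by nlinarith [norm_nonneg x])
      have g0 := ob.g_nn x
      rw [abs_of_nonneg g0] at b2
      have g1 : g x ≤ M := b2.trans (mul_le_of_le_one_right (by linarith) x1)
      rw [ex] at b1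
      generalize Real.exp (-(9 / 10) * ‖x‖) = w at *
      obtain ⟨a2, a2'⟩ := abs_le.1 a2
      obtain ⟨a3, a3'⟩ := abs_le.1 a3
      obtain ⟨a4, a4'⟩ := abs_le.1 a4
      rw [Real.norm_eq_abs, ← sq, ← sq]
      have c1 : |(fns g u Ψ A).Ev x ^ 2 - 2 * g x ^ 2| ≤ 8 * M * t := by
        have d : ∀ v : ℝ, -t ≤ v - g x → v - g x ≤ t → |v ^ 2 - g x ^ 2| ≤ 3 * M * t := fun v h h' => by
          rw [sq_sub_sq, abs_mul]
          exact mul_le_mul (abs_le.2 ⟨by linarith, by linarith⟩) (abs_le.2 ⟨h, h'⟩) (abs_nonneg _)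
            (by linarith)
        have d1 := abs_le.1 (d _ a2 a2')
        have d2 := abs_le.1 (d _ a4 a4')
        have d3 := sq_le_sq' a3 a3'
        have d4 := pow_le_pow_left₀ n1 a6 2
        have d5 : t ^ 2 ≤ M * t := by nlinarith
        rw [p3]
        exact abs_le.2 ⟨by nlinarith [sq_nonneg ((fns g u Ψ A).e2 x), sq_nonneg ((fns g u Ψ A).Ne x)],
          by linarith⟩
      have c2 : |(fns g u Ψ A).Ev x ^ 2 - 2 * g x ^ 2| ≤ (K ^ 2 + 2 * M ^ 2) * w ^ 2 := by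
        have d1 := pow_le_pow_left₀ n2 b1 2
        have d2 := pow_le_pow_left₀ g0 b2 2
        exact abs_le.2 ⟨by nlinarith [sq_nonneg ((fns g u Ψ A).Ev x), sq_nonneg (K * w)],
          by nlinarith [sq_nonneg ((fns g u Ψ A).O x), sq_nonneg (g x), sq_nonneg (M * w)]⟩
      refine abs_le_of_sq_le_sq' ?_ (by positivity) |>.2
      have := mul_le_mul c1 c2 (abs_nonneg _) (by positivity)
      nlinarith [mul_le_mul_of_nonneg_right t2 (sq_nonneg w)])
  rw [Real.norm_eq_abs, integral_const_mul] at h1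
  rw [e]
  refine h1.trans ?_
  rw [hs, div_mul_eq_mul_div, div_le_iff₀ (by positivity)]
  nlinarith

end Crest.Agent.R335.KA
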