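/-
R335/KA/Ctx: the slice facts that hold for every x
Skeleton by helper59 (block KA of row 335, see R335/Notes, section KA); keep the statements
unchanged, add any helper lemmas you like.
-/
import Crest.Agent.R335.KA.Basic

set_option autoImplicit false
set_option linter.unusedSectionVars false
set_option linter.unusedVariables false
set_option linter.unusedSimpArgs false

noncomputable section

namespace Crest.Agent.R335.KA

open MeasureTheory Set Filter Topology Metric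

variable {c C D l eg eu M η E2 E : ℝ} {g u : X → ℝ} {Ψ : Y → ℝ} {A : Z → ℝ}

/-- `Pot.eig_tensor` (`eqg`, `equ`), `Pot.qf_add_pot`, `pot_pair`. -/
theorem eq_tn (ob : OB c C D g u eg eu) {f : Y → ℝ} (hf : H1 eY f) :
    qf eY (U2 D l) (tn u g) f = (eg + eu) * ip (tn u g) f +
      l * ∫ y : Y, 1 / ‖y.1 - y.2‖ * tn u g y * f y ∧
    qf eY (U2 D l) (tn g u) f = (eg + eu) * ip (tn g u) f +
      l * ∫ y : Y, 1 / ‖y.1 - y.2‖ * tn g u y * f y := by
  have key : ∀ {a b : X → ℝ} {ea eb : ℝ}, H1 eX a → H1 eX b →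
      (∀ φ, H1 eX φ → qf eX (V D) a φ = ea * ip a φ) → (∀ φ, H1 eX φ → qf eX (V D) b φ = eb * ip b φ) →
      qf eY (U2 D l) (tn a b) f = (ea + eb) * ip (tn a b) f +
        l * ∫ y : Y, 1 / ‖y.1 - y.2‖ * tn a b y * f y := fun {a b ea eb} ha hb h1 h2 => by
    have e1 := (pot_V D).eig_tensor (pot_V D) ha hb h1 h2 hf
    have e2 := ((pot_V D).fst.add (pot_V D).snd).qf_add_pot (pot_pair.const_mul l) (h1_tn ha hb) hf
    have e3 : U2 D l = fun y : Y => V D y.1 + V D y.2 + l * (1 / ‖y.1 - y.2‖) := by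
      funext y; rw [U2]; ring
    rw [e3]
    refine e2.trans ?_
    rw [← integral_const_mul]
    exact congrArg₂ _ e1 (integral_congr_ae (ae_of_all _ fun y => by ring))
  exact ⟨add_comm eu eg ▸ key ob.hu ob.hg ob.equ ob.eqg, key ob.hg ob.hu ob.eqg ob.equ⟩

/-- A function that changes sign under a symmetry has integral zero. -/
theorem integral_anti {T : Y → Y} (hT : Sym eY eY T) {h : Y → ℝ} (hh : ∀ y, h (T y) = -h y) :
    ∫ y, h y = 0 := by
  have h1 := hT.integral h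
  simp only [hh, integral_neg] at h1
  linarith

theorem qf_zero_left (U f : Y → ℝ) : qf eY U 0 f = 0 := by
  have h := qf_const_mul_left h1_zero 0 U f
  simp only [Pi.zero_apply, mul_zero, zero_mul] at h
  exact h

theorem qf2_two (U : Y → ℝ) (G G' : V2) :
    qf2 U G G' = qf eY U (G 0) (G' 0) + qf eY U (G 1) (G' 1) := Fin.sum_univ_two _

theorem w2_two (x : X) (G G' : V2) :
    w2 x G G' = (∫ y, Wx x y * G 0 y * G' 0 y) + ∫ y, Wx x y * G 1 y * G' 1 y := Fin.sum_univ_two _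

theorem odd_of {f : HH} (h : PH f = -f) (j : Fin 2) (y : Y) :
    (f : V2) j (rfY y) = -(f : V2) j y := congrFun (congrFun (congrArg Subtype.val h) j) y

theorem even_of {f : HH} (h : PH f = f) (j : Fin 2) (y : Y) :
    (f : V2) j (rfY y) = (f : V2) j y := congrFun (congrFun (congrArg Subtype.val h) j) y

theorem wedge_eq (g u : X → ℝ) : (fun y => (tn g u y - tn u g y) / √2) =
    fun y => (√2)⁻¹ * (tn g u y - tn u g y) := by funext y; ring

theorem ip_wedge_left (hg : H1 eX g) (hu : H1 eX u) {f : Y → ℝ} (hf : MemLp f 2 volume) :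
    ip (fun y => (tn g u y - tn u g y) / √2) f = (√2)⁻¹ * (ip (tn g u) f - ip (tn u g) f) := by
  have i1 : Integrable fun y => tn g u y * f y := (h1_tn hg hu).1.integrable_mul hf
  have i2 : Integrable fun y => tn u g y * f y := (h1_tn hu hg).1.integrable_mul hf
  rw [ip, ip, ip, ← integral_sub i1 i2, ← integral_const_mul]
  exact integral_congr_ae (ae_of_all _ fun y => by ring)

theorem eq_a (ob : OB c C D g u eg eu) (i : Fin 3) (f : HH) :
    qf2 (U2 D l) (va g u i) f - (eg + eu) * ip2 (va g u i) f =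
      l * ∑ j, ∫ y : Y, 1 / ‖y.1 - y.2‖ * va g u i j y * (f : V2) j y := by
  have h0 := eq_tn (l := l) ob (f.2.1 0)
  have h1 := eq_tn (l := l) ob (f.2.1 1)
  rw [qf2_two, ip2_two, Fin.sum_univ_two]
  fin_cases i
  · simp [va, qf_zero_left, ip_zero_left, h0.1]
  · simp [va, qf_zero_left, ip_zero_left, h0.2]
  · have a := h1_tn ob.hg ob.hu
    have b := h1_tn ob.hu ob.hg
    have e1 : qf eY (U2 D l) (fun y => (tn g u y - tn u g y) / √2) ((f : V2) 1) =
        (√2)⁻¹ * (qf eY (U2 D l) (tn g u) ((f : V2) 1) - qf eY (U2 D l) (tn u g) ((f : V2) 1)) := by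
      rw [wedge_eq, qf_const_mul_left (a.sub b), (pot_U2 D l).qf_sub_left a b (f.2.1 1)]
    have e2 : ∫ y : Y, 1 / ‖y.1 - y.2‖ * ((tn g u y - tn u g y) / √2) * (f : V2) 1 y =
        (√2)⁻¹ * ((∫ y : Y, 1 / ‖y.1 - y.2‖ * tn g u y * (f : V2) 1 y) -
          ∫ y : Y, 1 / ‖y.1 - y.2‖ * tn u g y * (f : V2) 1 y) := by
      rw [← integral_sub (pot_pair.integrable a (f.2.1 1).1) (pot_pair.integrable b (f.2.1 1).1),
        ← integral_const_mul]
      exact integral_congr_ae (ae_of_all _ fun y => by ring)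
    show qf eY (U2 D l) 0 _ + qf eY (U2 D l) (fun y => (tn g u y - tn u g y) / √2) _ -
      (eg + eu) * (ip 0 _ + ip (fun y => (tn g u y - tn u g y) / √2) _) =
      l * ((∫ y : Y, 1 / ‖y.1 - y.2‖ * 0 * (f : V2) 0 y) +
        ∫ y : Y, 1 / ‖y.1 - y.2‖ * ((tn g u y - tn u g y) / √2) * (f : V2) 1 y)
    rw [e1, e2, ip_wedge_left ob.hg ob.hu (f.2.1 1).1, h1.1, h1.2, qf_zero_left, ip_zero_left]
    simp only [mul_zero, zero_mul, integral_zero]
    ring

/-- `qP`: `sym_rfY.qf`, `U2_rf`.  `gapψ`: the second component is antisymmetric, hence orthogonal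
to `Ψ` (`integral_anti sym_swap`).  `gapa`, `gapb`: odd components are orthogonal to `g ⊗ g`,
`u ⊗ u` (`integral_anti sym_rfY`); for the second component `⟨gu, f⟩ = -⟨ug, f⟩` and
`⟨gu - ug, f⟩ = 0`.  `eqa`: `eq_tn`, `ker0`, `dec_a`.  `k1`: `sym_swap.integral`. -/
theorem ctx_dat (M : ℝ) : ∃ K0 : ℝ, ∀ K : ℝ, K0 ≤ K →
    ∀ {c C D l eg eu η E2 E : ℝ} {g u : X → ℝ} {Ψ : Y → ℝ} {A : Z → ℝ}
    (ob : OB c C D g u eg eu) (mb : MB c D l g u eg eu M η Ψ E2 A E) (x : X),
    Ctx (dat D l x ob.hg ob.hu mb.hΨ) E2 (eg + eu) (eu - eg) c l K := by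
  obtain ⟨K1, hK1, h⟩ := ker0
  refine ⟨1 + K1 * (2 * M ^ 2), fun K hK c C D l eg eu η E2 E g u Ψ A ob mb x => ?_⟩
  have hM := mb.M_ge
  have M2 : 0 ≤ 2 * M ^ 2 := by positivity
  have K2 : K1 * (2 * M ^ 2) ≤ K := by linarith
  have K3 : K1 * M ≤ K := le_trans (by gcongr; nlinarith) K2
  have oΨ : ∀ f : HH, ip Ψ ((f : V2) 1) = 0 := fun f =>
    integral_anti sym_swap fun y => by rw [mb.Ψ_swap, f.2.2]; ring
  have eψ : ∀ f : HH, ip2 (vψ Ψ) f = ip Ψ ((f : V2) 0) := fun f => by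
    simp [ip2_two, vψ, ip_zero_left]
  have ogg : ∀ f : HH, PH f = -f → ∀ j, ip (fun y : Y => g y.1 * g y.2) ((f : V2) j) = 0 :=
    fun f hf j => integral_anti sym_rfY fun y => by
      rw [odd_of hf]; simp only [rfY, ob.g_even]; ring
  have ouu : ∀ f : HH, PH f = -f → ∀ j, ip (fun y : Y => u y.1 * u y.2) ((f : V2) j) = 0 :=
    fun f hf j => integral_anti sym_rfY fun y => by
      rw [odd_of hf]; simp only [rfY, ob.u_odd]; ring
  refine { geo_dat ob mb x with
    q_comm := fun f f' => qf2_comm _ _ _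
    W_comm := fun f f' => w2_comm _ _ _
    W_nn := fun f => ?_
    qP := fun f f' => ?_
    l_nn := mb.l_pos.le
    δ_nn := sub_nonneg.2 ob.lt.le
    K_ge := le_trans (le_add_of_nonneg_right (by positivity)) hK
    eqψ := fun f => ?_
    eqa := fun i f => ?_
    gapψ := fun f => ?_
    gapa := fun f hf => ?_
    gapb := fun f hf ho => ?_
    Wψ := fun f => (h x M _ f (by linarith) (dec_ψ mb)).1.trans
      (mul_le_mul_of_nonneg_right K3 (preH.nr_nn f))
    Wa := fun i f => (h x _ _ f M2 (dec_a mb i)).1.trans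
      (mul_le_mul_of_nonneg_right K2 (preH.nr_nn f))
    k1 := ?_
    k2 := ?_ }
  · show 0 ≤ w2 x f f
    refine Finset.sum_nonneg fun j _ => integral_nonneg fun y => ?_
    show 0 ≤ Wx x y * (f : V2) j y * (f : V2) j y
    rw [mul_assoc]
    exact mul_nonneg (by unfold Wx; positivity) (mul_self_nonneg _)
  · show qf2 (U2 D l) (par f) (par f') = qf2 (U2 D l) f f'
    refine Finset.sum_congr rfl fun j _ => ?_
    have := sym_rfY.qf (U2 D l) (f.2.1 j).hl (f'.2.1 j).hl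
    simp only [U2_rf] at this
    exact this
  · show qf2 (U2 D l) (vψ Ψ) f = E2 * ip2 (vψ Ψ) f
    rw [eψ, qf2_two, ← mb.eqΨ _ (f.2.1 0)]
    simp [vψ, qf_zero_left]
  · show |qf2 (U2 D l) (va g u i) f - (eg + eu) * ip2 (va g u i) f| ≤ l * K * nr ipH f
    rw [eq_a ob, abs_mul, abs_of_pos mb.l_pos, mul_assoc]
    exact mul_le_mul_of_nonneg_left ((h x _ ⟨_, va_mem ob.hg ob.hu i⟩ f M2 (dec_a mb i)).2.trans
      (mul_le_mul_of_nonneg_right K2 (preH.nr_nn f))) mb.l_pos.le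
  · show E2 * ip2 f f + (eu - eg) / 2 * (ip2 f f - ip2 (vψ Ψ) f ^ 2) ≤ qf2 (U2 D l) f f
    have h0 := mb.gapΨ _ (f.2.1 0)
    have h1 := mb.gapΨ _ (f.2.1 1)
    rw [oΨ] at h1
    rw [eψ, ip2_two, qf2_two]
    linarith
  · show (eg + eu) * ip2 f f ≤ qf2 (U2 D l) f f
    rw [ip2_two, qf2_two]
    linarith [mb.gap2a _ (f.2.1 0) (ogg f hf 0), mb.gap2a _ (f.2.1 1) (ogg f hf 1)]
  · show (eg + eu + c) * ip2 f f ≤ qf2 (U2 D l) f f
    have a0 : ip2 (va g u 0) f = 0 := ho 0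
    have a1 : ip2 (va g u 1) f = 0 := ho 1
    have a2 : ip2 (va g u 2) f = 0 := ho 2
    have b0 : ip (tn u g) ((f : V2) 0) = 0 := by simpa [ip2_two, va, ip_zero_left] using a0
    have b1 : ip (tn g u) ((f : V2) 0) = 0 := by simpa [ip2_two, va, ip_zero_left] using a1
    have b2 : ip (fun y => (tn g u y - tn u g y) / √2) ((f : V2) 1) = 0 := by
      simpa [ip2_two, va, ip_zero_left] using a2
    rw [ip_wedge_left ob.hg ob.hu (f.2.1 1).1, mul_eq_zero] at b2
    have b3 := b2.resolve_left (by positivity)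
    have b4 : ip (tn g u) ((f : V2) 1) = -ip (tn u g) ((f : V2) 1) := by
      rw [← sym_swap.ip (tn g u), ip, ip, ← integral_neg]
      refine integral_congr_ae (ae_of_all _ fun y => ?_)
      simp only [f.2.2 y, tn, Prod.fst_swap, Prod.snd_swap]
      ring
    rw [ip2_two, qf2_two]
    linarith [mb.gap2b _ (f.2.1 0) (ogg f hf 0) b1 b0 (ouu f hf 0),
      mb.gap2b _ (f.2.1 1) (ogg f hf 1) (show ip (tn g u) _ = 0 by linarith)
        (show ip (tn u g) _ = 0 by linarith) (ouu f hf 1)]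
  · show w2 x (vψ Ψ) (va g u 1) = w2 x (vψ Ψ) (va g u 0)
    rw [w2_two, w2_two]
    congr 1
    show ∫ y, Wx x y * Ψ y * tn g u y = ∫ y, Wx x y * Ψ y * tn u g y
    rw [← sym_swap.integral]
    refine integral_congr_ae (ae_of_all _ fun y => ?_)
    simp only [mb.Ψ_swap, Wx, tn, Prod.fst_swap, Prod.snd_swap]
    ring
  · show w2 x (vψ Ψ) (va g u 2) = 0
    simp [w2_two, vψ, va]

end Crest.Agent.R335.KA
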