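/-
R335/KA/KerA: the odd part of the kernel
Skeleton by helper59 (block KA of row 335, see R335/Notes, section KA); keep the statements
unchanged, add any helper lemmas you like.
-/
import Crest.Agent.R335.KA.Ker0

set_option autoImplicit false
set_option linter.unusedSectionVars false
set_option linter.unusedVariables false
set_option linter.unusedSimpArgs false

noncomputable section

namespace Crest.Agent.R335.KA

open MeasureTheory Set Filter Topology Metric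

/-- The near weight. -/
def om (x : X) (y : Y) : ℝ := 8 * |x 2| / ‖x‖ ^ 3 * (min ‖y.1‖ (‖x‖ / 2) + min ‖y.2‖ (‖x‖ / 2))

theorem sq_sub_rf (x y : X) : ‖x - rf y‖ ^ 2 - ‖x - y‖ ^ 2 = 4 * x 2 * y 2 := by
  simp only [EuclideanSpace.real_norm_sq_eq, Fin.sum_univ_three, PiLp.sub_apply, rf]
  simp
  ring

theorem norm_sub_rf (x y : X) : ‖x - rf y‖ = ‖rf x - y‖ := by
  rw [← norm_rf, rf_sub, rf_rf]

/-- `|x - rf y|² - |x - y|² = 4 (x 2) (y 2)`, both distances are at least `|x|/2`. -/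
theorem inv_sub_rf {x y : X} (hx : 0 < ‖x‖) (hy : ‖y‖ ≤ ‖x‖ / 2) :
    |1 / ‖x - y‖ - 1 / ‖x - rf y‖| ≤ 16 * |x 2| * ‖y‖ / ‖x‖ ^ 3 := by
  have h1 := sq_sub_rf x y
  have ha : ‖x‖ / 2 ≤ ‖x - y‖ := by linarith [norm_sub_norm_le x y]
  have hb : ‖x‖ / 2 ≤ ‖x - rf y‖ := by linarith [norm_sub_norm_le x (rf y), norm_rf y]
  have h2 : |y 2| ≤ ‖y‖ := PiLp.norm_apply_le y 2
  generalize ‖x - y‖ = a at *
  generalize ‖x - rf y‖ = b at *
  have a0 : 0 < a := by linarith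
  have b0 : 0 < b := by linarith
  have e : 1 / a - 1 / b = 4 * x 2 * y 2 / (a * b * (a + b)) := by
    rw [← h1]; field_simp; ring
  rw [e, abs_div, abs_of_pos (by positivity : 0 < a * b * (a + b)), abs_mul, abs_mul,
    abs_of_pos (by norm_num : (0 : ℝ) < 4)]
  calc _ ≤ 4 * |x 2| * ‖y‖ / (‖x‖ / 2 * (‖x‖ / 2) * (‖x‖ / 2 + ‖x‖ / 2)) := by gcongr
    _ = _ := by field_simp; ring

theorem elec {x : X} (hx : 0 < ‖x‖) (y : X) {s γ B : ℝ} (hs : ‖y‖ ≤ s) (hB : 0 ≤ B)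
    (hγ : |γ| ≤ B * Real.exp (-(9 / 10) * s)) :
    |1 / ‖x - y‖ - 1 / ‖x - rf y‖| / 2 * |γ| ≤ 8 * |x 2| / ‖x‖ ^ 3 * min ‖y‖ (‖x‖ / 2) * |γ| +
      B * ex (2 / 5) x * ((1 / ‖x - y‖ + 1 / ‖rf x - y‖) * Real.exp (-(1 / 10) * s)) := by
  have he : 0 < ex (2 / 5) x := Real.exp_pos _
  rcases le_total ‖y‖ (‖x‖ / 2) with h | h
  · rw [min_eq_left h]
    refine le_add_of_le_of_nonneg (mul_le_mul_of_nonneg_right ?_ (abs_nonneg _)) (by positivity)
    have := inv_sub_rf hx h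
    calc _ ≤ 16 * |x 2| * ‖y‖ / ‖x‖ ^ 3 / 2 := by gcongr
      _ = _ := by ring
  · refine le_add_of_nonneg_of_le (by positivity) ?_
    have h1 : |1 / ‖x - y‖ - 1 / ‖x - rf y‖| / 2 ≤ 1 / ‖x - y‖ + 1 / ‖rf x - y‖ := by
      rw [norm_sub_rf]
      have a : 0 ≤ 1 / ‖x - y‖ := by positivity
      have b : 0 ≤ 1 / ‖rf x - y‖ := by positivity
      have := abs_sub (1 / ‖x - y‖) (1 / ‖rf x - y‖)
      rw [abs_of_nonneg a, abs_of_nonneg b] at this
      linarith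
    have h2 : Real.exp (-(9 / 10) * s) ≤ ex (2 / 5) x * Real.exp (-(1 / 10) * s) := by
      rw [ex, ← Real.exp_add]
      exact Real.exp_le_exp.2 (by linarith)
    calc _ ≤ (1 / ‖x - y‖ + 1 / ‖rf x - y‖) * (B * (ex (2 / 5) x * Real.exp (-(1 / 10) * s))) :=
          mul_le_mul h1 (hγ.trans (mul_le_mul_of_nonneg_left h2 hB)) (abs_nonneg _) (by positivity)
      _ = _ := by ring

theorem om_nn (x : X) (y : Y) : 0 ≤ om x y := by unfold om; positivity

theorem om_le {x : X} (hx : 0 < ‖x‖) (y : Y) : om x y ≤ 8 * |x 2| / ‖x‖ ^ 2 :=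
  calc om x y ≤ 8 * |x 2| / ‖x‖ ^ 3 * (‖x‖ / 2 + ‖x‖ / 2) := by
        unfold om; gcongr <;> exact min_le_right _ _
    _ = _ := by field_simp; ring

theorem om_le' (x : X) (y : Y) : om x y ≤ 8 * |x 2| / ‖x‖ ^ 3 * (‖y.1‖ + ‖y.2‖) := by
  unfold om; gcongr <;> exact min_le_left _ _

theorem om_int {x : X} (hx : 0 < ‖x‖) {G f : Y → ℝ} (hG : MemLp G 2 volume) (hf : MemLp f 2 volume) :
    Integrable fun y => om x y * |G y| * |f y| := by
  have h1 : Integrable fun y => |G y| * |f y| := hG.abs.integrable_mul hf.abs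
  simp only [mul_assoc]
  refine h1.bdd_mul (c := 8 * |x 2| / ‖x‖ ^ 2) (Continuous.aestronglyMeasurable ?_)
    (ae_of_all _ fun y => by rw [Real.norm_of_nonneg (om_nn x y)]; exact om_le hx y)
  unfold om; fun_prop

theorem prod_odd {G f : HH} (h : PH G = G ∧ PH f = -f ∨ PH G = -G ∧ PH f = f) (j : Fin 2) (y : Y) :
    (G : V2) j (rfY y) * (f : V2) j (rfY y) = -((G : V2) j y * (f : V2) j y) := by
  rcases h with ⟨h1, h2⟩ | ⟨h1, h2⟩
  · have a : (G : V2) j (rfY y) = (G : V2) j y := congrFun (congrFun (congrArg Subtype.val h1) j) y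
    have b : (f : V2) j (rfY y) = -(f : V2) j y := congrFun (congrFun (congrArg Subtype.val h2) j) y
    rw [a, b]; ring
  · have a : (G : V2) j (rfY y) = -(G : V2) j y := congrFun (congrFun (congrArg Subtype.val h1) j) y
    have b : (f : V2) j (rfY y) = (f : V2) j y := congrFun (congrFun (congrArg Subtype.val h2) j) y
    rw [a, b]; ring

/-- (KA)  The product `G j * f j` is odd under `rfY`, so `∫ W G f = ∫ (W - W ∘ rfY)/2 G f`
(`sym_rfY.integral`, `(pot_Wx x).integrable`).  For each electron: if `|y_i| ≤ |x|/2` use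
`inv_sub_rf`; else bound by `(1/|x - y_i| + 1/|rf x - y_i|)/2` (`‖x - rf y‖ = ‖rf x - y‖`) and
`dk y ≤ e^{-.4 |x|} e^{-(|y1| + |y2|)/10}`; `maj_use` with `a = 1/10` at `x` and at `rf x`. -/
theorem kerA : ∃ K : ℝ, 1 ≤ K ∧ ∀ (x : X) (B : ℝ) (G f : HH), 0 ≤ B → (∀ j, Dec B ((G : V2) j)) →
    0 < ‖x‖ → (PH G = G ∧ PH f = -f ∨ PH G = -G ∧ PH f = f) →
    |WH x G f| ≤ (∑ j, ∫ y, om x y * |(G : V2) j y| * |(f : V2) j y|) +
      K * B * ex (2 / 5) x * nr ipH f := by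
  obtain ⟨K, hK, h⟩ := maj (a := 1 / 10) (by norm_num)
  refine ⟨4 * K, by linarith, fun x B G f hB hG hx hp => ?_⟩
  have he : 0 < ex (2 / 5) x := Real.exp_pos _
  have key : ∀ j, |∫ y, Wx x y * (G : V2) j y * (f : V2) j y| ≤
      (∫ y, om x y * |(G : V2) j y| * |(f : V2) j y|) + 2 * K * B * ex (2 / 5) x * nr ipH f := by
    intro j
    have i1 := (pot_Wx x).integrable (G.2.1 j) (f.2.1 j).1
    have i2 := sym_rfY.integrable.2 i1
    have e1 : ∫ y, Wx x y * (G : V2) j y * (f : V2) j y =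
        ∫ y, (Wx x y - Wx x (rfY y)) / 2 * (G : V2) j y * (f : V2) j y := by
      have := sym_rfY.integral fun y => Wx x y * (G : V2) j y * (f : V2) j y
      have e2 : ∫ y, (Wx x y - Wx x (rfY y)) / 2 * (G : V2) j y * (f : V2) j y =
          ∫ y, 1 / 2 * (Wx x y * (G : V2) j y * (f : V2) j y +
            Wx x (rfY y) * (G : V2) j (rfY y) * (f : V2) j (rfY y)) :=
        integral_congr_ae (ae_of_all _ fun y => by
          simp only [mul_assoc (Wx x (rfY y)), prod_odd hp]; ring)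
      rw [e2, integral_const_mul, integral_add i1 i2, this]
      ring
    obtain ⟨a1, a2⟩ := h x _ (f.2.1 j).1
    obtain ⟨b1, b2⟩ := h (rf x) _ (f.2.1 j).1
    have i3 := om_int hx (G.2.1 j).1 (f.2.1 j).1
    have i4 := (a1.fun_add b1).const_mul (B * ex (2 / 5) x)
    have h3 := norm_integral_le_of_norm_le
      (f := fun y => (Wx x y - Wx x (rfY y)) / 2 * (G : V2) j y * (f : V2) j y) (i3.fun_add i4)
      (Eventually.mono (hG j) fun y hy => by
        have c1 := elec hx y.1 (le_add_of_nonneg_right (norm_nonneg y.2)) hB hy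
        have c2 := elec hx y.2 (le_add_of_nonneg_left (norm_nonneg y.1)) hB hy
        have e3 : Wx x y - Wx x (rfY y) = (1 / ‖x - y.1‖ - 1 / ‖x - rf y.1‖) +
            (1 / ‖x - y.2‖ - 1 / ‖x - rf y.2‖) := by simp only [Wx, rfY]; ring
        have c3 := mul_le_mul_of_nonneg_right (abs_add_le (1 / ‖x - y.1‖ - 1 / ‖x - rf y.1‖)
          (1 / ‖x - y.2‖ - 1 / ‖x - rf y.2‖)) (abs_nonneg ((G : V2) j y))
        have c4 : 0 ≤ B * ex (2 / 5) x * ((1 + 1 / ‖y.1 - y.2‖) *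
          Real.exp (-(1 / 10) * (‖y.1‖ + ‖y.2‖))) := by positivity
        rw [Real.norm_eq_abs, abs_mul, abs_mul, abs_div, abs_two, e3, ← add_mul, ← mul_assoc,
          ← add_mul]
        refine mul_le_mul_of_nonneg_right ?_ (abs_nonneg _)
        simp only [om, mj]
        linarith)
    rw [Real.norm_eq_abs, integral_add i3 i4, integral_const_mul, integral_add a1 b1] at h3
    have h4 := mul_le_mul_of_nonneg_left (sqrt_ip_le (f : V2) j) (zero_le_one.trans hK)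
    have h5 : B * ex (2 / 5) x * ((∫ y, mj (1 / 10) x y * |(f : V2) j y|) +
        ∫ y, mj (1 / 10) (rf x) y * |(f : V2) j y|) ≤ B * ex (2 / 5) x * (2 * (K * nr ipH f)) :=
      mul_le_mul_of_nonneg_left (by simp only [nr, ipH_apply]; linarith) (by positivity)
    rw [e1]
    linarith
  rw [WH_apply, w2, Fin.sum_univ_two, Fin.sum_univ_two]
  exact (abs_add_le _ _).trans (by linarith [key 0, key 1])

theorem cs_L {G f : V2} (hG : G ∈ LL) (hf : f ∈ LL) :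
    ∑ j, ∫ y, |G j y| * |f j y| ≤ √(ip2 G G) * √(ip2 f f) := by
  have h := (le_abs_self _).trans
    (preL.cs ⟨fun j y => |G j y|, fun j => (hG j).abs⟩ ⟨fun j y => |f j y|, fun j => (hf j).abs⟩)
  simpa only [nr, ipL_apply, ip2, ip, abs_mul_abs_self] using h

/-- `om ≤ 8 |z| / r²`, Cauchy-Schwarz. -/
theorem kerA1 : ∃ K : ℝ, 1 ≤ K ∧ ∀ (x : X) (B : ℝ) (G f : HH), 0 ≤ B → (∀ j, Dec B ((G : V2) j)) →
    0 < ‖x‖ → (PH G = G ∧ PH f = -f ∨ PH G = -G ∧ PH f = f) →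
    |WH x G f| ≤ (8 * |x 2| / ‖x‖ ^ 2 * nr ipH G + K * B * ex (2 / 5) x) * nr ipH f := by
  obtain ⟨K, hK, h⟩ := kerA
  refine ⟨K, hK, fun x B G f hB hG hx hp => (h x B G f hB hG hx hp).trans ?_⟩
  rw [add_mul, add_le_add_iff_right, mul_assoc]
  refine le_trans ?_ (mul_le_mul_of_nonneg_left (cs_L (HH_le G.2) (HH_le f.2)) (by positivity))
  rw [Finset.mul_sum]
  refine Finset.sum_le_sum fun j _ => ?_
  rw [← integral_const_mul]
  refine integral_mono (om_int hx (G.2.1 j).1 (f.2.1 j).1)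
    (((G.2.1 j).1.abs.integrable_mul (f.2.1 j).1.abs).const_mul _) fun y => ?_
  simp only [mul_assoc (om x y)]
  exact mul_le_mul_of_nonneg_right (om_le hx y) (by positivity)

/-- `om ≤ 8 |z| / r³ (|y1| + |y2|)`, Cauchy-Schwarz, `mom` for square integrability. -/
theorem kerA2 : ∃ K : ℝ, 1 ≤ K ∧ ∀ (x : X) (B μ : ℝ) (G f : HH), 0 ≤ B → 0 ≤ μ →
    (∀ j, Dec B ((G : V2) j)) → 0 < ‖x‖ → (PH G = G ∧ PH f = -f ∨ PH G = -G ∧ PH f = f) →
    (∑ j, ∫ y : Y, ((‖y.1‖ + ‖y.2‖) * (G : V2) j y) ^ 2) ≤ μ ^ 2 →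
    |WH x G f| ≤ (8 * |x 2| / ‖x‖ ^ 3 * μ + K * B * ex (2 / 5) x) * nr ipH f := by
  obtain ⟨K, hK, h⟩ := kerA
  obtain ⟨K', -, hm⟩ := mom
  refine ⟨K, hK, fun x B μ G f hB hμ hG hx hp hs => (h x B G f hB hG hx hp).trans ?_⟩
  have hL : (fun j (y : Y) => (‖y.1‖ + ‖y.2‖) * (G : V2) j y) ∈ LL :=
    fun j => (hm B _ hB (hG j) (G.2.1 j).1.1).1
  have h1 := cs_L hL (HH_le f.2)
  have h2 : √(ip2 (fun j (y : Y) => (‖y.1‖ + ‖y.2‖) * (G : V2) j y)
      fun j (y : Y) => (‖y.1‖ + ‖y.2‖) * (G : V2) j y) ≤ μ :=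
    Real.sqrt_le_iff.2 ⟨hμ, by simpa only [ip2, ip, sq] using hs⟩
  rw [add_mul, add_le_add_iff_right, mul_assoc]
  refine le_trans ?_ (mul_le_mul_of_nonneg_left
    (h1.trans (mul_le_mul_of_nonneg_right h2 (Real.sqrt_nonneg _))) (by positivity))
  rw [Finset.mul_sum]
  refine Finset.sum_le_sum fun j _ => ?_
  rw [← integral_const_mul]
  refine integral_mono (om_int hx (G.2.1 j).1 (f.2.1 j).1)
    (((hL j).abs.integrable_mul (f.2.1 j).1.abs).const_mul _) fun y => ?_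
  simp only [abs_mul, abs_of_nonneg (add_nonneg (norm_nonneg y.1) (norm_nonneg y.2)), ← mul_assoc]
  exact mul_le_mul_of_nonneg_right (mul_le_mul_of_nonneg_right (om_le' x y) (abs_nonneg _))
    (abs_nonneg _)

end Crest.Agent.R335.KA
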