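/-
R335/KA/KerP: the moment of Psi and the main term of the induced dipole
Skeleton by helper59 (block KA of row 335, see R335/Notes, section KA); keep the statements
unchanged, add any helper lemmas you like.
-/
import Crest.Agent.R335.KA.KerA

set_option autoImplicit false
set_option linter.unusedSectionVars false
set_option linter.unusedVariables false
set_option linter.unusedSimpArgs false

noncomputable section

namespace Crest.Agent.R335.KA

open MeasureTheory Set Filter Topology Metric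

theorem norm_nuc {D : ℝ} (hD : 0 ≤ D) : ‖nuc D‖ = D := by
  simp [nuc, abs_of_nonneg hD]

/-- From `g_up`, `g_nn`: `g² ≤ 2C² (e^{-2a t+} + e^{-2a t-})`, `|y|² ≤ 2 t±² + 2 D²`
(`‖nuc D‖ = D`), `integrable_ex`, translation invariance (`integral_sub_right_eq_self`). -/
theorem mom_g (C : ℝ) : ∃ C0 : ℝ, 1 ≤ C0 ∧ ∀ {c D eg eu : ℝ} {g u : X → ℝ}, OB c C D g u eg eu →
    (Integrable fun y => (‖y‖ * g y) ^ 2) ∧ ∫ y, (‖y‖ * g y) ^ 2 ≤ (C0 * D) ^ 2 := by
  have ha : (0 : ℝ) < 2 * (999 / 1000) := by norm_num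
  set φ : X → ℝ := fun w => (‖w‖ ^ 2 + 1) * Real.exp (-(2 * (999 / 1000)) * ‖w‖) with hφ
  have iφ : Integrable φ := by
    have h1 := integrable_ex ha 0 2
    simp only [sub_zero] at h1
    simpa only [hφ, add_mul, one_mul] using h1.fun_add (int_ex ha)
  have φ0 : ∀ w, 0 ≤ φ w := fun w => by simp only [hφ]; positivity
  have I0 : 0 ≤ ∫ w, φ w := integral_nonneg φ0
  refine ⟨1 + 8 * C ^ 2 * ∫ w, φ w, le_add_of_nonneg_right (by positivity),
    fun {c D eg eu g u} ob => ?_⟩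
  have hD := ob.D_ge
  have i1 := iφ.comp_sub_right (nuc D)
  have i2 := iφ.comp_add_right (nuc D)
  have i3 := (i1.fun_add i2).const_mul (4 * C ^ 2 * D ^ 2)
  have key : ∀ (s t : ℝ), 0 ≤ s → 0 ≤ t → s ≤ t + D →
      s ^ 2 * Real.exp (-(999 / 1000) * t) ^ 2 ≤
        2 * D ^ 2 * ((t ^ 2 + 1) * Real.exp (-(2 * (999 / 1000)) * t)) := fun s t hs ht h => by
    have e : Real.exp (-(999 / 1000) * t) ^ 2 = Real.exp (-(2 * (999 / 1000)) * t) := by
      rw [sq, ← Real.exp_add]; congr 1; ring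
    rw [e, ← mul_assoc]
    refine mul_le_mul_of_nonneg_right ?_ (Real.exp_pos _).le
    have h1 := pow_le_pow_left₀ hs h 2
    have h2 : 1 ≤ D ^ 2 := by nlinarith
    nlinarith [sq_nonneg (t - D), mul_le_mul_of_nonneg_right h2 (sq_nonneg t)]
  have hle : ∀ᵐ y : X, (‖y‖ * g y) ^ 2 ≤ 4 * C ^ 2 * D ^ 2 * (φ (y - nuc D) + φ (y + nuc D)) := by
    filter_upwards [ob.g_up] with y hy
    have h1 := key ‖y‖ ‖y - nuc D‖ (norm_nonneg _) (norm_nonneg _) (by
      have := norm_add_le (y - nuc D) (nuc D)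
      rwa [sub_add_cancel, norm_nuc (by linarith)] at this)
    have h2 := key ‖y‖ ‖y + nuc D‖ (norm_nonneg _) (norm_nonneg _) (by
      have := norm_sub_le (y + nuc D) (nuc D)
      rwa [add_sub_cancel_right, norm_nuc (by linarith)] at this)
    have h3 := pow_le_pow_left₀ (ob.g_nn y) hy 2
    simp only [tp, tm] at h3
    simp only [hφ]
    generalize Real.exp (-(999 / 1000) * ‖y - nuc D‖) = a at *
    generalize Real.exp (-(999 / 1000) * ‖y + nuc D‖) = b at *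
    have h4 : g y ^ 2 ≤ C ^ 2 * (2 * a ^ 2 + 2 * b ^ 2) :=
      h3.trans (by rw [mul_pow]; gcongr; nlinarith [sq_nonneg (a - b)])
    have h5 := mul_le_mul_of_nonneg_left h4 (sq_nonneg ‖y‖)
    have h6 := mul_le_mul_of_nonneg_left (add_le_add h1 h2) (sq_nonneg C)
    rw [mul_pow]
    linarith
  have i4 : Integrable fun y => (‖y‖ * g y) ^ 2 :=
    i3.mono' ((measurable_norm.mul ob.mg).pow_const 2).aestronglyMeasurable
      (hle.mono fun y hy => by rwa [Real.norm_of_nonneg (sq_nonneg _)])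
  refine ⟨i4, (integral_mono_ae i4 i3 hle).trans ?_⟩
  rw [integral_const_mul, integral_add i1 i2, integral_sub_right_eq_self, integral_add_right_eq_self,
    mul_pow]
  have h7 : 0 ≤ 8 * C ^ 2 * ∫ w, φ w := by positivity
  have h8 : 8 * C ^ 2 * ∫ w, φ w ≤ (1 + 8 * C ^ 2 * ∫ w, φ w) ^ 2 := by nlinarith
  nlinarith [mul_le_mul_of_nonneg_right h8 (sq_nonneg D)]

/-- `s = |y1| + |y2|`; `(sΨ)² ≤ 2 (s gg)² + 2 (s (Ψ - gg))²`; `∫ (s gg)² ≤ 4 ∫ (|y| g)²`;
`∫ s² (Ψ - gg)² ≤ ‖Ψ - gg‖ ‖s² (Ψ - gg)‖ ≤ η K(M) ≤ 1` (`ip_sq_le`, `mom`, `dec_tn`, `Ψ_close`). -/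
theorem mom_Ψ (C : ℝ) : ∃ C0 : ℝ, 1 ≤ C0 ∧ ∀ M : ℝ, ∃ η0 : ℝ, 0 < η0 ∧
    ∀ {c D l eg eu η E2 E : ℝ} {g u : X → ℝ} {Ψ : Y → ℝ} {A : Z → ℝ}, η ≤ η0 →
    OB c C D g u eg eu → MB c D l g u eg eu M η Ψ E2 A E →
    ∫ y : Y, ((‖y.1‖ + ‖y.2‖) * Ψ y) ^ 2 ≤ (C0 * D) ^ 2 := by
  obtain ⟨C0, hC0, hg⟩ := mom_g C
  obtain ⟨K, hK, hm⟩ := mom
  refine ⟨4 * C0, by linarith, fun M => ⟨1 / (1 + K * (|M| + M ^ 2)), by positivity,
    fun {c D l eg eu η E2 E g u Ψ A} hη ob mb => ?_⟩⟩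
  have hM := mb.M_ge
  have hD := ob.D_ge
  have η0 : 0 < η := mb.l_pos.trans_le mb.l_le
  rw [abs_of_nonneg (by linarith), le_div_iff₀ (by positivity)] at hη
  obtain ⟨i1, b1⟩ := hg ob
  have i2 : Integrable fun y => g y ^ 2 := ob.hg.1.integrable_sq
  have n2 : ∫ y, g y ^ 2 = 1 := by simpa only [ip, sq] using ob.ng
  have hgg := h1_tn ob.hg ob.hg
  have hh : MemLp (fun y => Ψ y - tn g g y) 2 volume := mb.hΨ.1.sub hgg.1
  have d1 : Dec (M + M ^ 2) fun y => Ψ y - tn g g y := by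
    filter_upwards [mb.Ψ_bd, dec_tn mb.g_bd mb.g_bd] with y a b
    exact (abs_sub _ _).trans (by rw [add_mul]; exact add_le_add a b)
  obtain ⟨m1, -, m2, m3⟩ := hm _ _ (by positivity) d1 hh.1
  have c1 := ip_sq_le hh m2
  have c2 : ip (fun y => Ψ y - tn g g y) (fun y => Ψ y - tn g g y) ≤ η ^ 2 := by
    simpa only [ip, sq, tn] using mb.Ψ_close
  have c3 : ip (fun y : Y => (‖y.1‖ + ‖y.2‖) ^ 2 * (Ψ y - tn g g y))
      (fun y : Y => (‖y.1‖ + ‖y.2‖) ^ 2 * (Ψ y - tn g g y)) ≤ (K * (M + M ^ 2)) ^ 2 := by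
    simpa only [ip, ← sq] using m3
  have c4 : ∫ y : Y, ((‖y.1‖ + ‖y.2‖) * (Ψ y - tn g g y)) ^ 2 ≤ 1 := by
    have e : ∫ y : Y, ((‖y.1‖ + ‖y.2‖) * (Ψ y - tn g g y)) ^ 2 = ip (fun y => Ψ y - tn g g y)
        fun y : Y => (‖y.1‖ + ‖y.2‖) ^ 2 * (Ψ y - tn g g y) :=
      integral_congr_ae (ae_of_all _ fun y => by ring)
    rw [e]
    refine abs_le_of_sq_le_sq' ?_ zero_le_one |>.2
    refine (c1.trans (mul_le_mul c2 c3 (ip_nn _) (sq_nonneg _))).trans ?_
    rw [← mul_pow]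
    exact pow_le_pow_left₀ (by positivity) (by nlinarith) 2
  have j1 : Integrable fun y : Y => (‖y.1‖ * g y.1) ^ 2 * g y.2 ^ 2 := i1.mul_prod i2
  have j2 : Integrable fun y : Y => g y.1 ^ 2 * (‖y.2‖ * g y.2) ^ 2 := i2.mul_prod i1
  have e1 : ∫ y : Y, (‖y.1‖ * g y.1) ^ 2 * g y.2 ^ 2 = ∫ y, (‖y‖ * g y) ^ 2 :=
    (integral_prod_mul (fun y : X => (‖y‖ * g y) ^ 2) fun y => g y ^ 2).trans (by rw [n2, mul_one])
  have e2 : ∫ y : Y, g y.1 ^ 2 * (‖y.2‖ * g y.2) ^ 2 = ∫ y, (‖y‖ * g y) ^ 2 :=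
    (integral_prod_mul (fun y => g y ^ 2) fun y : X => (‖y‖ * g y) ^ 2).trans (by rw [n2, one_mul])
  have j3 := ((j1.fun_add j2).const_mul 4).fun_add (m1.integrable_sq.const_mul 2)
  refine (integral_mono_of_nonneg (ae_of_all _ fun y => sq_nonneg _) j3
    (ae_of_all _ fun y => ?_)).trans ?_
  · simp only [tn]
    nlinarith [sq_nonneg ((‖y.1‖ + ‖y.2‖) * (Ψ y - 2 * (g y.1 * g y.2))),
      sq_nonneg ((‖y.1‖ - ‖y.2‖) * (g y.1 * g y.2))]
  · rw [integral_add ((j1.fun_add j2).const_mul 4) (m1.integrable_sq.const_mul 2),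
      integral_const_mul, integral_const_mul, integral_add j1 j2, e1, e2]
    have : 1 ≤ C0 * D := by nlinarith
    nlinarith

theorem inv_diff {x y : X} (hy : y ≠ x) (hz : 0 < x 2) (hy2 : 0 < y 2) :
    0 < ‖x - y‖ ∧ 0 < ‖x - rf y‖ ∧ 1 / ‖x - y‖ - 1 / ‖x - rf y‖ =
      4 * x 2 * y 2 / (‖x - y‖ * ‖x - rf y‖ * (‖x - y‖ + ‖x - rf y‖)) := by
  have h1 := sq_sub_rf x y
  have a0 : 0 < ‖x - y‖ := norm_pos_iff.2 (sub_ne_zero.2 hy.symm)
  have b0 : 0 < ‖x - rf y‖ := by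
    refine lt_of_le_of_ne (norm_nonneg _) fun h => ?_
    rw [← h] at h1
    nlinarith [mul_pos hz hy2]
  refine ⟨a0, b0, ?_⟩
  rw [← h1]; field_simp; ring

/-- `∫ W gg ug = (∫ g u / |x - y|) ‖g‖² + (∫ g u) ∫ g²/|x - y|` (`integral_prod_mul`, `H1.hardy`),
`∫ g u = 0` (`integral_odd`); `∫ g u/|x - y| = ∫ h / 2`, `h y = g u (1/|x - y| - 1/|x - rf y|)`
is even and `≥ 0` (a.e.; `x 2 > 0`); keep `ball (nuc D) 1`, where `y 2 ≥ D - 1`,
`|x - y|, |x - rf y| ≤ 1.2 |x|`, `1/|x - y| - 1/|x - rf y| = 4 (x 2) (y 2) / (a b (a + b))`,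
`g ≥ C⁻¹ e^{-2}`, `u ≥ C⁻¹ e^{-3}` (`g_lo`, `u_lo`); `Measure.addHaar_ball_center`. -/
theorem klo0 (C : ℝ) : ∃ c0 : ℝ, 0 < c0 ∧ ∀ {c D eg eu : ℝ} {g u : X → ℝ}, OB c C D g u eg eu →
    ∀ x : X, 6 * D ≤ ‖x‖ → 0 < x 2 →
      c0 * D * x 2 / ‖x‖ ^ 3 ≤ ∫ y, Wx x y * tn g g y * tn u g y := by
  have v0 : 0 < volume.real (ball (0 : X) 1) :=
    ENNReal.toReal_pos (measure_ball_pos _ _ one_pos).ne' measure_ball_lt_top.ne
  refine ⟨volume.real (ball (0 : X) 1) *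
    ((max C 1)⁻¹ * Real.exp (-2) * ((max C 1)⁻¹ * Real.exp (-3)) / 16), by positivity,
    fun {c D eg eu g u} ob x hx hz => ?_⟩
  have hD := ob.D_ge
  have hC := ob.C_ge
  have hx0 : 0 < ‖x‖ := by linarith
  rw [max_eq_left hC]
  have hard : MemLp (fun y => 1 / ‖x - y‖ * g y) 2 volume := by
    simpa only [norm_sub_rev x] using (ob.hg.hardy x).1
  have i1 : Integrable fun y => 1 / ‖x - y‖ * g y * u y := hard.integrable_mul ob.hu.1
  have i2 : Integrable fun y => 1 / ‖x - y‖ * g y * g y := hard.integrable_mul ob.hg.1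
  have i3 : Integrable fun y => g y * g y := ob.hg.1.integrable_mul ob.hg.1
  have i4 : Integrable fun y => g y * u y := ob.hg.1.integrable_mul ob.hu.1
  have e1 : ∫ y, Wx x y * tn g g y * tn u g y = ∫ y, 1 / ‖x - y‖ * g y * u y := by
    have e : ∫ y, Wx x y * tn g g y * tn u g y = ∫ y : Y,
        (1 / ‖x - y.1‖ * g y.1 * u y.1 * (g y.2 * g y.2) +
          g y.1 * u y.1 * (1 / ‖x - y.2‖ * g y.2 * g y.2)) :=
      integral_congr_ae (ae_of_all _ fun y => by simp only [Wx, tn]; ring)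
    have a := integral_prod_mul (μ := volume) (ν := volume) (fun y => 1 / ‖x - y‖ * g y * u y)
      fun y => g y * g y
    have b := integral_prod_mul (μ := volume) (ν := volume) (fun y => g y * u y)
      fun y => 1 / ‖x - y‖ * g y * g y
    have n1 : ∫ y, g y * g y = 1 := ob.ng
    have n2 : ∫ y, g y * u y = 0 :=
      integral_odd (ae_of_all _ fun y => by rw [ob.g_even, ob.u_odd]; ring)
    rw [n1, mul_one] at a
    rw [n2, zero_mul] at b
    rw [e]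
    exact (integral_add (i1.mul_prod i3) (i4.mul_prod i2)).trans
      ((congrArg₂ _ a b).trans (add_zero _))
  set h : X → ℝ := fun y => (1 / ‖x - y‖ - 1 / ‖x - rf y‖) * (g y * u y) / 2 with hh
  have i5 := sym_rf.integrable.2 i1
  have eh : h = fun y => 1 / 2 * (1 / ‖x - y‖ * g y * u y +
      1 / ‖x - rf y‖ * g (rf y) * u (rf y)) := by
    funext y; simp only [hh, ob.g_even, ob.u_odd]; ring
  have i6 : Integrable h := eh ▸ (i1.fun_add i5).const_mul _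
  have e2 : ∫ y, 1 / ‖x - y‖ * g y * u y = ∫ y, h y := by
    rw [eh, integral_const_mul, integral_add i1 i5,
      sym_rf.integral fun y => 1 / ‖x - y‖ * g y * u y]
    ring
  have ne : ∀ᵐ y : X, y ≠ x := (measure_eq_zero_iff_ae_notMem.1 (measure_singleton x)).mono
    fun y hy => hy
  have h0 : ∀ᵐ y : X, 0 ≤ h y := by
    refine ae_of_half (ne.mono fun y hy hy2 => ?_) (ae_of_all _ fun y hy => ?_)
    · obtain ⟨a0, b0, e⟩ := inv_diff hy hz hy2
      have := ob.g_nn y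
      have := ob.u_nn y hy2
      simp only [hh, e]
      positivity
    · simp only [hh, rf_rf, ob.g_even, ob.u_odd] at hy ⊢
      linarith
  set m := C⁻¹ * Real.exp (-2) * (C⁻¹ * Real.exp (-3)) / 16 * D * x 2 / ‖x‖ ^ 3 with hm
  have h1 : ∀ᵐ y : X, (ball (nuc D) 1).indicator (fun _ => m) y ≤ h y := by
    filter_upwards [h0, ne, ob.g_lo, ob.u_lo] with y h0 hy gl ul
    by_cases hb : y ∈ ball (nuc D) 1
    swap
    · rwa [indicator_of_notMem hb]
    rw [indicator_of_mem hb]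
    rw [mem_ball_iff_norm] at hb
    have y2 : D / 2 ≤ y 2 := by
      have := PiLp.norm_apply_le (y - nuc D) 2
      simp only [nuc, PiLp.sub_apply, Real.norm_eq_abs] at this hb
      simp at this
      linarith [(abs_le.1 this).1]
    have y0 : 0 < y 2 := by linarith
    have ny : ‖y‖ ≤ ‖x‖ := by
      have := norm_add_le (y - nuc D) (nuc D)
      rw [sub_add_cancel, norm_nuc (by linarith)] at this
      linarith
    obtain ⟨a0, b0, e⟩ := inv_diff hy hz y0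
    have a1 : ‖x - y‖ ≤ 2 * ‖x‖ := by linarith [norm_sub_le x y]
    have b1 : ‖x - rf y‖ ≤ 2 * ‖x‖ := by linarith [norm_sub_le x (rf y), norm_rf y]
    have t1 : Real.exp (-2) ≤ Real.exp (-(1001 / 1000) * tp D y) :=
      Real.exp_le_exp.2 (by rw [tp]; linarith)
    have t2 : Real.exp (-(1001 / 1000) * tm D y) ≤ Real.exp (-3) := by
      have := PiLp.norm_apply_le (y + nuc D) 2
      simp only [nuc, PiLp.add_apply, Real.norm_eq_abs] at this
      simp at this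
      refine Real.exp_le_exp.2 ?_
      rw [tm, nuc]
      linarith [(abs_le.1 this).2]
    have t3 : 2 * Real.exp (-3) ≤ Real.exp (-2) := by
      rw [show (-2 : ℝ) = 1 + -3 by norm_num, Real.exp_add]
      exact mul_le_mul_of_nonneg_right (by linarith [Real.add_one_le_exp 1]) (Real.exp_pos _).le
    have c0 : 0 < C⁻¹ := by positivity
    have g1 : C⁻¹ * Real.exp (-2) ≤ g y := le_trans (mul_le_mul_of_nonneg_left
      (by linarith [Real.exp_pos (-(1001 / 1000) * tm D y)]) c0.le) gl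
    have u1 : C⁻¹ * Real.exp (-3) ≤ u y :=
      le_trans (mul_le_mul_of_nonneg_left (by linarith) c0.le) (ul y0)
    have := ob.g_nn y
    simp only [hh, e]
    calc m = 4 * x 2 * (D / 2) / (2 * ‖x‖ * (2 * ‖x‖) * (2 * ‖x‖ + 2 * ‖x‖)) *
          (C⁻¹ * Real.exp (-2) * (C⁻¹ * Real.exp (-3))) / 2 := by
          rw [hm]; field_simp; ring
      _ ≤ _ := by gcongr
  have h2 := integral_mono_ae ((integrable_indicator_iff measurableSet_ball).2
    (integrableOn_const measure_ball_lt_top.ne)) i6 h1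
  rw [integral_indicator_const _ measurableSet_ball, smul_eq_mul, measureReal_def,
    Measure.addHaar_ball_center, ← measureReal_def] at h2
  rw [e1, e2]
  refine le_trans (le_of_eq ?_) h2
  rw [hm]; ring

end Crest.Agent.R335.KA
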