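/-
R335/KA/CtxX: the slice facts in the exterior region
Skeleton by helper59 (block KA of row 335, see R335/Notes, section KA); keep the statements
unchanged, add any helper lemmas you like.
-/
import Crest.Agent.R335.KA.Basic
import Crest.Agent.R335.KA.Alg1
import Crest.Agent.R335.KA.KerA
import Crest.Agent.R335.KA.KerP

set_option autoImplicit false
set_option linter.unusedSectionVars false
set_option linter.unusedVariables false
set_option linter.unusedSimpArgs false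

noncomputable section

namespace Crest.Agent.R335.KA

open MeasureTheory Set Filter Topology Metric

variable {c C D l eg eu M η E2 E : ℝ} {g u : X → ℝ} {Ψ : Y → ℝ} {A : Z → ℝ}

theorem mom_a (M : ℝ) : ∃ μ : ℝ, 1 ≤ μ ∧ ∀ {c C D l eg eu η E2 E : ℝ} {g u : X → ℝ} {Ψ : Y → ℝ}
    {A : Z → ℝ}, OB c C D g u eg eu → MB c D l g u eg eu M η Ψ E2 A E → ∀ i,
    (∑ j, ∫ y : Y, ((‖y.1‖ + ‖y.2‖) * va g u i j y) ^ 2) ≤ μ ^ 2 := by
  obtain ⟨K, hK, h⟩ := mom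
  refine ⟨1 + 2 * (K * (2 * M ^ 2)), le_add_of_nonneg_right (by positivity), fun ob mb i => ?_⟩
  have h1 := fun j => (h _ _ (by positivity) (dec_a mb i j) ((va_mem ob.hg ob.hu i).1 j).1.1).2.1
  have h2 : 0 ≤ K * (2 * M ^ 2) := by positivity
  rw [Fin.sum_univ_two]
  nlinarith [h1 0, h1 1]

/-- `kerB`, `kerA2` with `mom_Ψ` (`C0 = 8 C0'`) and `mom`; `η0 ≤ eu - eg`, `6 D ≥ 4`. -/
theorem ctxX_dat (C : ℝ) : ∃ C0 : ℝ, 1 ≤ C0 ∧ ∀ C1 : ℝ, C0 ≤ C1 →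
    ∀ {c D eg eu : ℝ} {g u : X → ℝ} (ob : OB c C D g u eg eu) (M : ℝ), ∃ K0 η0 : ℝ, 0 < η0 ∧
    ∀ K η : ℝ, K0 ≤ K → η ≤ η0 → ∀ {l E2 E : ℝ} {Ψ : Y → ℝ} {A : Z → ℝ}
    (mb : MB c D l g u eg eu M η Ψ E2 A E) (x : X), 6 * D ≤ ‖x‖ →
    CtxX (dat D l x ob.hg ob.hu mb.hΨ) (eu - eg) l K C1 D x := by
  obtain ⟨C0, hC0, hm⟩ := mom_Ψ C
  obtain ⟨K1, hK1, hB⟩ := kerB
  obtain ⟨K2, hK2, hA⟩ := kerA2
  refine ⟨8 * C0, by linarith, fun C1 hC1 c D eg eu g u ob M => ?_⟩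
  obtain ⟨η1, hη1, hm⟩ := hm M
  obtain ⟨μ, hμ, hm'⟩ := mom_a M
  have hD := ob.D_ge
  have hCD : 0 ≤ C1 * D := mul_nonneg (by linarith) (by linarith)
  refine ⟨C1 * D + (K1 + K2) * (2 * M ^ 2) + 8 * μ, min η1 (eu - eg),
    lt_min hη1 (sub_pos.2 ob.lt), fun K η hK hη l E2 E Ψ A mb x hx => ?_⟩
  have hM := mb.M_ge
  have hx0 : 0 < ‖x‖ := by linarith
  have he : 0 < ex (2 / 5) x := Real.exp_pos _
  have hM2 : M ≤ 2 * M ^ 2 := by nlinarith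
  have k1 : K1 * M ≤ K := by nlinarith
  have k2 : K2 * (2 * M ^ 2) ≤ K := by nlinarith
  have k3 : K2 * M ≤ K := by nlinarith
  have k4 : 8 * μ ≤ K := by nlinarith
  refine ⟨hx0, ?_, hCD, by nlinarith, fun f => ?_, fun f hf => ?_, fun i f hf => ?_⟩
  · rw [div_le_iff₀ hx0]
    have := mb.l_le.trans (hη.trans (min_le_right _ _))
    nlinarith [mb.l_pos]
  · refine (hB x M _ f (by linarith) (dec_ψ mb) hx0).trans ?_
    exact mul_le_mul_of_nonneg_right (div_le_div_of_nonneg_right k1 (sq_nonneg _)) (preH.nr_nn f)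
  · refine (hA x M (C0 * D) _ f (by linarith) (by positivity) (dec_ψ mb) hx0
      (.inl ⟨(geo_dat ob mb x).Pψ, hf⟩) ?_).trans (mul_le_mul_of_nonneg_right ?_ (preH.nr_nn f))
    · simpa [dat, vψ, Fin.sum_univ_two] using hm (hη.trans (min_le_left _ _)) ob mb
    · refine add_le_add ?_ (mul_le_mul_of_nonneg_right k3 he.le)
      calc _ = 8 * C0 * (D * |x 2| / ‖x‖ ^ 3) := by ring
        _ ≤ C1 * (D * |x 2| / ‖x‖ ^ 3) := mul_le_mul_of_nonneg_right hC1 (by positivity)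
        _ = _ := by ring
  · refine (hA x _ μ _ f (by positivity) (by linarith) (dec_a mb i) hx0
      (.inr ⟨(geo_dat ob mb x).Pa i, hf⟩) (hm' ob mb i)).trans
      (mul_le_mul_of_nonneg_right ?_ (preH.nr_nn f))
    rw [mul_add]
    refine add_le_add ?_ (mul_le_mul_of_nonneg_right k2 he.le)
    calc _ = 8 * μ * (|x 2| / ‖x‖ ^ 3) := by ring
      _ ≤ _ := mul_le_mul_of_nonneg_right k4 (by positivity)

theorem Dat.Go_eq {H : Type} [AddCommGroup H] [Module ℝ H] (d : Dat H) (G : H) :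
    d.Go G = d.Gp G + (-d.ip d.ψ G) • d.ψ := by
  rw [d.Gp_eq]; module

theorem dec_Q0 {B τ' : ℝ} (hB : 0 ≤ B) (hτ : |τ'| = 1 / 2) {G : HH} (hG : ∀ j, Dec B ((G : V2) j))
    (j : Fin 2) : Dec B (((Qa ipH PH (1 / 2) τ' (![] : Fin 0 → HH) G : HH) : V2) j) := by
  rw [coe_QaH]
  filter_upwards [((hG j).const_mul (1 / 2)).add ((hG j).rf.const_mul τ')] with y hy
  rw [hτ, abs_of_pos (by norm_num : (0 : ℝ) < 1 / 2)] at hy
  simp only [Qf, Finset.univ_eq_empty, Finset.sum_empty, sub_zero]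
  exact hy.trans_eq (by ring)

/-- `kerA1` with `B = K' M ex (9/10) x` (`FF_dec`, `Dec.*`, `coe_QaH`; for `Go` the coefficient is
at most `nr ipH G ≤ K B` by `Pre.cs`, `dec_sq`); `ex (9/10) x * ex (2/5) x = ex (13/10) x`. -/
theorem cross_dat (M : ℝ) : ∃ K0 : ℝ, ∀ K : ℝ, K0 ≤ K →
    ∀ {c C D l eg eu η E2 E : ℝ} {g u : X → ℝ} {Ψ : Y → ℝ} {A : Z → ℝ}
    (ob : OB c C D g u eg eu) (mb : MB c D l g u eg eu M η Ψ E2 A E),
    ∀ᵐ x : X, 0 < ‖x‖ → ∀ G : HH, (G : V2) = sl (FF A) x →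
      Cross (dat D l x ob.hg ob.hu mb.hΨ) K x G := by
  obtain ⟨K1, hK1, hA⟩ := kerA1
  obtain ⟨K2, hK2, hs⟩ := dec_sq
  refine ⟨K1 * (2 * M + K2 * (2 * M) * M), fun K hK c C D l eg eu η E2 E g u Ψ A ob mb => ?_⟩
  have hM := mb.M_ge
  filter_upwards [FF_dec mb] with x hx hx0 G hG
  rw [← hG] at hx
  have geo := geo_dat ob mb x
  have he : 0 < ex (9 / 10) x := Real.exp_pos _
  have hB : 0 ≤ 2 * M * ex (9 / 10) x := by positivity
  have ee : ex (9 / 10) x * ex (2 / 5) x = ex (13 / 10) x := by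
    simp only [ex]; rw [← Real.exp_add]; congr 1; ring
  have key : ∀ Q f : HH, (∀ j, Dec ((2 * M + K2 * (2 * M) * M) * ex (9 / 10) x) ((Q : V2) j)) →
      (PH Q = Q ∧ PH f = -f ∨ PH Q = -Q ∧ PH f = f) →
      |WH x Q f| ≤ (8 * |x 2| / ‖x‖ ^ 2 * nr ipH Q + K * ex (13 / 10) x) * nr ipH f :=
    fun Q f hQ hp => (hA x _ Q f (by positivity) hQ hx0 hp).trans (mul_le_mul_of_nonneg_right
      (add_le_add le_rfl (by
        rw [← ee, ← mul_assoc K1, mul_assoc _ (ex (9 / 10) x)]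
        exact mul_le_mul_of_nonneg_right hK (mul_nonneg he.le (Real.exp_pos _).le))) (preH.nr_nn f))
  have up : 2 * M * ex (9 / 10) x ≤ (2 * M + K2 * (2 * M) * M) * ex (9 / 10) x :=
    mul_le_mul_of_nonneg_right (le_add_of_nonneg_right (by positivity)) he.le
  have dp := dec_Q0 (τ' := 1 / 2) hB (by norm_num [abs_of_pos]) hx
  refine ⟨fun f hf => key _ f (fun j => (dec_Q0 hB (by norm_num [abs_of_neg]) hx j).mono up)
      (.inr ⟨geo.P_Gm G, hf⟩),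
    fun f hf => key _ f (fun j => (dp j).mono up) (.inl ⟨geo.P_Gp G, hf⟩),
    fun f hf => key _ f (fun j => ?_) (.inl ⟨geo.P_Go G, hf⟩)⟩
  have e := (dat D l x ob.hg ob.hu mb.hΨ).Go_eq G
  have h1 : |-ip2 (vψ Ψ) G| ≤ K2 * (2 * M * ex (9 / 10) x) := by
    rw [abs_neg]
    exact (geo.cψ G).trans (hs _ _ hB hx)
  rw [e]
  refine ((dp j).add ((dec_ψ mb j).const_mul (-ip2 (vψ Ψ) G))).mono ?_
  nlinarith [mul_le_mul_of_nonneg_right h1 (zero_le_one.trans hM)]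

/-- `k = W (a 0) γ + W (a 0) (ψ - γ)`, `γ = ⟨vψ (tn g g), _⟩`; `klo0`; `kerA2` for `a 0` with
`mom`, `nr (ψ - γ) ≤ η` (`Ψ_close`); `8 μ η ≤ c0 D / 2`, `C1⁻¹ ≤ c0 / 2`. -/
theorem k_lo (C : ℝ) : ∃ C0 : ℝ, 1 ≤ C0 ∧ ∀ C1 : ℝ, C0 ≤ C1 → ∀ M : ℝ, ∃ K0 η0 : ℝ, 0 < η0 ∧
    ∀ K η : ℝ, K0 ≤ K → η ≤ η0 → ∀ {c D l eg eu E2 E : ℝ} {g u : X → ℝ} {Ψ : Y → ℝ} {A : Z → ℝ},
    OB c C D g u eg eu → MB c D l g u eg eu M η Ψ E2 A E → ∀ x : X, 6 * D ≤ ‖x‖ → 0 < x 2 →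
      C1⁻¹ * D * x 2 / ‖x‖ ^ 3 - K * ex (2 / 5) x ≤ (fns g u Ψ A).k x := by
  obtain ⟨c0, hc0, hk⟩ := klo0 C
  obtain ⟨K2, hK2, hA⟩ := kerA2
  refine ⟨1 + 2 / c0, le_add_of_nonneg_right (by positivity), fun C1 hC1 M => ?_⟩
  obtain ⟨μ, hμ, hm'⟩ := mom_a M
  refine ⟨K2 * (2 * M ^ 2), min 1 (c0 / (16 * μ)), by positivity,
    fun K η hK hη c D l eg eu E2 E g u Ψ A ob mb x hx hz => ?_⟩
  have hD := ob.D_ge
  have hx0 : 0 < ‖x‖ := by linarith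
  have he : 0 < ex (2 / 5) x := Real.exp_pos _
  have geo := geo_dat ob mb x
  have η0 : 0 < η := mb.l_pos.trans_le mb.l_le
  set γ : HH := ⟨vψ (tn g g), vψ_mem (h1_tn ob.hg ob.hg)⟩ with hγ
  set ψ := (dat D l x ob.hg ob.hu mb.hΨ).ψ with hψ
  set a := (dat D l x ob.hg ob.hu mb.hΨ).a 0 with ha
  have pγ : PH γ = γ := Subtype.ext (par_vψ fun y => by simp only [tn, rfY, ob.g_even])
  have h1 := hA x _ μ a (ψ - γ) (by positivity) (by linarith) (dec_a mb 0) hx0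
    (.inr ⟨geo.Pa 0, by rw [map_sub, pγ]; exact congrArg (· - γ) geo.Pψ⟩) (hm' ob mb 0)
  have h2 : nr ipH (ψ - γ) ≤ η := by
    refine Real.sqrt_le_iff.2 ⟨η0.le, le_trans (le_of_eq ?_) mb.Ψ_close⟩
    rw [ipH_apply]
    simp [hψ, hγ, dat, ip2_two, vψ, ip, tn, sq]
  have h3 : (fns g u Ψ A).k x = WH x a γ + WH x a (ψ - γ) := by
    rw [← map_add, add_sub_cancel]
    exact w2_comm _ _ _
  have h4 : WH x a γ = ∫ y, Wx x y * tn g g y * tn u g y := by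
    rw [WH_apply, w2_comm]
    simp [ha, hγ, dat, w2, Fin.sum_univ_two, vψ, va]
  have h5 := hk ob x hx hz
  have h6 := (abs_le.1 (h1.trans (mul_le_mul_of_nonneg_left h2 (by positivity)))).1
  have h7 : K2 * (2 * M ^ 2) * ex (2 / 5) x * η ≤ K * ex (2 / 5) x :=
    (mul_le_of_le_one_right (by positivity) (hη.trans (min_le_left _ _))).trans
      (mul_le_mul_of_nonneg_right hK he.le)
  have h8 : 8 * μ * η ≤ c0 / 2 * D := by
    have := hη.trans (min_le_right _ _)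
    rw [le_div_iff₀ (by positivity)] at this
    nlinarith
  have h9 : C1⁻¹ ≤ c0 / 2 := by
    rw [← inv_div]
    exact inv_anti₀ (by positivity) (by linarith)
  have hq : 0 ≤ x 2 / ‖x‖ ^ 3 := by positivity
  have h10 := mul_le_mul_of_nonneg_right h8 hq
  have h11 := mul_le_mul_of_nonneg_right h9 (mul_nonneg (by linarith : 0 ≤ D) hq)
  rw [abs_of_pos hz] at h6
  rw [h3, h4]
  simp only [mul_div_assoc] at h5 h6 ⊢
  nlinarith

end Crest.Agent.R335.KA
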