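/-
R335/KA/Energy: the energy of the even and odd norms
Skeleton by helper59 (block KA of row 335, see R335/Notes, section KA); keep the statements
unchanged, add any helper lemmas you like.
-/
import Crest.Agent.R335.KA.Lift

set_option autoImplicit false
set_option linter.unusedSectionVars false
set_option linter.unusedVariables false
set_option linter.unusedSimpArgs false

noncomputable section

namespace Crest.Agent.R335.KA

open MeasureTheory Set Filter Topology Metric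

variable {c C D l eg eu M η E2 E : ℝ} {g u : X → ℝ} {Ψ : Y → ℝ} {A : Z → ℝ}

theorem ipZ_congr {f f' : Z → ℝ} (h : f =ᵐ[volume] f') : ip f f = ip f' f' :=
  integral_congr_ae (h.mul h)

/-- For `F ∈ H¹(Z)` and `F± p = (F p ± F (p.1, rfY p.2)) / 2`: `dirx F+ + dirx F- = dirx F`
(`lift_h1` gives the derivatives, `sym_rf23.ip`, `ip_lin`). -/
theorem dirx_par {F : Fin 2 → Z → ℝ} (hF : ∀ j, H1 eZ (F j)) (j : Fin 2) :
    dirx eX eY (lift (Qf (1 / 2) (-1 / 2) (![] : Fin 0 → V2)) F j)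
        (lift (Qf (1 / 2) (-1 / 2) (![] : Fin 0 → V2)) F j) +
      dirx eX eY (lift (Qf (1 / 2) (1 / 2) (![] : Fin 0 → V2)) F j)
        (lift (Qf (1 / 2) (1 / 2) (![] : Fin 0 → V2)) F j) = dirx eX eY (F j) (F j) := by
  simp only [dirx, ← Finset.sum_add_distrib]
  refine Finset.sum_congr rfl fun i _ => ?_
  have h := fun τ' => ipZ_congr ((lift_h1 (1 / 2) τ' (Φ := (![] : Fin 0 → V2)) (fun i => i.elim0)
    hF j).2 i)
  have w := ((hF j).2 (.inl i)).2
  have w' := w.comp_measurePreserving sym_rf23.mp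
  have e := sym_rf23.ip (wd (eZ (.inl i)) (F j)) (wd (eZ (.inl i)) (F j))
  have k := fun τ' => ip_lin w (g := fun p : Z => wd (eZ (.inl i)) (F j) (p.1, rfY p.2)) w' (1 / 2) τ'
  simp only [lift_Qf, Finset.univ_eq_empty, Finset.sum_empty, sub_zero] at h ⊢
  refine (congrArg₂ _ ((h _).trans (k _)) ((h _).trans (k _))).trans ?_
  rw [e]
  show _ = ip (wd (eZ (.inl i)) (F j)) (wd (eZ (.inl i)) (F j))
  ring

/-- `H1.dir_eq_sum` over `Fin 3 ⊕ Fin 3 ⊕ Fin 3`; `sym_wd` with `sym_12` (second electron = first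
electron by `Anti12`) and `sym_cyc` (third electron). -/
theorem dirx_FF (mb : MB c D l g u eg eu M η Ψ E2 A E) :
    ∑ j, dirx eX eY (FF A j) (FF A j) = dir eZ A A := by
  rw [mb.hA.dir_eq_sum mb.hA, Fin.sum_univ_two, Fintype.sum_sum_type, Fintype.sum_sum_type]
  simp only [dirx, ← Finset.sum_add_distrib]
  refine Finset.sum_congr rfl fun i _ => ?_
  have h1 : ip (wd (eZ (.inl i)) (FF A 0)) (wd (eZ (.inl i)) (FF A 0)) =
      2 * ip (wd (eZ (.inl i)) A) (wd (eZ (.inl i)) A) := by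
    refine (ipZ_congr (mb.hA.hl.wd_const_mul √2 (.inl i))).trans ?_
    rw [ip, ip, ← integral_const_mul]
    refine integral_congr_ae (ae_of_all _ fun p => ?_)
    linear_combination wd (eZ (.inl i)) A p * wd (eZ (.inl i)) A p *
      Real.mul_self_sqrt (show (0 : ℝ) ≤ 2 by norm_num)
  have h2 : ip (wd (eZ (.inl i)) (FF A 1)) (wd (eZ (.inl i)) (FF A 1)) =
      ip (wd (eZ (.inr (.inr i))) A) (wd (eZ (.inr (.inr i))) A) :=
    (ipZ_congr (sym_wd sym_cyc (v := eZ (.inl i)) (mb.hA.2 (.inr (.inr i))).1).wd_ae).trans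
      (sym_cyc.ip _ _)
  have h3 : ip (wd (eZ (.inl i)) A) (wd (eZ (.inl i)) A) =
      ip (wd (eZ (.inr (.inl i))) A) (wd (eZ (.inr (.inl i))) A) := by
    have w := (sym_wd sym_12 (v := eZ (.inl i)) (mb.hA.2 (.inr (.inl i))).1).neg
    have e : (fun p : Z => -A (p.2.1, (p.1, p.2.2))) = A := by
      funext p; rw [mb.anti, neg_neg]
    rw [e] at w
    rw [ipZ_congr w.wd_ae, ← sym_12.ip (wd (eZ (.inr (.inl i))) A)]
    simp only [ip, neg_mul_neg]
  show ip (wd (eZ (.inl i)) (FF A 0)) (wd (eZ (.inl i)) (FF A 0)) +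
    ip (wd (eZ (.inl i)) (FF A 1)) (wd (eZ (.inl i)) (FF A 1)) = _
  rw [h1, h2, ← h3]
  ring

theorem pot_V1 (D : ℝ) : Pot eZ fun p : Z => V D p.1 := (pot_V D).fst
theorem pot_V2 (D : ℝ) : Pot eZ fun p : Z => V D p.2.1 := (pot_V D).fst.snd
theorem pot_V3 (D : ℝ) : Pot eZ fun p : Z => V D p.2.2 := (pot_V D).snd.snd

/-- `R_sq`, Fubini (`ip_prod` with `V A` and `A`, `pot_V.fst`), `sym_12.integral`,
`sym_cyc.integral`. -/
theorem pot_R (mb : MB c D l g u eg eu M η Ψ E2 A E) :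
    ∫ x, V D x * (fns g u Ψ A).R x ^ 2 = ∫ p : Z, v3 (V D) p * A p * A p := by
  have i1 := fun j => (pot_V1 D).integrable (FF_h1 mb j) (FF_h1 mb j).1
  have h1 : ∀ j, ∫ p : Z, V D p.1 * FF A j p * FF A j p =
      ∫ x, ∫ y, V D x * FF A j (x, y) * FF A j (x, y) := fun j => integral_prod _ (i1 j)
  have h2 : ∀ x, V D x * (fns g u Ψ A).R x ^ 2 =
      (∫ y, V D x * FF A 0 (x, y) * FF A 0 (x, y)) + ∫ y, V D x * FF A 1 (x, y) * FF A 1 (x, y) :=
    fun x => by
      rw [R_sq, rho, mul_add, ← integral_const_mul, ← integral_const_mul]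
      simp only [sq, mul_assoc]
      rfl
  have h3 : ∫ p : Z, V D p.1 * FF A 0 p * FF A 0 p = 2 * ∫ p : Z, V D p.1 * A p * A p := by
    rw [← integral_const_mul]
    refine integral_congr_ae (ae_of_all _ fun p => ?_)
    show V D p.1 * (√2 * A p) * (√2 * A p) = 2 * (V D p.1 * A p * A p)
    linear_combination V D p.1 * A p * A p * Real.mul_self_sqrt (show (0 : ℝ) ≤ 2 by norm_num)
  have h4 : ∫ p : Z, V D p.1 * FF A 1 p * FF A 1 p = ∫ p : Z, V D p.2.2 * A p * A p :=
    sym_cyc.integral fun p : Z => V D p.2.2 * A p * A p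
  have h5 : ∫ p : Z, V D p.2.1 * A p * A p = ∫ p : Z, V D p.1 * A p * A p := by
    rw [← sym_12.integral]
    refine integral_congr_ae (ae_of_all _ fun p => ?_)
    simp only [mb.anti p.1 p.2.1 p.2.2]
    ring
  have j1 := (pot_V1 D).integrable mb.hA mb.hA.1
  have j2 := (pot_V2 D).integrable mb.hA mb.hA.1
  have j3 := (pot_V3 D).integrable mb.hA mb.hA.1
  simp only [h2, v3, add_mul]
  rw [integral_add (i1 0).integral_prod_left (i1 1).integral_prod_left, ← h1, ← h1, h3, h4,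
    integral_add (j1.fun_add j2) j3, integral_add j1 j2, h5]
  ring

/-- `H1.snm`, `eqA` tested with `A`, `U3 ≥ v3 (V D)` pointwise. -/
theorem fns_energy (ob : OB c C D g u eg eu) (mb : MB c D l g u eg eu M η Ψ E2 A E) :
    (dir eX (fns g u Ψ A).Ev (fns g u Ψ A).Ev + dir eX (fns g u Ψ A).O (fns g u Ψ A).O) / 2 +
      ∫ x, V D x * (fns g u Ψ A).R x ^ 2 ≤ E := by
  have h := fun τ' => (H1.snm (b := eX) (b' := eY) fun j =>
    (lift_h1 (1 / 2) τ' (Φ := (![] : Fin 0 → V2)) (fun i => i.elim0) (FF_h1 mb) j).1).2.2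
  have h1 : dir eX (fns g u Ψ A).Ev (fns g u Ψ A).Ev + dir eX (fns g u Ψ A).O (fns g u Ψ A).O ≤
      dir eZ A A := by
    refine (add_le_add (h (-1 / 2)) (h (1 / 2))).trans_eq ?_
    rw [← Finset.sum_add_distrib, ← dirx_FF mb]
    exact Finset.sum_congr rfl fun j _ => dirx_par (FF_h1 mb) j
  have h2 := mb.eqA A mb.hA
  rw [mb.nA, mul_one, qf] at h2
  have h3 : ∫ p : Z, v3 (V D) p * A p * A p ≤ ∫ p : Z, U3 D l p * A p * A p := by
    refine integral_mono ((((pot_V1 D).add (pot_V2 D)).add (pot_V3 D)).integrable mb.hA mb.hA.1)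
      ((pot_U3 D l).integrable mb.hA mb.hA.1) fun p => ?_
    simp only [mul_assoc]
    refine mul_le_mul_of_nonneg_right ?_ (mul_self_nonneg _)
    have hl := mb.l_pos
    have a : 0 ≤ l / ‖p.2.1 - p.2.2‖ := by positivity
    have b : 0 ≤ l * Wx p.1 p.2 := by unfold Wx; positivity
    simp only [v3, U3, U2]
    linarith
  rw [pot_R mb]
  linarith

end Crest.Agent.R335.KA
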