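/-
R335/KA/Sub: the weak inequalities of the channel functions (glue)
Skeleton by helper59 (block KA of row 335, see R335/Notes, section KA); keep the statements
unchanged, add any helper lemmas you like.
-/
import Crest.Agent.R335.KA.Close
import Crest.Agent.R335.KA.Ctx
import Crest.Agent.R335.KA.CtxX
import Crest.Agent.R335.KA.Alg1
import Crest.Agent.R335.KA.Alg2
import Crest.Agent.R335.KA.Energy

set_option autoImplicit false
set_option linter.unusedSectionVars false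
set_option linter.unusedVariables false
set_option linter.unusedSimpArgs false

noncomputable section

namespace Crest.Agent.R335.KA

open MeasureTheory Set Filter Topology Metric

/-- Measurable and bounded on bounded parts of `S`. -/
def BM (S : Set X) (h : X → ℝ) : Prop :=
  AEStronglyMeasurable h volume ∧ ∀ R : ℝ, ∃ B : ℝ, ∀ᵐ x : X, x ∈ S → ‖x‖ ≤ R → |h x| ≤ B

section bm
variable {S : Set X} {h h' : X → ℝ}

theorem BM.li (hS : MeasurableSet S) (H : BM S h) : LI S h := LI.of_bdd hS H.1 H.2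

theorem BM.add (H : BM S h) (H' : BM S h') : BM S fun x => h x + h' x :=
  ⟨H.1.add H'.1, fun R => by
    obtain ⟨B, hB⟩ := H.2 R
    obtain ⟨B', hB'⟩ := H'.2 R
    exact ⟨B + B', by
      filter_upwards [hB, hB'] with x h1 h2 h3 h4 using
        (abs_add_le _ _).trans (add_le_add (h1 h3 h4) (h2 h3 h4))⟩⟩

theorem BM.mul (H : BM S h) (H' : BM S h') : BM S fun x => h x * h' x :=
  ⟨H.1.mul H'.1, fun R => by
    obtain ⟨B, hB⟩ := H.2 R
    obtain ⟨B', hB'⟩ := H'.2 R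
    refine ⟨B * B', ?_⟩
    filter_upwards [hB, hB'] with x h1 h2 h3 h4
    rw [abs_mul]
    exact mul_le_mul (h1 h3 h4) (h2 h3 h4) (abs_nonneg _) ((abs_nonneg _).trans (h1 h3 h4))⟩

theorem BM.abs (H : BM S h) : BM S fun x => |h x| :=
  ⟨continuous_abs.comp_aestronglyMeasurable H.1, fun R => by
    obtain ⟨B, hB⟩ := H.2 R
    exact ⟨B, by simpa only [abs_abs] using hB⟩⟩

theorem BM.of_cont (hc : Continuous h) : BM S h :=
  ⟨hc.aestronglyMeasurable, fun R => by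
    obtain ⟨B, hB⟩ := LocBdd.of_continuous hc R
    exact ⟨B, hB.mono fun x h1 _ h3 => h1 h3⟩⟩

theorem BM.const (a : ℝ) : BM S fun _ => a := .of_cont continuous_const

theorem bm_z : BM S fun x : X => |x 2| := .of_cont (by fun_prop)

theorem bm_ex (a : ℝ) : BM S fun x => ex a x := .of_cont (by unfold ex; fun_prop)

theorem BM.div {r : ℝ} (hr : 1 ≤ r) (H : BM (Ext r) h) (k : ℕ) :
    BM (Ext r) fun x => h x / ‖x‖ ^ k := by
  have : BM (Ext r) fun x : X => (‖x‖ ^ k)⁻¹ :=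
    ⟨(by fun_prop : Measurable fun x : X => (‖x‖ ^ k)⁻¹).aestronglyMeasurable, fun R =>
      ⟨1, ae_of_all _ fun x hx _ => by
        have h1 : 1 ≤ ‖x‖ ^ k := one_le_pow₀ (hr.trans hx)
        rw [abs_of_nonneg (by positivity)]
        exact inv_le_one_of_one_le₀ h1⟩⟩
  simpa only [div_eq_mul_inv] using H.mul this

theorem BM.of_bd (hm : AEStronglyMeasurable h volume) {B : ℝ} (hB : ∀ᵐ x : X, |h x| ≤ B) : BM S h :=
  ⟨hm, fun R => ⟨B, hB.mono fun x h1 _ _ => h1⟩⟩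

end bm

theorem ex_pos (a : ℝ) (x : X) : 0 < ex a x := Real.exp_pos _

theorem ex_le_one {a : ℝ} (ha : 0 ≤ a) (x : X) : ex a x ≤ 1 :=
  Real.exp_le_one_iff.2 (by nlinarith [norm_nonneg x])

/-- Everything that is needed for the weak inequalities. -/
structure Bun (c C C1 D l : ℝ) (g u : X → ℝ) (eg eu M η : ℝ) (Ψ : Y → ℝ) (E2 : ℝ) (A : Z → ℝ)
    (E K M' : ℝ) : Prop where
  ob : OB c C D g u eg eu
  mb : MB c D l g u eg eu M η Ψ E2 A E
  hM : 100 * K ≤ M'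
  ctx : ∀ x, Ctx (dat D l x ob.hg ob.hu mb.hΨ) E2 (eg + eu) (eu - eg) c l K
  ctxX : ∀ x : X, 6 * D ≤ ‖x‖ → CtxX (dat D l x ob.hg ob.hu mb.hΨ) (eu - eg) l K C1 D x
  cross : ∀ᵐ x : X, 0 < ‖x‖ → ∀ G : HH, (G : V2) = sl (FF A) x →
    Cross (dat D l x ob.hg ob.hu mb.hΨ) K x G
  bd : ∀ᵐ x : X, (fns g u Ψ A).R x ≤ K * ex (9 / 10) x

variable {c C C1 D l eg eu M η E2 E K M' : ℝ} {g u : X → ℝ} {Ψ : Y → ℝ} {A : Z → ℝ}

theorem fns_nn (g u : X → ℝ) (Ψ : Y → ℝ) (A : Z → ℝ) (x : X) :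
    0 ≤ (fns g u Ψ A).R x ∧ 0 ≤ (fns g u Ψ A).Ev x ∧ 0 ≤ (fns g u Ψ A).O x ∧
      0 ≤ (fns g u Ψ A).No x ∧ 0 ≤ (fns g u Ψ A).Ne x ∧ 0 ≤ (fns g u Ψ A).N x :=
  ⟨Real.sqrt_nonneg _, Real.sqrt_nonneg _, Real.sqrt_nonneg _, Real.sqrt_nonneg _,
    Real.sqrt_nonneg _, Real.sqrt_nonneg _⟩

namespace Bun
variable (b : Bun c C C1 D l g u eg eu M η Ψ E2 A E K M')
include b

theorem K1 : 1 ≤ K := (b.ctx 0).K_ge
theorem M1 : 1 ≤ M' := by linarith [b.K1, b.hM]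
theorem l0 : 0 ≤ l := b.mb.l_pos.le
theorem D6 : 1 ≤ 6 * D := by linarith [b.ob.D_ge]
theorem CD : 0 ≤ C1 * D := by
  obtain ⟨x, hx⟩ := NormedSpace.exists_lt_norm ℝ X (6 * D)
  exact (b.ctxX x hx.le).CD_nn

theorem val (x : X) {G : HH} (hG : (G : V2) = sl (FF A) x) :
    Val (dat D l x b.ob.hg b.ob.hu b.mb.hΨ) (fns g u Ψ A) x G := val_dat _ _ _ _ _ _ hG

theorem k_bd (x : X) : |(fns g u Ψ A).k x| ≤ K := by
  have h := (b.ctx x).Wψ ((dat D l x b.ob.hg b.ob.hu b.mb.hΨ).a 0)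
  have h1 : (dat D l x b.ob.hg b.ob.hu b.mb.hΨ).n ((dat D l x b.ob.hg b.ob.hu b.mb.hΨ).a 0) = 1 := by
    rw [Dat.n, nr, (b.ctx x).na]; simp
  rwa [h1, mul_one] at h

theorem k_up (x : X) (hx : 6 * D ≤ ‖x‖) :
    |(fns g u Ψ A).k x| ≤ C1 * D * |x 2| / ‖x‖ ^ 3 + M' * ex (2 / 5) x := by
  have h := (b.ctxX x hx).WA _ ((b.ctx x).Pa 0)
  have h1 : (dat D l x b.ob.hg b.ob.hu b.mb.hΨ).n ((dat D l x b.ob.hg b.ob.hu b.mb.hΨ).a 0) = 1 := by
    rw [Dat.n, nr, (b.ctx x).na]; simp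
  rw [h1, mul_one] at h
  have : K * ex (2 / 5) x ≤ M' * ex (2 / 5) x := by
    gcongr
    · exact (ex_pos _ _).le
    · linarith [b.K1, b.hM]
  exact h.trans (by linarith)

theorem bms (S : Set X) : BM S (fns g u Ψ A).R ∧ BM S (fns g u Ψ A).Ev ∧ BM S (fns g u Ψ A).O ∧
    BM S (fns g u Ψ A).No ∧ BM S (fns g u Ψ A).d ∧ BM S (fns g u Ψ A).k := by
  obtain ⟨h1, h2, h3, h4, -, -, h5, -⟩ := fns_h1 b.ob b.mb
  have hb : ∀ᵐ x : X, |(fns g u Ψ A).R x| ≤ K ∧ |(fns g u Ψ A).Ev x| ≤ K ∧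
      |(fns g u Ψ A).O x| ≤ K ∧ |(fns g u Ψ A).No x| ≤ K ∧ |(fns g u Ψ A).d x| ≤ K := by
    filter_upwards [b.bd, fns_pyth b.ob b.mb] with x hx ⟨p1, p2, p3, p4⟩
    have K0 : 0 ≤ K := by linarith [b.K1]
    have hR : (fns g u Ψ A).R x ≤ K := hx.trans (mul_le_of_le_one_right K0 (ex_le_one (by norm_num) x))
    have hR2 : (fns g u Ψ A).R x ^ 2 ≤ K ^ 2 := pow_le_pow_left₀ (fns_nn g u Ψ A x).1 hR 2
    refine ⟨?_, ?_, ?_, ?_, ?_⟩ <;> refine abs_le_of_sq_le_sq' ?_ K0 |> abs_le.2 <;>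
      nlinarith [sq_nonneg ((fns g u Ψ A).Ev x), sq_nonneg ((fns g u Ψ A).O x),
        sq_nonneg ((fns g u Ψ A).No x), sq_nonneg ((fns g u Ψ A).d x)]
  exact ⟨.of_bd h1.1.1 (hb.mono fun x h => h.1), .of_bd h2.1.1 (hb.mono fun x h => h.2.1),
    .of_bd h3.1.1 (hb.mono fun x h => h.2.2.1), .of_bd h4.1.1 (hb.mono fun x h => h.2.2.2.1),
    .of_bd h5.1.1 (hb.mono fun x h => h.2.2.2.2),
    .of_bd (fns_mk b.ob b.mb).aestronglyMeasurable (ae_of_all _ b.k_bd)⟩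

theorem bm_src : BM (Ext (6 * D)) (srcE C1 D l M' (fns g u Ψ A)) := by
  obtain ⟨h1, h2, h3, h4, h5, h6⟩ := b.bms (Ext (6 * D))
  exact (BM.const _).mul ((((((((BM.const _).mul bm_z).div b.D6 3).add ((BM.const _).mul (bm_ex _))).mul
    h5.abs).add ((((BM.const _).mul bm_z).div b.D6 2).mul h4)).add ((BM.const _).mul (bm_ex _))))

theorem src_nn (x : X) : 0 ≤ srcE C1 D l M' (fns g u Ψ A) x := by
  have h1 := b.CD
  have h2 := b.l0
  have h3 : 0 ≤ M' := by linarith [b.M1]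
  have h4 := (fns_nn g u Ψ A x).2.2.2.1
  have h5 := ex_pos (2 / 5) x
  have h6 := ex_pos (13 / 10) x
  unfold srcE
  positivity

theorem li_a (t : ℝ) : LI (Ext (6 * D)) fun x => aa D (2 * (E2 - E)) x + t :=
  ((li_aa _ _).mono (subset_univ _)).add (LI.const _)

theorem e0 : ∀ i, (((![] : Fin 0 → HH) i : HH) : V2) = (![] : Fin 0 → V2) i := fun i => i.elim0

theorem subR : Sub eX univ (fns g u Ψ A).R (aa D (2 * (E2 - E))) 0 := by
  refine sub_Q b.mb (b.ctx 0).prj_i b.e0 MeasurableSet.univ (li_aa _ _) (LI.const 0)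
    (ae_of_all _ fun x _ => le_rfl) (ae_of_all _ fun x _ G hG => ?_)
  have := low_R (b.ctx x) (b.val x hG)
  have e : aa D (2 * (E2 - E)) x + 2 * E - 2 * V D x = 2 * E2 := by simp only [aa]; ring
  rw [e, Pi.zero_apply, zero_mul, sub_zero]
  exact this

theorem xR : Sub eX (Ext (6 * D)) (fns g u Ψ A).R (aS D (2 * (E2 - E)) l M') 0 := by
  refine sub_Q b.mb (b.ctx 0).prj_i b.e0 (measurableSet_Ext _)
    (li_aS (by linarith [b.D6]) _ _ _ _) (LI.const 0)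
    (ae_of_all _ fun x _ => le_rfl) (ae_of_all _ fun x hx G hG => ?_)
  have := low_xR (b.ctx x) (b.ctxX x hx) (b.val x hG) b.hM
  have e : aS D (2 * (E2 - E)) l M' x + 2 * E - 2 * V D x =
    2 * E2 + 4 * l / ‖x‖ - l * M' / ‖x‖ ^ 2 := by simp only [aS, aa]; ring
  rw [e, Pi.zero_apply, zero_mul, sub_zero]
  exact this

theorem ve_coe (x : X) : (((dat D l x b.ob.hg b.ob.hu b.mb.hΨ).ve : HH) : V2) = vE g u := by
  simp only [Dat.ve, vE, Submodule.coe_smul, Submodule.coe_add, dat]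

theorem ve_eq (x : X) :
    (dat D l x b.ob.hg b.ob.hu b.mb.hΨ).ve = (dat D l 0 b.ob.hg b.ob.hu b.mb.hΨ).ve :=
  Subtype.ext ((b.ve_coe x).trans (b.ve_coe 0).symm)

theorem subN : Sub eX univ (fns g u Ψ A).N (aa D (2 * (E2 - E)))
    fun x => l * M' * (fns g u Ψ A).R x := by
  refine sub_Q b.mb (b.ctx 0).prj_n (Φ' := ![vψ Ψ, vE g u])
    (Fin.forall_fin_two.2 ⟨rfl, b.ve_coe 0⟩) MeasurableSet.univ (li_aa _ _)
    (((BM.const _).mul (b.bms _).1).li MeasurableSet.univ)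
    (ae_of_all _ fun x _ => mul_nonneg (mul_nonneg b.l0 (by linarith [b.M1])) (fns_nn g u Ψ A x).1)
    (ae_of_all _ fun x _ G hG => ?_)
  have := low_N (b.ctx x) (b.val x hG) b.hM
  rw [Dat.Gn, b.ve_eq x] at this
  have e : aa D (2 * (E2 - E)) x + 2 * E - 2 * V D x = 2 * E2 := by simp only [aa]; ring
  rw [e]
  exact this

theorem subd (σ : ℝ) (hσ : |σ| ≤ 1) : Sub eX univ (fun x => σ * (fns g u Ψ A).d x)
    (aa D (2 * (E2 - E))) fun x => l * M' * (fns g u Ψ A).R x := by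
  refine sub_C b.mb ((-σ) • (dat D l 0 b.ob.hg b.ob.hu b.mb.hΨ).ψ) MeasurableSet.univ (li_aa _ _)
    (((BM.const _).mul (b.bms _).1).li MeasurableSet.univ) (fun x G hG => ?_)
    (ae_of_all _ fun x _ G hG => ?_)
  · rw [(b.val x hG).dd, map_smul, LinearMap.smul_apply, smul_eq_mul, mul_neg, neg_mul]
    rfl
  · have := low_d (b.ctx x) (b.val x hG) b.hM hσ
    have e : aa D (2 * (E2 - E)) x + 2 * E - 2 * V D x = 2 * E2 := by simp only [aa]; ring
    rw [e]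
    exact this

theorem sube (σ : ℝ) (hσ : |σ| ≤ 1) : Sub eX univ (fun x => σ * (fns g u Ψ A).e x)
    (fun x => aa D (2 * (E2 - E)) x + 2 * (eg + eu - E2)) fun x => l * M' * (fns g u Ψ A).R x := by
  refine sub_C b.mb (σ • (dat D l 0 b.ob.hg b.ob.hu b.mb.hΨ).ve) MeasurableSet.univ
    ((li_aa _ _).add (LI.const _))
    (((BM.const _).mul (b.bms _).1).li MeasurableSet.univ) (fun x G hG => ?_)
    (ae_of_all _ fun x _ G hG => ?_)
  · rw [(b.val x hG).e_eq, map_smul, LinearMap.smul_apply, smul_eq_mul, b.ve_eq x]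
    rfl
  · have := low_e (b.ctx x) (b.val x hG) b.hM hσ
    rw [b.ve_eq x] at this
    have e : aa D (2 * (E2 - E)) x + 2 * (eg + eu - E2) + 2 * E - 2 * V D x = 2 * (eg + eu) := by
      simp only [aa]; ring
    rw [e]
    exact this

theorem xpos {x : X} (hx : x ∈ Ext (6 * D)) : 0 < ‖x‖ := (b.ctxX x hx).r_pos

theorem xEv : Sub eX (Ext (6 * D)) (fns g u Ψ A).Ev
    (fun x => aa D (2 * (E2 - E)) x + 2 * (eg + eu - E2))
    fun x => 2 * l * (8 * |x 2| / ‖x‖ ^ 2 * (fns g u Ψ A).O x + M' * ex (13 / 10) x) := by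
  obtain ⟨h1, h2, h3, h4, h5, h6⟩ := b.bms (Ext (6 * D))
  refine sub_Q b.mb (b.ctx 0).prj_m b.e0 (measurableSet_Ext _) (b.li_a _)
    (((BM.const _).mul (((((BM.const _).mul bm_z).div b.D6 2).mul h3).add
      ((BM.const _).mul (bm_ex _)))).li (measurableSet_Ext _)) (ae_of_all _ fun x _ => ?_) ?_
  · have h1 := b.l0
    have h2 : 0 ≤ M' := by linarith [b.M1]
    have h3 := (fns_nn g u Ψ A x).2.2.1
    have h4 := ex_pos (13 / 10) x
    positivity
  filter_upwards [b.cross] with x cr hx G hG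
  have := low_xEv (b.ctx x) (b.ctxX x hx) (b.val x hG) (cr (b.xpos hx) G hG) b.hM
  have e : aa D (2 * (E2 - E)) x + 2 * (eg + eu - E2) + 2 * E - 2 * V D x = 2 * (eg + eu) := by
    simp only [aa]; ring
  rw [e]
  exact this

theorem xEv' : Sub eX (Ext (6 * D)) (fns g u Ψ A).Ev
    (fun x => aa D (2 * (E2 - E)) x + 2 * (eg + eu - E2)) (srcE C1 D l M' (fns g u Ψ A)) := by
  refine sub_Q b.mb (b.ctx 0).prj_m b.e0 (measurableSet_Ext _) (b.li_a _)
    (b.bm_src.li (measurableSet_Ext _)) (ae_of_all _ fun x _ => b.src_nn x) ?_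
  filter_upwards [b.cross] with x cr hx G hG
  have := low_xEv' (b.ctx x) (b.ctxX x hx) (b.val x hG) (cr (b.xpos hx) G hG) b.hM
  have e : aa D (2 * (E2 - E)) x + 2 * (eg + eu - E2) + 2 * E - 2 * V D x = 2 * (eg + eu) := by
    simp only [aa]; ring
  rw [e]
  exact this

theorem xO : Sub eX (Ext (6 * D)) (fns g u Ψ A).O (aS D (2 * (E2 - E)) l M')
    fun x => 2 * l * (8 * |x 2| / ‖x‖ ^ 2 * (fns g u Ψ A).Ev x + M' * ex (13 / 10) x) := by
  obtain ⟨h1, h2, h3, h4, h5, h6⟩ := b.bms (Ext (6 * D))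
  refine sub_Q b.mb (b.ctx 0).prj_p b.e0 (measurableSet_Ext _)
    (li_aS (by linarith [b.D6]) _ _ _ _)
    (((BM.const _).mul (((((BM.const _).mul bm_z).div b.D6 2).mul h2).add
      ((BM.const _).mul (bm_ex _)))).li (measurableSet_Ext _)) (ae_of_all _ fun x _ => ?_) ?_
  · have h1 := b.l0
    have h2 : 0 ≤ M' := by linarith [b.M1]
    have h3 := (fns_nn g u Ψ A x).2.1
    have h4 := ex_pos (13 / 10) x
    positivity
  filter_upwards [b.cross] with x cr hx G hG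
  have := low_xO (b.ctx x) (b.ctxX x hx) (b.val x hG) (cr (b.xpos hx) G hG) b.hM
  have e : aS D (2 * (E2 - E)) l M' x + 2 * E - 2 * V D x =
    2 * E2 + 4 * l / ‖x‖ - l * M' / ‖x‖ ^ 2 := by simp only [aS, aa]; ring
  rw [e]
  exact this

theorem xd : Sub eX (Ext (6 * D)) (fun x => -(fns g u Ψ A).d x)
    (fun x => aa D (2 * (E2 - E)) x + 4 * l / ‖x‖)
    fun x => l * M' * ((fns g u Ψ A).O x / ‖x‖ ^ 2 +
      (|x 2| / ‖x‖ ^ 3 + ex (2 / 5) x) * (fns g u Ψ A).Ev x) := by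
  obtain ⟨h1, h2, h3, h4, h5, h6⟩ := b.bms (Ext (6 * D))
  have hl : BM (Ext (6 * D)) fun x : X => 4 * l / ‖x‖ := by
    simpa only [pow_one] using (BM.const (4 * l)).div b.D6 1
  refine sub_C b.mb (dat D l 0 b.ob.hg b.ob.hu b.mb.hΨ).ψ (measurableSet_Ext _)
    (((li_aa _ _).mono (subset_univ _)).add (hl.li (measurableSet_Ext _)))
    (((BM.const _).mul ((h3.div b.D6 2).add (((bm_z.div b.D6 3).add (bm_ex _)).mul h2))).li
      (measurableSet_Ext _)) (fun x G hG => ?_) (ae_of_all _ fun x hx G hG => ?_)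
  · rw [(b.val x hG).dd, neg_neg]
    rfl
  · have := low_xd (b.ctx x) (b.ctxX x hx) (b.val x hG) b.hM
    have e : aa D (2 * (E2 - E)) x + 4 * l / ‖x‖ + 2 * E - 2 * V D x = 2 * E2 + 4 * l / ‖x‖ := by
      simp only [aa]; ring
    rw [e]
    exact this

theorem xNo : Sub eX (Ext (6 * D)) (fns g u Ψ A).No (fun x => aa D (2 * (E2 - E)) x + (eu - eg))
    fun x => l * M' * (|(fns g u Ψ A).d x| / ‖x‖ ^ 2 + |x 2| / ‖x‖ ^ 2 * (fns g u Ψ A).Ev x +
      ex (13 / 10) x) := by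
  obtain ⟨h1, h2, h3, h4, h5, h6⟩ := b.bms (Ext (6 * D))
  refine sub_Q b.mb (b.ctx 0).prj_o (Fin.forall_fin_one.2 rfl) (measurableSet_Ext _) (b.li_a _)
    (((BM.const _).mul (((h5.abs.div b.D6 2).add ((bm_z.div b.D6 2).mul h2)).add (bm_ex _))).li
      (measurableSet_Ext _)) (ae_of_all _ fun x _ => ?_) ?_
  · have h1 := b.l0
    have h2 : 0 ≤ M' := by linarith [b.M1]
    have h3 := (fns_nn g u Ψ A x).2.1
    have h4 := ex_pos (13 / 10) x
    positivity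
  filter_upwards [b.cross] with x cr hx G hG
  have := low_xNo (b.ctx x) (b.ctxX x hx) (b.val x hG) (cr (b.xpos hx) G hG) b.hM
  have e : aa D (2 * (E2 - E)) x + (eu - eg) + 2 * E - 2 * V D x = 2 * E2 + (eu - eg) := by
    simp only [aa]; ring
  rw [e]
  exact this

theorem xNe : Sub eX (Ext (6 * D)) (fns g u Ψ A).Ne
    (fun x => aa D (2 * (E2 - E)) x + 2 * (eg + eu - E2) + 2 * c)
    fun x => l * M' * (fns g u Ψ A).Ev x + srcE C1 D l M' (fns g u Ψ A) x := by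
  obtain ⟨h1, h2, h3, h4, h5, h6⟩ := b.bms (Ext (6 * D))
  refine sub_Q b.mb (b.ctx 0).prj_e (fun i => rfl) (measurableSet_Ext _)
    ((b.li_a _).add (LI.const _))
    ((((BM.const _).mul h2).add b.bm_src).li (measurableSet_Ext _)) (ae_of_all _ fun x _ => ?_) ?_
  · have h1 := b.l0
    have h2 : 0 ≤ M' := by linarith [b.M1]
    have h3 := (fns_nn g u Ψ A x).2.1
    have h4 := b.src_nn x
    positivity
  filter_upwards [b.cross] with x cr hx G hG
  have := low_xNe (b.ctx x) (b.ctxX x hx) (b.val x hG) (cr (b.xpos hx) G hG) b.hM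
  have e : aa D (2 * (E2 - E)) x + 2 * (eg + eu - E2) + 2 * c + 2 * E - 2 * V D x =
      2 * (eg + eu) + 2 * c := by
    simp only [aa]; ring
  rw [e]
  exact this

theorem xe (α1 α2 α3 : ℝ) (a1 : |α1| ≤ 1) (a2 : |α2| ≤ 1) (a3 : |α3| ≤ 1) :
    Sub eX (Ext (6 * D))
      (fun x => α1 * (fns g u Ψ A).e1 x + α2 * (fns g u Ψ A).e2 x + α3 * (fns g u Ψ A).e3 x)
      (fun x => aa D (2 * (E2 - E)) x + 2 * (eg + eu - E2))
      fun x => 2 * l * (α1 + α2) * (fns g u Ψ A).k x * (fns g u Ψ A).d x +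
        l * M' * ((fns g u Ψ A).Ev x + (|x 2| / ‖x‖ ^ 3 + ex (2 / 5) x) * (fns g u Ψ A).No x) := by
  obtain ⟨h1, h2, h3, h4, h5, h6⟩ := b.bms (Ext (6 * D))
  refine sub_C b.mb (α1 • (dat D l 0 b.ob.hg b.ob.hu b.mb.hΨ).a 0 +
      α2 • (dat D l 0 b.ob.hg b.ob.hu b.mb.hΨ).a 1 + α3 • (dat D l 0 b.ob.hg b.ob.hu b.mb.hΨ).a 2)
    (measurableSet_Ext _) (b.li_a _)
    (((((BM.const _).mul h6).mul h5).add
      ((BM.const _).mul (h2.add (((bm_z.div b.D6 3).add (bm_ex _)).mul h4)))).li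
      (measurableSet_Ext _)) (fun x G hG => ?_) (ae_of_all _ fun x hx G hG => ?_)
  · rw [(b.val x hG).e1, (b.val x hG).e2, (b.val x hG).e3]
    simp only [map_add, map_smul, LinearMap.add_apply, LinearMap.smul_apply, smul_eq_mul]
    rfl
  · have := low_xe (b.ctx x) (b.ctxX x hx) (b.val x hG) b.hM a1 a2 a3
    have e : aa D (2 * (E2 - E)) x + 2 * (eg + eu - E2) + 2 * E - 2 * V D x = 2 * (eg + eu) := by
      simp only [aa]; ring
    rw [e]
    exact this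

end Bun

end Crest.Agent.R335.KA
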