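/-
R335/KA/Main: block KA (see R335/Notes)
Skeleton by helper48 (row 335); assembled by helper59 from the files R335/KA/*.
-/
import Crest.Agent.R335.KA.Sub

set_option autoImplicit false
set_option linter.unusedSectionVars false
set_option linter.unusedVariables false
set_option linter.unusedSimpArgs false

noncomputable section

namespace Crest.Agent.R335

open MeasureTheory Set Filter Topology Metric
open scoped ENNReal

open KA in
theorem stKato : StKato := by
  intro c C
  obtain ⟨Ca, hCa, hX⟩ := ctxX_dat C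
  obtain ⟨Cb, hCb, hk⟩ := k_lo C
  refine ⟨max Ca Cb, le_max_of_le_left hCa, fun D g u eg eu ob M => ?_⟩
  obtain ⟨K1, η1, hη1, hX⟩ := hX _ (le_max_left Ca Cb) ob M
  obtain ⟨K2, η2, hη2, hk⟩ := hk _ (le_max_right Ca Cb) M
  obtain ⟨K3, hc⟩ := ctx_dat M
  obtain ⟨K4, hcr⟩ := cross_dat M
  obtain ⟨K5, hK5, hbd⟩ := R_bd M
  obtain ⟨K, k1, k2, k3, k4, k5⟩ : ∃ K : ℝ, K1 ≤ K ∧ K2 ≤ K ∧ K3 ≤ K ∧ K4 ≤ K ∧ K5 ≤ K :=
    ⟨max (max (max K1 K2) (max K3 K4)) K5, by simp, by simp, by simp, by simp, by simp⟩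
  refine ⟨100 * K, fun η' hη' => ?_⟩
  obtain ⟨η3, hη3, hcl⟩ := fns_close M η' hη'
  obtain ⟨η4, hη4, hme⟩ := fns_massE M η' hη'
  obtain ⟨η, hη, e1, e2, e3, e4, e5⟩ :
      ∃ η : ℝ, 0 < η ∧ η ≤ η1 ∧ η ≤ η2 ∧ η ≤ η3 ∧ η ≤ η4 ∧ η ≤ η' / 2 :=
    ⟨min (min (min η1 η2) (min η3 η4)) (η' / 2), by positivity, by simp, by simp, by simp, by simp,
      by simp⟩
  refine ⟨η, hη, fun l Ψ E2 A E mb => ⟨fns g u Ψ A, ?_, ae_of_all _ (R_sq g u Ψ A)⟩⟩
  have bd : ∀ᵐ x : X, (fns g u Ψ A).R x ≤ K * ex (9 / 10) x := by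
    filter_upwards [hbd mb] with x hx using
      hx.trans (mul_le_mul_of_nonneg_right k5 (ex_pos _ _).le)
  have b : Bun c C (max Ca Cb) D l g u eg eu M η Ψ E2 A E K (100 * K) :=
    ⟨ob, mb, le_rfl, hc K k3 ob mb, hX K η k1 e1 mb, hcr K k4 ob mb, bd⟩
  obtain ⟨h1, h2, h3, h4, h5, h6, h7, h8, h9, h10⟩ := fns_h1 ob mb
  have hK := b.K1
  exact
    { l_pos := mb.l_pos
      l_le := by linarith [mb.l_le]
      M_ge := b.M1
      m2_near := abs_le.2 ⟨by linarith [mb.E2_ge, mb.E_le], by linarith [mb.E2_le, mb.E_ge]⟩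
      de_le := by linarith [mb.E2_ge]
      de_ge := by linarith [mb.E2_le]
      hR := h1
      hEv := h2
      hO := h3
      hNo := h4
      hNe := h5
      hN := h6
      hd := h7
      he1 := h8
      he2 := h9
      he3 := h10
      mkk := fns_mk ob mb
      nn := fns_nn g u Ψ A
      par := ae_of_all _ (fns_par ob mb)
      pyth := fns_pyth ob mb
      bd := bd.mono fun x hx =>
        hx.trans (mul_le_mul_of_nonneg_right (by linarith) (ex_pos _ _).le)
      strip := fns_strip ob mb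
      close := hcl e3 ob mb
      mass := R_mass mb
      massE := hme e4 ob mb
      energy := (fns_energy ob mb).trans (by linarith [mb.E_le])
      subR := b.subR
      subN := b.subN
      subd := b.subd
      sube := b.sube
      xR := b.xR
      xEv := b.xEv
      xEv' := b.xEv'
      xO := b.xO
      xd := b.xd
      xNo := b.xNo
      xNe := b.xNe
      xe := b.xe
      k_up := b.k_up
      k_lo := hk (100 * K) η (by linarith) e2 ob mb }

end Crest.Agent.R335
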